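-- KEEP
import Claimed.Agent.R252.S7p.Defs

/-!
# ROW 252 (S0492), unit S8-LISTS (post BP-252-S8-LISTS, helper17; prefix `k8l_`), file 1: the hub `K7pCode` for QUADRATIC POLYNOMIALS.      No `sorry`.

`k8l_code_quad : K7pCode k7pQuad k7pQuad 6 37`.   The code of a function is the vector of its values at the six nodes `(0,0), (1/2,0), (1,0), (0,1/2), (0,1), (1,1)` of the unit square (unisolvent for degree `≤ 2`).
Used by P8.6 (graph entries of the true labels = affine functions) to call `k7p_L72 k7pQuad`; together with `k7p_match_quad` the two hubs of L7.2 reduce to `k7a_Match`.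
-/

set_option autoImplicit false

namespace Claimed.Agent.R252

noncomputable section

/-- the six nodes -/
def k8lNode : Fin 6 → ℝ × ℝ := ![(0, 0), (1 / 2, 0), (1, 0), (0, 1 / 2), (0, 1), (1, 1)]

/-- the code: values at the nodes -/
def k8lCode (f : ℝ → ℝ → ℝ) (k : Fin 6) : ℝ := f (k8lNode k).1 (k8lNode k).2

theorem k8l_mul_le {e m B : ℝ} (he : |e| ≤ B) (hm0 : 0 ≤ m) (hm1 : m ≤ 1) : |e * m| ≤ B := by
  rw [abs_mul, abs_of_nonneg hm0]
  exact (mul_le_of_le_one_right (abs_nonneg _) hm1).trans he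

/-- a quadratic which is `≤ η` at the six nodes is `≤ 37 η` on the unit square -/
theorem k8l_quad_nodes (e0 e1 e2 e3 e4 e5 η : ℝ)
    (h00 : |e0| ≤ η) (hh0 : |e0 + e1 * (1 / 2) + e3 * (1 / 2) ^ 2| ≤ η) (h10 : |e0 + e1 + e3| ≤ η)
    (h0h : |e0 + e2 * (1 / 2) + e5 * (1 / 2) ^ 2| ≤ η) (h01 : |e0 + e2 + e5| ≤ η) (h11 : |e0 + e1 + e2 + e3 + e4 + e5| ≤ η)
    {t y : ℝ} (ht : t ∈ Set.Icc (0 : ℝ) 1) (hy : y ∈ Set.Icc (0 : ℝ) 1) :
    |e0 + e1 * t + e2 * y + e3 * t ^ 2 + e4 * t * y + e5 * y ^ 2| ≤ 37 * η := by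
  rw [abs_le] at h00 hh0 h10 h0h h01 h11
  have b1 : |e1| ≤ 8 * η := abs_le.2 ⟨by linarith [h00.1, h00.2, hh0.1, hh0.2, h10.1, h10.2], by linarith [h00.1, h00.2, hh0.1, hh0.2, h10.1, h10.2]⟩
  have b3 : |e3| ≤ 8 * η := abs_le.2 ⟨by linarith [h00.1, h00.2, hh0.1, hh0.2, h10.1, h10.2], by linarith [h00.1, h00.2, hh0.1, hh0.2, h10.1, h10.2]⟩
  have b2 : |e2| ≤ 8 * η := abs_le.2 ⟨by linarith [h00.1, h00.2, h0h.1, h0h.2, h01.1, h01.2], by linarith [h00.1, h00.2, h0h.1, h0h.2, h01.1, h01.2]⟩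
  have b5 : |e5| ≤ 8 * η := abs_le.2 ⟨by linarith [h00.1, h00.2, h0h.1, h0h.2, h01.1, h01.2], by linarith [h00.1, h00.2, h0h.1, h0h.2, h01.1, h01.2]⟩
  have b4 : |e4| ≤ 4 * η := abs_le.2 ⟨by linarith [h00.1, h00.2, h10.1, h10.2, h01.1, h01.2, h11.1, h11.2], by linarith [h00.1, h00.2, h10.1, h10.2, h01.1, h01.2, h11.1, h11.2]⟩
  have c1 := abs_le.1 (k8l_mul_le b1 ht.1 ht.2)
  have c2 := abs_le.1 (k8l_mul_le b2 hy.1 hy.2)
  have c3 := abs_le.1 (k8l_mul_le b3 (sq_nonneg t) (pow_le_one₀ ht.1 ht.2))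
  have c4 := abs_le.1 (k8l_mul_le b4 (mul_nonneg ht.1 hy.1) (mul_le_one₀ ht.2 hy.1 hy.2))
  have c5 := abs_le.1 (k8l_mul_le b5 (sq_nonneg y) (pow_le_one₀ hy.1 hy.2))
  have e : e4 * t * y = e4 * (t * y) := by ring
  rw [e]
  exact abs_le.2 ⟨by linarith [h00.1, c1.1, c2.1, c3.1, c4.1, c5.1], by linarith [h00.2, c1.2, c2.2, c3.2, c4.2, c5.2]⟩

/-- **the hub `K7pCode` for quadratic polynomials** -/
theorem k8l_code_quad : K7pCode k7pQuad k7pQuad 6 37 := by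
  refine ⟨k8lCode, fun f hf g hg η => ⟨fun hc k => ?_, fun hJ t ht y hy => ?_⟩⟩
  · have hmem : (k8lNode k).1 ∈ Set.Icc (0 : ℝ) 1 ∧ (k8lNode k).2 ∈ Set.Icc (0 : ℝ) 1 := by
      fin_cases k <;> simp [k8lNode] <;> norm_num
    have h := hc _ hmem.1 _ hmem.2
    have hη : 0 ≤ η := (abs_nonneg _).trans h
    exact h.trans (by linarith)
  · have hf' : K7aQuad f := by
      rcases hf with h | h <;> exact h
    obtain ⟨a0, a1, a2, a3, a4, a5, ha⟩ := hf'
    obtain ⟨b0, b1, b2, b3, b4, b5, hb⟩ := (hg : K7aQuad g)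
    have h0 := hJ 0
    have h1 := hJ 1
    have h2 := hJ 2
    have h3 := hJ 3
    have h4 := hJ 4
    have h5 := hJ 5
    simp only [k8lCode, k8lNode, ha, hb] at h0 h1 h2 h3 h4 h5
    simp at h0 h1 h2 h3 h4 h5
    have key := k8l_quad_nodes (a0 - b0) (a1 - b1) (a2 - b2) (a3 - b3) (a4 - b4) (a5 - b5) η
      (by convert h0 using 2) (by convert h1 using 2; ring) (by convert h2 using 2; ring) (by convert h3 using 2; ring)
      (by convert h4 using 2; ring) (by convert h5 using 2; ring) ht hy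
    rw [ha, hb]
    convert key using 2
    ring

end

end Claimed.Agent.R252
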