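import Claimed.Agent.R252.S8w.AdaptDefs

/-!
# Row 252, Sec. 8, unit S8-ADAPT (architect helper55; prefix `k8a`): THE ADAPTOR `K7bHor → K7aW`.      CONTRACT

PAPER-FREE.   Language: `S7b/HorDefs.lean` (`K7bHor`, `H.Ok c K`), `S7a/WideDefs.lean` (`K7aLn`, `K7aW`, `W.Ok`), `S8w/AdaptDefs.lean` (`k8aW`, dictionary), `State/KsState.lean` (`KsDom`, `KsOpt`, `KsLab`), `Base/Pb.lean` (`kbDy`, `kbBin`).
EXITS (consumers: S8-WIDE helper167, S8-LISTS helper17):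
* `k8a_pre_exists` : every dense residual `E` contains a dense PREPARED selection `Ev0` (`K8aPre`: inside the support of `lam`, only heavy labels of the depth `s`).
* `k8a_ok`         : `K8aPre ⟹ (k8aW H c s K lev Ev0).Ok N (100 K^8) d S (a s) (h s) (h s) Ms Ws` for all mesh/width exponents above the finest meshes of `c`.
* `k8a_nu_le`, `k8a_lam0_le`, `k8a_prior_le`, `k8a_blk`, `k8a_nuQ`, `k8a_lab_uniq` : the dictionary of masses (`lam ≤ lam0 ≤ K² lam` on `Ev0`).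
* `k8a_return`     : the output of `k7a_P73` for `k8aW` is a `K8Cand`.
NOTATION in the plans: `μ := H.ν.prod k7bTime`, `Lb := k8aLb H K`, `ι := (H.ν Lb)⁻¹ ∈ [1, K²]`, `N := c.N`, `a := c.a s`, `h := c.h s ≤ 1`, `W := k8aW H c s K lev Ev0`.
RULE: statements are frozen; prove IN PLACE; helper lemmas (prefix `k8a_`) directly above the theorem that needs them; earlier statements (also of the imported files) may be used as black boxes.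
All constants are generous: prove the sharp bound of the plan, then weaken with `1 ≤ K`.
-/

set_option autoImplicit false

namespace Claimed.Agent.R252

open MeasureTheory
open scoped ENNReal BigOperators

noncomputable section

/-- the standing hypotheses -/
structure K8aIn (H : K7bHor) (c : K7bPar) (K s : ℝ) : Prop where
  wf : c.WF
  dy : k8aDy c
  K1 : 1 ≤ K
  ok : H.Ok c K
  hs : s ∈ c.G

/-- **prepared selections** -/
structure K8aPre (H : K7bHor) (c : K7bPar) (K s : ℝ) (lev : ℕ) (Ev0 : Set (H.Lam × ℝ)) : Prop where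
  sub : Ev0 ⊆ H.Sp
  meas : MeasurableSet Ev0
  /-- `Ev0` lies in the support of the reference law -/
  law : (H.ν.prod k7bTime).restrict Ev0 = H.lam.restrict Ev0
  /-- every label of the depth `s` which occurs is heavy -/
  heavy : ∀ z ∈ Ev0, H.mQ (H.lab s z) ≤ ENNReal.ofReal (2 * K) * H.lam (Ev0 ∩ {z' | H.lab s z' = H.lab s z})
  dyad : ∀ q ∈ H.Qat s, H.bl q = (1 / 2 : ℝ) ^ lev ∧ ∃ i : ℕ, H.bt q = (i : ℝ) * (1 / 2 : ℝ) ^ lev
  nuLb : ENNReal.ofReal (1 / K ^ 2) ≤ H.ν (k8aLb H K)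

variable {H : K7bHor} {c : K7bPar} {K s : ℝ} {lev : ℕ} {Ev0 : Set (H.Lam × ℝ)}

/-! ## 0. Dyadic kit      (LEAF L-252-S8A-D0, Mathlib + `Base/Pb` only) -/

/-- PROOF: `Real.logb_zpow`/`Real.logb_rpow`-type lemma: `logb 2 (2^m) = m`, `Int.ceil_intCast`. -/
theorem k8a_dy_self (m : ℤ) : kbDy ((2 : ℝ) ^ m) = (2 : ℝ) ^ m := by
  have h : Real.logb 2 ((2 : ℝ) ^ m) = (m : ℝ) := by
    rw [← Real.rpow_intCast, Real.logb_rpow (by norm_num) (by norm_num)]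
  unfold kbDy
  rw [h, Int.ceil_intCast]

/-- PROOF: `n := ⌈logb 2 x⌉`; `logb 2 x ≤ n < logb 2 x + 1`; `2^(logb 2 x) = x` (`Real.rpow_logb`), `Real.rpow_intCast`, monotonicity of `2^·`. -/
theorem k8a_dy_bounds {x : ℝ} (hx : 0 < x) : x ≤ kbDy x ∧ kbDy x < 2 * x := by
  have h2 : (0 : ℝ) < 2 := by norm_num
  have h21 : (1 : ℝ) < 2 := by norm_num
  have hL : (2 : ℝ) ^ Real.logb 2 x = x := Real.rpow_logb h2 (by norm_num) hx
  have e : kbDy x = (2 : ℝ) ^ ((⌈Real.logb 2 x⌉ : ℤ) : ℝ) := by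
    unfold kbDy
    rw [Real.rpow_intCast]
  rw [e]
  constructor
  · calc x = (2 : ℝ) ^ Real.logb 2 x := hL.symm
      _ ≤ _ := Real.rpow_le_rpow_of_exponent_le h21.le (Int.le_ceil _)
  · calc (2 : ℝ) ^ ((⌈Real.logb 2 x⌉ : ℤ) : ℝ) < (2 : ℝ) ^ (Real.logb 2 x + 1) :=
          Real.rpow_lt_rpow_of_exponent_lt h21 (Int.ceil_lt_add_one _)
      _ = 2 * x := by rw [Real.rpow_add h2, hL, Real.rpow_one, mul_comm]

theorem k8a_bin_self {χ : ℝ} (h : ∃ m : ℤ, χ = (2 : ℝ) ^ m) (x : ℝ) : kbBin χ x = k7bBin χ x := by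
  obtain ⟨m, rfl⟩ := h
  unfold kbBin k7bBin
  rw [k8a_dy_self]

theorem k8a_binI_self {χ : ℝ} (h : ∃ m : ℤ, χ = (2 : ℝ) ^ m) (b : ℤ) : k7aBinI χ b = k7bIv χ b := by
  obtain ⟨m, rfl⟩ := h
  unfold k7aBinI k7bIv
  rw [k8a_dy_self]

/-- a coarser dyadic grid is a quotient of a finer one.
PROOF: `ξ = 2^m`, `kbDy σ = 2^m'` with `m ≤ m'` (since `2^m ≤ σ ≤ 2^m'`, `zpow_le_zpow_iff_right₀`); `n := 2^(m' - m).toNat`.   `⌊x / (n ξ)⌋ = ⌊x/ξ⌋ / n` : `Int.floor_div_natCast`-type statement, or directly from `Int.floor_eq_iff` and `Int.ediv_mul_le`, `Int.lt_ediv_add_one_mul_self`. -/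
theorem k8a_bin_coarse {ξ σ : ℝ} (h : ∃ m : ℤ, ξ = (2 : ℝ) ^ m) (hσ : ξ ≤ σ) :
    ∃ n : ℕ, 0 < n ∧ kbDy σ = n * ξ ∧ ∀ x, kbBin σ x = k7bBin ξ x / (n : ℤ) := by
  obtain ⟨m, rfl⟩ := h
  have hξ : (0 : ℝ) < (2 : ℝ) ^ m := by positivity
  have hσ0 : 0 < σ := lt_of_lt_of_le hξ hσ
  have hmm : m ≤ ⌈Real.logb 2 σ⌉ := by
    have h1 : (2 : ℝ) ^ m ≤ (2 : ℝ) ^ ⌈Real.logb 2 σ⌉ := hσ.trans (k8a_dy_bounds hσ0).1
    exact (zpow_le_zpow_iff_right₀ (by norm_num : (1 : ℝ) < 2)).1 h1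
  obtain ⟨k, hk⟩ := Int.eq_ofNat_of_zero_le (sub_nonneg.2 hmm)
  have hq : ⌈Real.logb 2 σ⌉ = m + k := by omega
  have hD : kbDy σ = ((2 ^ k : ℕ) : ℝ) * (2 : ℝ) ^ m := by
    unfold kbDy
    rw [hq, zpow_add₀ (by norm_num : (2 : ℝ) ≠ 0), zpow_natCast, mul_comm]
    push_cast
    rfl
  refine ⟨2 ^ k, by positivity, hD, fun x => ?_⟩
  unfold kbBin k7bBin
  rw [hD, mul_comm, ← div_div]
  exact Int.floor_div_natCast (x / (2 : ℝ) ^ m) (2 ^ k)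

/-- the cells of the fine grid inside one cell of the coarse grid -/
theorem k8a_bin_cells {ξ σ : ℝ} (h : ∃ m : ℤ, ξ = (2 : ℝ) ^ m) (hσ : ξ ≤ σ) (b : ℤ) :
    ∃ F : Finset ℤ, (F.card : ℝ) * ξ = kbDy σ ∧ ∀ x, kbBin σ x = b ↔ k7bBin ξ x ∈ F := by
  obtain ⟨n, hn, hD, hb⟩ := k8a_bin_coarse h hσ
  refine ⟨Finset.Ico (b * n) ((b + 1) * n), ?_, fun x => ?_⟩
  · rw [Int.card_Ico, hD]
    congr 1
    have : ((b + 1) * (n : ℤ) - b * n).toNat = n := by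
      have : (b + 1) * (n : ℤ) - b * n = n := by ring
      rw [this, Int.toNat_natCast]
    rw [this]
  · rw [hb, Int.ediv_eq_iff_of_pos (by exact_mod_cast hn), Finset.mem_Ico, add_mul, one_mul]

/-! ## 1. Existence of prepared selections      (LEAF L-252-S8A-A1) -/

/-- PROOF: six conditions `|f l| ≤ Kb` with `f` measurable (`hI.ok.mp` …): `measurableSet_le`, `Measurable.abs`… -/
theorem k8a_Lb_meas (hI : K8aIn H c K s) (Kb : ℝ) : MeasurableSet (k8aLb H Kb) := by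
  have h := hI.ok
  have e : k8aLb H Kb = {l | |H.p l| ≤ Kb} ∩ ({l | |H.v l| ≤ Kb} ∩ ({l | |H.q0 l| ≤ Kb} ∩ ({l | |H.y1 l| ≤ Kb} ∩
      ({l | |H.x0 l| ≤ Kb} ∩ {l | |H.x1 l| ≤ Kb})))) := rfl
  rw [e]
  exact (measurableSet_le h.mp.abs measurable_const).inter ((measurableSet_le h.mv.abs measurable_const).inter
    ((measurableSet_le h.mq0.abs measurable_const).inter ((measurableSet_le h.my1.abs measurable_const).inter
      ((measurableSet_le h.mx0.abs measurable_const).inter (measurableSet_le h.mx1.abs measurable_const)))))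

/-- PROOF: `Ok.bdd`, `Ok.bddx`, `Ok.time`. -/
theorem k8a_Sp_sub (hI : K8aIn H c K s) : H.Sp ⊆ k8aLb H K ×ˢ Set.Icc (0 : ℝ) 1 := by
  intro z hz
  obtain ⟨b1, b2, b3, b4⟩ := hI.ok.bdd z hz
  obtain ⟨b5, b6⟩ := hI.ok.bddx z hz
  exact ⟨⟨b1, b2, b3, b4, b5, b6⟩, hI.ok.time z hz⟩

theorem k8a_time_Icc : k7bTime (Set.Icc (0 : ℝ) 1) = 1 := by
  unfold k7bTime
  rw [Measure.restrict_apply measurableSet_Icc, Set.inter_self, Real.volume_Icc]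
  simp

theorem k8a_pre_nuLb (hI : K8aIn H c K s) {E : Set (H.Lam × ℝ)} (hE : H.Res E (1 / K)) :
    ENNReal.ofReal (1 / K ^ 2) ≤ H.ν (k8aLb H K) := by
  have hK := hI.K1
  have hK0 : 0 < K := by linarith
  have : SFinite k7bTime := by
    unfold k7bTime
    infer_instance
  have h1 : ENNReal.ofReal (1 / K) ≤ ENNReal.ofReal K * H.ν (k8aLb H K) := by
    calc ENNReal.ofReal (1 / K) ≤ H.lam E := hE.mass
      _ ≤ (ENNReal.ofReal K • H.ν.prod k7bTime) E := hI.ok.dom E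
      _ = ENNReal.ofReal K * (H.ν.prod k7bTime) E := by rw [Measure.smul_apply, smul_eq_mul]
      _ ≤ ENNReal.ofReal K * (H.ν.prod k7bTime) (k8aLb H K ×ˢ Set.Icc (0 : ℝ) 1) := by
          gcongr
          exact hE.sub.trans (k8a_Sp_sub hI)
      _ = ENNReal.ofReal K * H.ν (k8aLb H K) := by rw [Measure.prod_prod, k8a_time_Icc, mul_one]
  calc ENNReal.ofReal (1 / K ^ 2) = ENNReal.ofReal (1 / K) * ENNReal.ofReal (1 / K) := by
        rw [← ENNReal.ofReal_mul (by positivity)]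
        congr 1
        field_simp
    _ ≤ ENNReal.ofReal (1 / K) * (ENNReal.ofReal K * H.ν (k8aLb H K)) := by gcongr
    _ = H.ν (k8aLb H K) := by
        rw [← mul_assoc, ← ENNReal.ofReal_mul (by positivity), one_div, inv_mul_cancel₀ hK0.ne', ENNReal.ofReal_one, one_mul]

/-- **every dense residual contains a dense prepared selection.**
PROOF.  `lev` from `hI.ok.dyad s hI.hs`.   `Ev0_H` from `hI.ok.lamres` (`lam = μ.restrict Ev0_H`).   `E₁ := E ∩ Ev0_H`; `lam E₁ = lam E` (`Measure.restrict_apply`, `Set.inter_assoc`, `Set.inter_self`).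
`A q := E₁ ∩ H.lab s ⁻¹' {q}` (measurable: `hI.ok.mlab`), pairwise disjoint.   `Good := {q | H.mQ q ≤ ofReal (2K) * lam (A q)}`,  `Ev0 := {z ∈ E₁ | H.lab s z ∈ Good} = ⋃_{q ∈ Good} A q` (finite union: `H.Q` is a `Fintype`).
For `z ∈ Ev0` : `Ev0 ∩ {lab = lab z} = A (lab z)`: field `heavy`.   REMOVED: `E₁ \ Ev0 ⊆ ⋃_{q ∈ Qat s, q ∉ Good} A q` (`Ok.labmem`), `lam (A q) ≤ mQ q / ofReal (2K)` for `q ∉ Good` (`ENNReal.le_div_iff_mul_le`, `mul_comm`), sum `≤ (∑_{Qat s} mQ q)/ofReal (2K) ≤ 1/ofReal (2K) = ofReal (1/(2K))` (`Ok.budget`).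
`ofReal (1/K) ≤ lam E₁ ≤ lam Ev0 + ofReal (1/(2K))`, `1/K = 1/(2K) + 1/(2K)` (`ENNReal.ofReal_add`, `ENNReal.add_le_add_iff_right`).
LAST CLAIM (added 21:30Z): `E \ Ev0 ⊆ (E \ Ev0_H) ∪ (E₁ \ Ev0)`, `lam (E \ Ev0_H) = 0`.
`law` : `Measure.restrict_restrict_of_subset` (`Ev0 ⊆ Ev0_H`).   `nuLb` : `ofReal (1/K) ≤ lam E ≤ ofReal K * μ E` (`Ok.dom`, `Measure.smul_apply`) `≤ ofReal K * μ (Lb ×ˢ Icc 0 1) = ofReal K * ν Lb * 1` (`k8a_Sp_sub`, `Measure.prod_prod`, `k7bTime (Icc 0 1) = 1`).   ~300 l. -/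
theorem k8a_pre_exists (hI : K8aIn H c K s) {E : Set (H.Lam × ℝ)} (hE : H.Res E (1 / K)) :
    ∃ (lev : ℕ) (Ev0 : Set (H.Lam × ℝ)), Ev0 ⊆ E ∧ H.Res Ev0 (1 / (2 * K)) ∧ K8aPre H c K s lev Ev0 ∧
      H.lam (E \ Ev0) ≤ ENNReal.ofReal (1 / (2 * K)) := by
  classical
  have hK := hI.K1
  have hK0 : 0 < K := by linarith
  obtain ⟨lev, hlev⟩ := hI.ok.dyad s hI.hs
  obtain ⟨EvH, hEvH, hlam⟩ := hI.ok.lamres
  have hmlab := hI.ok.mlab s hI.hs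
  set E₁ : Set (H.Lam × ℝ) := E ∩ EvH with hE₁
  have hE₁m : MeasurableSet E₁ := hE.meas.inter hEvH
  have hlamE₁ : H.lam E₁ = H.lam E := by
    rw [hlam, Measure.restrict_apply' hEvH, Measure.restrict_apply' hEvH, hE₁, Set.inter_assoc, Set.inter_self]
  set A : H.Q → Set (H.Lam × ℝ) := fun q => E₁ ∩ H.lab s ⁻¹' {q} with hA
  set Good : Set H.Q := {q | H.mQ q ≤ ENNReal.ofReal (2 * K) * H.lam (A q)} with hGood
  set Ev0 : Set (H.Lam × ℝ) := E₁ ∩ H.lab s ⁻¹' Good with hEv0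
  have hpre : MeasurableSet (H.lab s ⁻¹' Good) := by
    have : H.lab s ⁻¹' Good = ⋃ q ∈ Good, H.lab s ⁻¹' {q} := by
      ext z
      simp
    rw [this]
    exact MeasurableSet.biUnion (Set.to_countable Good) fun q _ => hmlab q
  have hEv0m : MeasurableSet Ev0 := hE₁m.inter hpre
  have hEv0E : Ev0 ⊆ E := fun z hz => hz.1.1
  have hEv0Sp : Ev0 ⊆ H.Sp := hEv0E.trans hE.sub
  have h2K : ENNReal.ofReal (2 * K) ≠ 0 := (ENNReal.ofReal_pos.2 (by positivity)).ne'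
  have h2KT : ENNReal.ofReal (2 * K) ≠ ⊤ := ENNReal.ofReal_ne_top
  -- the removed part
  have hrem : H.lam (E₁ \ Ev0) ≤ ENNReal.ofReal (1 / (2 * K)) := by
    have hsub : E₁ \ Ev0 ⊆ ⋃ q ∈ (H.Qat s).filter (fun q => q ∉ Good), A q := by
      rintro z ⟨hz1, hz2⟩
      have hq : H.lab s z ∉ Good := fun hg => hz2 ⟨hz1, hg⟩
      have hmem := (hI.ok.labmem s hI.hs z (hE.sub hz1.1)).1
      exact Set.mem_biUnion (x := H.lab s z) (by simpa using ⟨hmem, hq⟩) ⟨hz1, rfl⟩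
    calc H.lam (E₁ \ Ev0) ≤ H.lam (⋃ q ∈ (H.Qat s).filter (fun q => q ∉ Good), A q) := measure_mono hsub
      _ ≤ ∑ q ∈ (H.Qat s).filter (fun q => q ∉ Good), H.lam (A q) := measure_biUnion_finset_le _ _
      _ ≤ ∑ q ∈ (H.Qat s).filter (fun q => q ∉ Good), H.mQ q / ENNReal.ofReal (2 * K) := by
          refine Finset.sum_le_sum fun q hq => ?_
          have hq' : q ∉ Good := (Finset.mem_filter.1 hq).2
          have hlt : ENNReal.ofReal (2 * K) * H.lam (A q) < H.mQ q := not_le.1 hq'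
          rw [ENNReal.le_div_iff_mul_le (Or.inl h2K) (Or.inl h2KT), mul_comm]
          exact hlt.le
      _ ≤ ∑ q ∈ H.Qat s, H.mQ q / ENNReal.ofReal (2 * K) :=
          Finset.sum_le_sum_of_subset (Finset.filter_subset _ _)
      _ = (∑ q ∈ H.Qat s, H.mQ q) / ENNReal.ofReal (2 * K) := by
          simp only [div_eq_mul_inv, Finset.sum_mul]
      _ ≤ 1 / ENNReal.ofReal (2 * K) := by
          gcongr
          exact hI.ok.budget s hI.hs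
      _ = ENNReal.ofReal (1 / (2 * K)) := by
          rw [one_div, one_div, ENNReal.ofReal_inv_of_pos (by positivity)]
  have hmass : ENNReal.ofReal (1 / (2 * K)) ≤ H.lam Ev0 := by
    have h1 : ENNReal.ofReal (1 / (2 * K)) + ENNReal.ofReal (1 / (2 * K)) ≤ H.lam Ev0 + ENNReal.ofReal (1 / (2 * K)) := by
      calc ENNReal.ofReal (1 / (2 * K)) + ENNReal.ofReal (1 / (2 * K)) = ENNReal.ofReal (1 / K) := by
            rw [← ENNReal.ofReal_add (by positivity) (by positivity)]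
            congr 1
            field_simp
            norm_num
        _ ≤ H.lam E := hE.mass
        _ = H.lam E₁ := hlamE₁.symm
        _ ≤ H.lam (Ev0 ∪ E₁ \ Ev0) := measure_mono (by
            intro z hz
            by_cases h : z ∈ Ev0
            · exact Or.inl h
            · exact Or.inr ⟨hz, h⟩)
        _ ≤ H.lam Ev0 + H.lam (E₁ \ Ev0) := measure_union_le _ _
        _ ≤ H.lam Ev0 + ENNReal.ofReal (1 / (2 * K)) := by gcongr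
    exact (ENNReal.add_le_add_iff_right ENNReal.ofReal_ne_top).1 h1
  have hlast : H.lam (E \ Ev0) ≤ ENNReal.ofReal (1 / (2 * K)) := by
    have h0 : H.lam (E \ EvH) = 0 := by
      rw [hlam, Measure.restrict_apply' hEvH]
      have : E \ EvH ∩ EvH = ∅ := by
        ext z
        simp only [Set.mem_inter_iff, Set.mem_sdiff, Set.mem_empty_iff_false, iff_false]
        rintro ⟨⟨-, h1⟩, h2⟩
        exact h1 h2
      rw [this, measure_empty]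
    calc H.lam (E \ Ev0) ≤ H.lam (E \ EvH ∪ E₁ \ Ev0) := measure_mono (by
          rintro z ⟨hz1, hz2⟩
          by_cases h : z ∈ EvH
          · exact Or.inr ⟨⟨hz1, h⟩, hz2⟩
          · exact Or.inl ⟨hz1, h⟩)
      _ ≤ H.lam (E \ EvH) + H.lam (E₁ \ Ev0) := measure_union_le _ _
      _ ≤ ENNReal.ofReal (1 / (2 * K)) := by rw [h0, zero_add]; exact hrem
  refine ⟨lev, Ev0, hEv0E, ⟨hEv0Sp, hEv0m, hmass⟩, ?_, hlast⟩
  refine
    { sub := hEv0Sp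
      meas := hEv0m
      law := ?_
      heavy := fun z hz => ?_
      dyad := hlev
      nuLb := k8a_pre_nuLb hI hE }
  · have hsub : Ev0 ⊆ EvH := fun z hz => hz.1.2
    rw [hlam, Measure.restrict_restrict_of_subset hsub]
  · have e : Ev0 ∩ {z' | H.lab s z' = H.lab s z} = A (H.lab s z) := by
      ext z'
      constructor
      · rintro ⟨h1, h2⟩
        exact ⟨h1.1, h2⟩
      · rintro ⟨h1, h2⟩
        have h2' : H.lab s z' = H.lab s z := h2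
        refine ⟨⟨h1, ?_⟩, h2'⟩
        show H.lab s z' ∈ Good
        rw [h2']
        exact hz.2
    rw [e]
    exact hz.2

/-- prepared selections may be shrunk only through whole labels; what persists under ARBITRARY restriction is `W.Ok` itself with the FIXED `Ev0` (the current selection of P7.3 is its argument `E ⊆ Ev0`). -/
theorem k8a_pre_note : True := trivial

/-! ## 2. The dictionary of masses      (LEAF L-252-S8A-A2) -/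

theorem k8a_time_sfin : SFinite k7bTime := by
  unfold k7bTime
  infer_instance

theorem k8a_nu_fin (hI : K8aIn H c K s) : IsFiniteMeasure H.ν :=
  ⟨hI.ok.νle.trans_lt ENNReal.one_lt_top⟩

theorem k8a_Lb_ne_zero (hI : K8aIn H c K s) (hP : K8aPre H c K s lev Ev0) : H.ν (k8aLb H K) ≠ 0 := by
  have hK := hI.K1
  have h1 : 0 < ENNReal.ofReal (1 / K ^ 2) := ENNReal.ofReal_pos.2 (by positivity)
  exact (h1.trans_le hP.nuLb).ne'

theorem k8a_Lb_le_one (hI : K8aIn H c K s) : H.ν (k8aLb H K) ≤ 1 :=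
  (measure_mono (Set.subset_univ _)).trans hI.ok.νle

theorem k8a_Lb_ne_top (hI : K8aIn H c K s) : H.ν (k8aLb H K) ≠ ⊤ :=
  ((k8a_Lb_le_one hI).trans_lt ENNReal.one_lt_top).ne

theorem k8a_iota_ge (hI : K8aIn H c K s) : 1 ≤ (H.ν (k8aLb H K))⁻¹ :=
  ENNReal.one_le_inv.2 (k8a_Lb_le_one hI)

theorem k8a_iota_le (hI : K8aIn H c K s) (hP : K8aPre H c K s lev Ev0) : (H.ν (k8aLb H K))⁻¹ ≤ ENNReal.ofReal (K ^ 2) := by
  have hK := hI.K1
  have h1 : ENNReal.ofReal (1 / K ^ 2) = (ENNReal.ofReal (K ^ 2))⁻¹ := by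
    rw [one_div, ENNReal.ofReal_inv_of_pos (by positivity)]
  have h2 := hP.nuLb
  rw [h1] at h2
  have h3 := ENNReal.inv_le_inv.2 h2
  rwa [inv_inv] at h3

/-- PROOF: `ν Lb ≠ 0` (`nuLb`, `0 < 1/K²`), `ν Lb ≤ 1` (`Ok.νle`), so `ι • ν.restrict Lb` has total mass `ι * ν Lb = 1` (`ENNReal.inv_mul_cancel`). -/
theorem k8a_nu_prob (hI : K8aIn H c K s) (hP : K8aPre H c K s lev Ev0) : IsProbabilityMeasure (k8aNu H K) := by
  refine ⟨?_⟩
  show ((H.ν (k8aLb H K))⁻¹ • H.ν.restrict (k8aLb H K)) Set.univ = 1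
  rw [Measure.smul_apply, Measure.restrict_apply_univ, smul_eq_mul]
  exact ENNReal.inv_mul_cancel (k8a_Lb_ne_zero hI hP) (k8a_Lb_ne_top hI)

/-- PROOF: `Measure.smul_apply`, `Measure.restrict_apply'` (`k8a_Lb_meas`), `1 ≤ ι` (`ENNReal.one_le_inv`…), `ι ≤ ofReal (K²)` (`ENNReal.inv_le_iff…` from `nuLb`, `ofReal (1/K²) = (ofReal (K²))⁻¹`). -/
theorem k8a_nu_le (hI : K8aIn H c K s) (hP : K8aPre H c K s lev Ev0) (A : Set H.Lam) :
    H.ν (A ∩ k8aLb H K) ≤ k8aNu H K A ∧ k8aNu H K A ≤ ENNReal.ofReal (K ^ 2) * H.ν (A ∩ k8aLb H K) := by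
  have e : k8aNu H K A = (H.ν (k8aLb H K))⁻¹ * H.ν (A ∩ k8aLb H K) := by
    show ((H.ν (k8aLb H K))⁻¹ • H.ν.restrict (k8aLb H K)) A = _
    rw [Measure.smul_apply, Measure.restrict_apply' (k8a_Lb_meas hI K), smul_eq_mul]
  rw [e]
  constructor
  · calc H.ν (A ∩ k8aLb H K) = 1 * H.ν (A ∩ k8aLb H K) := (one_mul _).symm
      _ ≤ _ := by gcongr; exact k8a_iota_ge hI
  · gcongr
    exact k8a_iota_le hI hP

/-- KEY IDENTITY.   PROOF: `(ι • ν.restrict Lb).prod τ = ι • (ν.restrict Lb).prod τ` (`Measure.prod_smul_left`), `(ν.restrict Lb).prod τ = μ.restrict (Lb ×ˢ univ)` (`Measure.prod_restrict`, `Measure.restrict_univ`), `Measure.restrict_smul`, `Measure.restrict_restrict_of_subset` (`Ev0 ⊆ Sp ⊆ Lb ×ˢ univ`), `hP.law`. -/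
theorem k8a_lam0_eq (hI : K8aIn H c K s) (hP : K8aPre H c K s lev Ev0) :
    (k8aLn H c K Ev0).lam0 = (H.ν (k8aLb H K))⁻¹ • H.lam.restrict Ev0 := by
  have := k8a_time_sfin
  have := k8a_nu_fin hI
  have h1 : (H.ν.restrict (k8aLb H K)).prod k7bTime = (H.ν.prod k7bTime).restrict (k8aLb H K ×ˢ Set.univ) := by
    rw [← Measure.prod_restrict, Measure.restrict_univ]
  have h2 : Ev0 ⊆ k8aLb H K ×ˢ (Set.univ : Set ℝ) := fun z hz => ⟨(k8a_Sp_sub hI (hP.sub hz)).1, Set.mem_univ _⟩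
  rw [k8a_lam0]
  show (((H.ν (k8aLb H K))⁻¹ • H.ν.restrict (k8aLb H K)).prod k7bTime).restrict Ev0 = _
  rw [Measure.prod_smul_left, h1, Measure.restrict_smul, Measure.restrict_restrict_of_subset h2, hP.law]

theorem k8a_lam0_le (hI : K8aIn H c K s) (hP : K8aPre H c K s lev Ev0) (A : Set (H.Lam × ℝ)) :
    H.lam (A ∩ Ev0) ≤ (k8aLn H c K Ev0).lam0 A ∧ (k8aLn H c K Ev0).lam0 A ≤ ENNReal.ofReal (K ^ 2) * H.lam (A ∩ Ev0) := by
  have e : (k8aLn H c K Ev0).lam0 A = (H.ν (k8aLb H K))⁻¹ * H.lam (A ∩ Ev0) := by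
    rw [k8a_lam0_eq hI hP, Measure.smul_apply, Measure.restrict_apply' hP.meas, smul_eq_mul]
  rw [e]
  constructor
  · calc H.lam (A ∩ Ev0) = 1 * H.lam (A ∩ Ev0) := (one_mul _).symm
      _ ≤ _ := by gcongr; exact k8a_iota_ge hI
  · gcongr
    exact k8a_iota_le hI hP

/-- PROOF: for `A ⊆ Ev0` : `prior A = lam0 A` (`Measure.restrict_apply'` with the measurable `Ev0`, `A ∩ Ev0 = A`), then `k8a_lam0_le`. -/
theorem k8a_prior_le (hI : K8aIn H c K s) (hP : K8aPre H c K s lev Ev0) {A : Set (H.Lam × ℝ)} (hA : A ⊆ Ev0) :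
    H.lam A ≤ (k8aLn H c K Ev0).prior A ∧ (k8aLn H c K Ev0).prior A ≤ ENNReal.ofReal (K ^ 2) * H.lam A := by
  have e : (k8aLn H c K Ev0).lam0 A = (k8aLn H c K Ev0).prior A := by
    show ((k8aLn H c K Ev0).prior.restrict Ev0) A = _
    rw [Measure.restrict_apply' hP.meas, Set.inter_eq_left.2 hA]
  have h := k8a_lam0_le hI hP A
  rwa [e, Set.inter_eq_left.2 hA] at h

/-! ## 3. Blocks and boxes      (LEAF L-252-S8A-A3) -/

/-- PROOF: `bt q = i (1/2)^lev` gives `bt q * 2^lev = i`, `Nat.floor_natCast`; `W.q = (1/2)^lev = bl q`; `((i:ℝ) + 1) * q = bt + bl`. -/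
theorem k8a_blk (hP : K8aPre H c K s lev Ev0) {q : H.Q} (hq : q ∈ H.Qat s) :
    (k8aW H c s K lev Ev0).blk q = H.blk q ∧ (k8aW H c s K lev Ev0).q = H.bl q := by
  obtain ⟨h1, i, h2⟩ := hP.dyad q hq
  have hq' : (k8aW H c s K lev Ev0).q = H.bl q := by
    rw [h1]; rfl
  refine ⟨?_, hq'⟩
  have hiv : (k8aW H c s K lev Ev0).iv q = i := by
    show ⌊H.bt q * 2 ^ lev⌋₊ = i
    rw [h2, mul_assoc, ← mul_pow]
    norm_num
  unfold K7aW.blk K7bHor.blk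
  rw [hiv, hq', h2, h1]
  congr 1
  ring

/-- positivity of the scales -/
theorem k8a_pos (hI : K8aIn H c K s) : 0 < c.N ∧ 0 < c.a s ∧ 0 < c.h s ∧ c.h s ≤ 1 ∧ 0 < K := by
  have hN : 0 < c.N := lt_of_lt_of_le one_pos hI.wf.N1
  refine ⟨hN, Real.rpow_pos_of_pos hN _, Real.rpow_pos_of_pos hN _, ?_, lt_of_lt_of_le one_pos hI.K1⟩
  refine Real.rpow_le_one_of_one_le_of_nonpos hI.wf.N1 ?_
  have := mul_nonneg hI.wf.k0.le (hI.wf.G0 s hI.hs)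
  linarith

/-- the time measure of a point vanishes -/
theorem k8a_time_point (x : ℝ) : k7bTime {x} = 0 := by
  refine le_antisymm ?_ zero_le
  calc k7bTime {x} ≤ volume {x} := Measure.restrict_le_self _
    _ = 0 := by simp

/-- a label which occurs has a positive mass, hence a bounded line and a time `< 1` in its block.
PROOF: `q = lab s z`, `z ∈ Ev0`.   `0 < mQ q` (`Ok.νQ` lower bound `> 0`, `bl q = (1/2)^lev > 0`), so `0 < lam (Ev0 ∩ {lab = q})` by `heavy`.   `lam ≤ ofReal K • μ` and `Ev0 ∩ {lab = q} ⊆ univ ×ˢ (blk q ∩ Icc 0 1)`: `0 < volume (blk q ∩ Icc 0 1)`, so `bt q < 1` (otherwise the intersection is `⊆ {1}`).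
The line and the time: `z` itself (`Ok.labmem`, `k8a_Sp_sub`). -/
theorem k8a_occ (hI : K8aIn H c K s) (hP : K8aPre H c K s lev Ev0) {q : H.Q} (hq : q ∈ (k8aW H c s K lev Ev0).Qa) :
    H.bt q < 1 ∧ ∃ l t, l ∈ H.asg q ∩ k8aLb H K ∧ t ∈ H.blk q ∧ t ∈ Set.Icc (0 : ℝ) 1 := by
  obtain ⟨hqs, z, hz, rfl⟩ := hq
  have hzS := hP.sub hz
  obtain ⟨-, hb, has⟩ := hI.ok.labmem s hI.hs z hzS
  have hSp := k8a_Sp_sub hI hzS
  refine ⟨?_, z.1, z.2, ⟨has, hSp.1⟩, hb, hSp.2⟩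
  by_contra hcon
  have hcon' : 1 ≤ H.bt (H.lab s z) := not_lt.1 hcon
  obtain ⟨hN, ha, hh, hh1, hK⟩ := k8a_pos hI
  have hsf : SFinite k7bTime := by unfold k7bTime; infer_instance
  have hν : 0 < H.ν (H.asg (H.lab s z)) :=
    lt_of_lt_of_le (ENNReal.ofReal_pos.2 (by positivity)) (hI.ok.νQ s hI.hs _ hqs).1
  have hbl : 0 < H.bl (H.lab s z) := by
    rw [(hP.dyad _ hqs).1]; positivity
  have hm : 0 < H.mQ (H.lab s z) :=
    ENNReal.mul_pos (ENNReal.ofReal_pos.2 hbl).ne' hν.ne'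
  have hsub : Ev0 ∩ {z' | H.lab s z' = H.lab s z} ⊆ (Set.univ : Set H.Lam) ×ˢ ({1} : Set ℝ) := by
    rintro z' ⟨hz', hl'⟩
    have hz'S := hP.sub hz'
    have h1 := (hI.ok.labmem s hI.hs z' hz'S).2.1
    rw [show H.lab s z' = H.lab s z from hl', K7bHor.blk] at h1
    have h2 := (hI.ok.time z' hz'S).2
    exact ⟨Set.mem_univ _, le_antisymm h2 (hcon'.trans h1.1)⟩
  have h0 : H.lam (Ev0 ∩ {z' | H.lab s z' = H.lab s z}) = 0 := by
    refine le_antisymm ?_ zero_le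
    calc H.lam (Ev0 ∩ {z' | H.lab s z' = H.lab s z})
        ≤ (ENNReal.ofReal K • H.ν.prod k7bTime) (Ev0 ∩ {z' | H.lab s z' = H.lab s z}) := hI.ok.dom _
      _ ≤ (ENNReal.ofReal K • H.ν.prod k7bTime) ((Set.univ : Set H.Lam) ×ˢ ({1} : Set ℝ)) := measure_mono hsub
      _ = 0 := by
          rw [Measure.smul_apply, Measure.prod_prod, k8a_time_point]; simp
  have := hP.heavy z hz
  rw [h0, mul_zero] at this
  exact absurd (lt_of_lt_of_le hm this) (lt_irrefl _)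

/-- weakening of the constants -/
theorem k8a_K_le {K : ℝ} (hK : 1 ≤ K) : K ≤ 100 * K ^ 8 ∧ 8 * K ^ 2 ≤ 100 * K ^ 8 ∧ 4 * K ^ 2 ≤ 100 * K ^ 8 ∧ 3 * K ≤ 100 * K ^ 8 ∧ 1 + K ≤ 100 * K ^ 8 := by
  have h8 : K ^ 2 ≤ K ^ 8 := pow_le_pow_right₀ hK (by norm_num)
  have h1 : K ≤ K ^ 2 := by rw [pow_two]; exact le_mul_of_one_le_left (by linarith) hK
  refine ⟨by linarith, by linarith, by linarith, by linarith, by linarith⟩

/-- the centre of a label which occurs is bounded -/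
theorem k8a_row (hI : K8aIn H c K s) (hP : K8aPre H c K s lev Ev0) {q : H.Q} (hq : q ∈ (k8aW H c s K lev Ev0).Qa) :
    |H.ct q| ≤ 1 + K ∧ |H.cZ q| ≤ 3 * K ∧ |H.cY q| ≤ 8 * K ^ 2 := by
  obtain ⟨hN, ha, hh, hh1, hK⟩ := k8a_pos hI
  have hK1 := hI.K1
  obtain ⟨-, l, t, ⟨hl1, hl2⟩, ht1, ht2⟩ := k8a_occ hI hP hq
  obtain ⟨b1, b2, b3⟩ := hI.ok.box s hI.hs q hq.1 l hl1 t ht1
  obtain ⟨p1, p2, p3, p4, -, -⟩ := hl2
  simp only [K7bHor.bs, K7bHor.Zt, K7bHor.Yt] at b1 b2 b3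
  have hKh : K * c.h s ≤ K := mul_le_of_le_one_right hK.le hh1
  have hKh2 : K * c.h s ^ 2 ≤ K := mul_le_of_le_one_right hK.le (pow_le_one₀ hh.le hh1)
  have ht : |t| ≤ 1 := abs_le.2 ⟨by linarith [ht2.1], ht2.2⟩
  have htv : |t * H.v l| ≤ 1 * K := by
    rw [abs_mul]; exact mul_le_mul ht p2 (abs_nonneg _) zero_le_one
  have hty : |t * H.y1 l| ≤ 1 * K := by
    rw [abs_mul]; exact mul_le_mul ht p4 (abs_nonneg _) zero_le_one
  have c1 : |H.ct q| ≤ 1 + K := by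
    have e : H.ct q = t - (t - H.ct q) := by ring
    rw [e]; exact (abs_sub _ _).trans (by linarith)
  have c2 : |H.cZ q| ≤ 3 * K := by
    have e : H.cZ q = H.p l + t * H.v l - (H.p l + t * H.v l - H.cZ q) := by ring
    rw [e]
    refine (abs_sub _ _).trans ?_
    have := abs_add_le (H.p l) (t * H.v l)
    linarith
  refine ⟨c1, c2, ?_⟩
  have d1 : |H.cZ q * (t - H.ct q)| ≤ 3 * K * K := by
    rw [abs_mul]; exact mul_le_mul c2 (b1.trans hKh) (abs_nonneg _) (by linarith)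
  have d2 : |H.ct q * (H.p l + t * H.v l - H.cZ q)| ≤ (1 + K) * K := by
    rw [abs_mul]; exact mul_le_mul c1 (b2.trans hKh) (abs_nonneg _) (by linarith)
  have e : H.cY q = (H.q0 l + t * H.y1 l) + H.cZ q * (t - H.ct q) - H.ct q * (H.p l + t * H.v l - H.cZ q)
      - (H.q0 l + t * H.y1 l - H.cY q - (-H.cZ q * (t - H.ct q) + H.ct q * (H.p l + t * H.v l - H.cZ q))) := by ring
  rw [e]
  refine (abs_sub _ _).trans ?_
  have f1 := abs_sub ((H.q0 l + t * H.y1 l) + H.cZ q * (t - H.ct q)) (H.ct q * (H.p l + t * H.v l - H.cZ q))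
  have f2 := abs_add_le (H.q0 l + t * H.y1 l) (H.cZ q * (t - H.ct q))
  have f3 := abs_add_le (H.q0 l) (t * H.y1 l)
  have hKK : K ≤ K ^ 2 := by rw [pow_two]; exact le_mul_of_one_le_left hK.le hK1
  nlinarith

/-- the slope of a line of a label -/
theorem k8a_slope (hI : K8aIn H c K s) {q : H.Q} (hq : q ∈ H.Qat s) {l : H.Lam} (hl : l ∈ H.asg q) :
    |H.y1 l - (-H.cZ q + H.ct q * H.v l)| ≤ 4 * K ^ 2 * c.h s := by
  obtain ⟨hN, ha, hh, hh1, hK⟩ := k8a_pos hI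
  obtain ⟨l1, l2⟩ := hI.ok.bllen s hI.hs q hq
  have hbl : 0 < H.bl q := lt_of_lt_of_le (div_pos hh hK) l1
  obtain ⟨-, -, b3⟩ := hI.ok.box s hI.hs q hq l hl (H.bt q) ⟨le_rfl, by linarith⟩
  obtain ⟨-, -, b3'⟩ := hI.ok.box s hI.hs q hq l hl (H.bt q + H.bl q / 2) ⟨by linarith, by linarith⟩
  simp only [K7bHor.bs, K7bHor.Zt, K7bHor.Yt] at b3 b3'
  obtain ⟨σ, hσ⟩ : ∃ σ, σ = H.y1 l - (-H.cZ q + H.ct q * H.v l) := ⟨_, rfl⟩
  rw [← hσ]
  have e : σ * (H.bl q / 2)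
      = (H.q0 l + (H.bt q + H.bl q / 2) * H.y1 l - H.cY q - (-H.cZ q * (H.bt q + H.bl q / 2 - H.ct q)
          + H.ct q * (H.p l + (H.bt q + H.bl q / 2) * H.v l - H.cZ q)))
        - (H.q0 l + H.bt q * H.y1 l - H.cY q - (-H.cZ q * (H.bt q - H.ct q) + H.ct q * (H.p l + H.bt q * H.v l - H.cZ q))) := by
    rw [hσ]; ring
  have h1 : |σ| * (H.bl q / 2) ≤ 2 * (K * c.h s ^ 2) := by
    rw [← abs_of_pos (by linarith : 0 < H.bl q / 2), ← abs_mul, e]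
    exact (abs_sub _ _).trans (by linarith)
  have h2 : |σ| * (c.h s / K / 2) ≤ |σ| * (H.bl q / 2) :=
    mul_le_mul_of_nonneg_left (by linarith) (abs_nonneg _)
  have h3 : |σ| * (c.h s / K / 2) ≤ 2 * (K * c.h s ^ 2) := h2.trans h1
  have e2 : |σ| * (c.h s / K / 2) = |σ| * (c.h s / (2 * K)) := by
    congr 1; field_simp
  rw [e2, ← mul_div_assoc, div_le_iff₀ (by positivity)] at h3
  have h4 : |σ| * c.h s ≤ (4 * K ^ 2 * c.h s) * c.h s := by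
    calc |σ| * c.h s ≤ 2 * (K * c.h s ^ 2) * (2 * K) := h3
      _ = (4 * K ^ 2 * c.h s) * c.h s := by ring
  exact le_of_mul_le_mul_right h4 hh

/-- the geometric fields of `W.Ok`.
PROOF.  `h = c.h s ≤ 1` (`N ≥ 1`, `k s ≥ 0`).   `q_lo`, `q_hi` : `Ok.bllen` + `k8a_blk` for a label which occurs; IF NO LABEL OCCURS … the statement below therefore assumes `Ev0.Nonempty`.   `iv_lt` : `bt q = i (1/2)^lev < 1`.   `disj` : `iv q = iv q'` gives `blk q = blk q'` (`k8a_blk`), `Ok.asgdisj`, `Disjoint.mono`.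
`row_bd` : the point `(l, t)` of `k8a_occ` lies in `k7bBox (ct q) (cZ q) (cY q) h K` (`Ok.box`): `|ct| ≤ 1 + K`, `|cZ| ≤ 3 K`, `|cY| ≤ 2K + K + 3K·K + 2K·K ≤ 8 K²`.   `box` : `Ok.box`, `k8a_Z`, `k8a_Y`, `k8a_YQ`, `h^2 = h * h`.
`slope` : `f t := Y l t - Y_Q(t, Z l t)` is affine in `t` with slope `σ₀ = y1 + cZ - ct v`; `|f| ≤ K h²` at `t₁ = bt q` and `t₂ = bt q + bl q / 2`; `|σ₀| bl q / 2 ≤ 2 K h²`, `bl q ≥ h / K` : `|σ₀| ≤ 4 K² h`.   ~350 l. -/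
theorem k8a_f_geo (hI : K8aIn H c K s) (hP : K8aPre H c K s lev Ev0) (hne : Ev0.Nonempty) :
    c.h s ≤ 100 * K ^ 8 * (k8aW H c s K lev Ev0).q ∧ (k8aW H c s K lev Ev0).q ≤ 100 * K ^ 8 * c.h s ∧
    (∀ Q ∈ (k8aW H c s K lev Ev0).Qa, (k8aW H c s K lev Ev0).iv Q < 2 ^ lev) ∧
    (∀ Q ∈ (k8aW H c s K lev Ev0).Qa, ∀ Q' ∈ (k8aW H c s K lev Ev0).Qa, (k8aW H c s K lev Ev0).iv Q = (k8aW H c s K lev Ev0).iv Q' →
      Q ≠ Q' → Disjoint ((k8aW H c s K lev Ev0).asg Q) ((k8aW H c s K lev Ev0).asg Q')) ∧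
    (∀ Q ∈ (k8aW H c s K lev Ev0).Qa, |H.cZ Q| ≤ 100 * K ^ 8 ∧ |H.cY Q| ≤ 100 * K ^ 8 ∧ |-H.cZ Q| ≤ 100 * K ^ 8 ∧ |H.ct Q| ≤ 100 * K ^ 8) ∧
    (∀ Q ∈ (k8aW H c s K lev Ev0).Qa, ∀ l ∈ (k8aW H c s K lev Ev0).asg Q, ∀ t ∈ (k8aW H c s K lev Ev0).blk Q,
      |(k8aW H c s K lev Ev0).Z l t - H.cZ Q| ≤ 100 * K ^ 8 * c.h s ∧
      |(k8aW H c s K lev Ev0).Y l t - (k8aW H c s K lev Ev0).YQ Q t ((k8aW H c s K lev Ev0).Z l t)| ≤ 100 * K ^ 8 * (c.h s * c.h s)) ∧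
    (∀ Q ∈ (k8aW H c s K lev Ev0).Qa, ∀ l ∈ (k8aW H c s K lev Ev0).asg Q, |H.y1 l - (-H.cZ Q + H.ct Q * H.v l)| ≤ 100 * K ^ 8 * c.h s) := by
  obtain ⟨hN, ha, hh, hh1, hK⟩ := k8a_pos hI
  obtain ⟨k1, k2, k3, k4, k5⟩ := k8a_K_le hI.K1
  obtain ⟨z, hz⟩ := hne
  have hq0 := (hI.ok.labmem s hI.hs z (hP.sub hz)).1
  obtain ⟨l1, l2⟩ := hI.ok.bllen s hI.hs _ hq0
  have hWq := (k8a_blk hP hq0).2
  have hbl0 : 0 < H.bl (H.lab s z) := lt_of_lt_of_le (div_pos hh hK) l1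
  refine ⟨?_, ?_, ?_, ?_, ?_, ?_, ?_⟩
  · rw [hWq]
    rw [div_le_iff₀ hK] at l1
    calc c.h s ≤ H.bl (H.lab s z) * K := l1
      _ = K * H.bl (H.lab s z) := mul_comm _ _
      _ ≤ 100 * K ^ 8 * H.bl (H.lab s z) := mul_le_mul_of_nonneg_right k1 hbl0.le
  · rw [hWq]
    exact l2.trans (mul_le_mul_of_nonneg_right k1 hh.le)
  · intro Q hQ
    obtain ⟨hb1, -⟩ := k8a_occ hI hP hQ
    obtain ⟨-, i, h2⟩ := hP.dyad Q hQ.1
    have hiv : (k8aW H c s K lev Ev0).iv Q = i := by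
      show ⌊H.bt Q * 2 ^ lev⌋₊ = i
      rw [h2, mul_assoc, ← mul_pow]
      norm_num
    rw [hiv]
    rw [h2, one_div, inv_pow, ← div_eq_mul_inv, div_lt_one (by positivity)] at hb1
    exact_mod_cast hb1
  · intro Q hQ Q' hQ' hiv hne'
    have e1 := (k8a_blk hP hQ.1).1
    have e2 := (k8a_blk hP hQ'.1).1
    have e3 : (k8aW H c s K lev Ev0).blk Q = (k8aW H c s K lev Ev0).blk Q' := by
      unfold K7aW.blk; rw [hiv]
    have e4 : H.blk Q = H.blk Q' := by rw [← e1, ← e2, e3]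
    exact (hI.ok.asgdisj s hI.hs Q hQ.1 Q' hQ'.1 hne' e4).mono Set.inter_subset_left Set.inter_subset_left
  · intro Q hQ
    obtain ⟨r1, r2, r3⟩ := k8a_row hI hP hQ
    exact ⟨by linarith, by linarith, by rw [abs_neg]; linarith, by linarith⟩
  · intro Q hQ l hl t ht
    rw [(k8a_blk hP hQ.1).1] at ht
    obtain ⟨-, b2, b3⟩ := hI.ok.box s hI.hs Q hQ.1 l hl.1 t ht
    simp only [K7bHor.bs] at b2 b3
    rw [k8a_YQ, k8a_Z, k8a_Y]
    constructor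
    · exact b2.trans (mul_le_mul_of_nonneg_right k1 hh.le)
    · have e : H.Yt l t - (H.cY Q + (-H.cZ Q * (t - H.ct Q) + H.ct Q * (H.Zt l t - H.cZ Q)))
          = H.Yt l t - H.cY Q - (-H.cZ Q * (t - H.ct Q) + H.ct Q * (H.Zt l t - H.cZ Q)) := by ring
      rw [e, ← pow_two]
      exact b3.trans (mul_le_mul_of_nonneg_right k1 (by positivity))
  · intro Q hQ l hl
    exact (k8a_slope hI hQ.1 hl.1).trans (mul_le_mul_of_nonneg_right k3 hh.le)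

/-! ## 4. Label masses      (LEAF L-252-S8A-A4) -/

/-- an incidence of `Ev0` lies in the box of its own label only.
PROOF: `q' := lab s z ∈ Qat s`, `z.2 ∈ blk q' ∩ blk q` (`Ok.labmem`, `k8a_blk`), so `blk q = blk q'` (`Ok.blkdisj`); `z.1 ∈ asg q ∩ asg q'`; `Ok.asgdisj`. -/
theorem k8a_lab_uniq (hI : K8aIn H c K s) (hP : K8aPre H c K s lev Ev0) {z : H.Lam × ℝ} (hz : z ∈ Ev0) {q : H.Q}
    (hq : q ∈ H.Qat s) (hzq : z ∈ (k8aW H c s K lev Ev0).inc q) : H.lab s z = q := by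
  obtain ⟨hq', hb', has'⟩ := hI.ok.labmem s hI.hs z (hP.sub hz)
  obtain ⟨⟨h1, -⟩, h2⟩ := hzq
  rw [(k8a_blk hP hq).1] at h2
  by_contra hne
  have hblk : H.blk (H.lab s z) = H.blk q := by
    rcases hI.ok.blkdisj s hI.hs _ hq' q hq with h | h
    · exact h
    · exact absurd h2 (Set.disjoint_left.1 h hb')
  exact Set.disjoint_left.1 (hI.ok.asgdisj s hI.hs _ hq' q hq hne hblk) has' h1

/-- the trimmed normalised weight of a label which occurs is comparable with its full weight.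
PROOF: upper: `k8a_nu_le`, monotonicity.   Lower: `mQ q = ofReal (bl q) * ν (asg q) ≤ ofReal (2K) * lam (Ev0 ∩ {lab = q}) ≤ ofReal (2K) * ofReal K * μ ((asg q ∩ Lb) ×ˢ blk q) ≤ ofReal (2K²) * ν (asg q ∩ Lb) * ofReal (bl q)` (`Ok.dom`, `Ok.labmem`, `k8a_Sp_sub`, `Measure.prod_prod`, `k7bTime ≤ volume`, `Real.volume_Ico`); cancel `ofReal (bl q) ≠ 0, ∞`. -/
theorem k8a_nuQ (hI : K8aIn H c K s) (hP : K8aPre H c K s lev Ev0) {q : H.Q} (hq : q ∈ (k8aW H c s K lev Ev0).Qa) :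
    H.ν (H.asg q) ≤ ENNReal.ofReal (2 * K ^ 2) * (k8aW H c s K lev Ev0).νQ q ∧
      (k8aW H c s K lev Ev0).νQ q ≤ ENNReal.ofReal (K ^ 2) * H.ν (H.asg q) := by
  obtain ⟨hN, ha, hh, hh1, hK⟩ := k8a_pos hI
  have hsf : SFinite k7bTime := by unfold k7bTime; infer_instance
  obtain ⟨hqs, z, hz, hzq⟩ := hq
  have hnu := k8a_nu_le hI hP (H.asg q ∩ k8aLb H K)
  have hAA : H.asg q ∩ k8aLb H K ∩ k8aLb H K = H.asg q ∩ k8aLb H K := by
    rw [Set.inter_assoc, Set.inter_self]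
  rw [hAA] at hnu
  constructor
  · have hbl : 0 < H.bl q := by rw [(hP.dyad q hqs).1]; positivity
    have hheavy := hP.heavy z hz
    rw [hzq] at hheavy
    have hsub : Ev0 ∩ {z' | H.lab s z' = q} ⊆ (H.asg q ∩ k8aLb H K) ×ˢ H.blk q := by
      rintro z' ⟨hz', hl'⟩
      have hz'S := hP.sub hz'
      obtain ⟨-, b, a⟩ := hI.ok.labmem s hI.hs z' hz'S
      rw [show H.lab s z' = q from hl'] at a b
      exact ⟨⟨a, (k8a_Sp_sub hI hz'S).1⟩, b⟩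
    have hvol : k7bTime (H.blk q) ≤ ENNReal.ofReal (H.bl q) := by
      calc k7bTime (H.blk q) ≤ volume (H.blk q) := Measure.restrict_le_self _
        _ = ENNReal.ofReal (H.bl q) := by
            unfold K7bHor.blk; rw [Real.volume_Ico]; congr 1; ring
    have h1 : H.lam (Ev0 ∩ {z' | H.lab s z' = q})
        ≤ ENNReal.ofReal K * (H.ν (H.asg q ∩ k8aLb H K) * ENNReal.ofReal (H.bl q)) := by
      calc H.lam (Ev0 ∩ {z' | H.lab s z' = q})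
          ≤ (ENNReal.ofReal K • H.ν.prod k7bTime) (Ev0 ∩ {z' | H.lab s z' = q}) := hI.ok.dom _
        _ ≤ (ENNReal.ofReal K • H.ν.prod k7bTime) ((H.asg q ∩ k8aLb H K) ×ˢ H.blk q) := measure_mono hsub
        _ = ENNReal.ofReal K * (H.ν (H.asg q ∩ k8aLb H K) * k7bTime (H.blk q)) := by
            rw [Measure.smul_apply, Measure.prod_prod, smul_eq_mul]
        _ ≤ ENNReal.ofReal K * (H.ν (H.asg q ∩ k8aLb H K) * ENNReal.ofReal (H.bl q)) := by gcongr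
    have h2 : ENNReal.ofReal (H.bl q) * H.ν (H.asg q)
        ≤ ENNReal.ofReal (H.bl q) * (ENNReal.ofReal (2 * K ^ 2) * (k8aW H c s K lev Ev0).νQ q) := by
      calc ENNReal.ofReal (H.bl q) * H.ν (H.asg q)
          ≤ ENNReal.ofReal (2 * K) * H.lam (Ev0 ∩ {z' | H.lab s z' = q}) := hheavy
        _ ≤ ENNReal.ofReal (2 * K) * (ENNReal.ofReal K * (H.ν (H.asg q ∩ k8aLb H K) * ENNReal.ofReal (H.bl q))) := by
            gcongr
        _ = ENNReal.ofReal (H.bl q) * (ENNReal.ofReal (2 * K ^ 2) * H.ν (H.asg q ∩ k8aLb H K)) := by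
            rw [show 2 * K ^ 2 = 2 * K * K by ring, ENNReal.ofReal_mul (by positivity : 0 ≤ 2 * K)]; ring
        _ ≤ ENNReal.ofReal (H.bl q) * (ENNReal.ofReal (2 * K ^ 2) * (k8aW H c s K lev Ev0).νQ q) := by
            gcongr; exact hnu.1
    exact (ENNReal.mul_le_mul_iff_right (ENNReal.ofReal_pos.2 hbl).ne' ENNReal.ofReal_ne_top).1 h2
  · refine hnu.2.trans ?_
    gcongr
    exact Set.inter_subset_left

/-- powers of the slack -/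
theorem k8a_K_pow {K : ℝ} (hK : 1 ≤ K) (m : ℕ) (hm : m ≤ 8) (C : ℝ) (hC : C ≤ 100) : C * K ^ m ≤ 100 * K ^ 8 := by
  have h8 : K ^ m ≤ K ^ 8 := pow_le_pow_right₀ hK hm
  have h0 : 0 ≤ K ^ m := by positivity
  calc C * K ^ m ≤ 100 * K ^ m := mul_le_mul_of_nonneg_right hC h0
    _ ≤ 100 * K ^ 8 := by linarith

/-- the sharp lower bound of the label weights -/
theorem k8a_nu_lo (hI : K8aIn H c K s) (hP : K8aPre H c K s lev Ev0) {q : H.Q} (hq : q ∈ (k8aW H c s K lev Ev0).Qa) :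
    ENNReal.ofReal (c.a s ^ c.d * c.h s ^ 3) ≤ ENNReal.ofReal (2 * K ^ 3) * (k8aW H c s K lev Ev0).νQ q := by
  obtain ⟨hN, ha, hh, hh1, hK⟩ := k8a_pos hI
  calc ENNReal.ofReal (c.a s ^ c.d * c.h s ^ 3)
      = ENNReal.ofReal K * ENNReal.ofReal (c.a s ^ c.d * c.h s ^ 3 / K) := by
        rw [← ENNReal.ofReal_mul hK.le]; congr 1; field_simp
    _ ≤ ENNReal.ofReal K * H.ν (H.asg q) := by
        gcongr; exact (hI.ok.νQ s hI.hs q hq.1).1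
    _ ≤ ENNReal.ofReal K * (ENNReal.ofReal (2 * K ^ 2) * (k8aW H c s K lev Ev0).νQ q) := by
        gcongr; exact (k8a_nuQ hI hP hq).1
    _ = ENNReal.ofReal (2 * K ^ 3) * (k8aW H c s K lev Ev0).νQ q := by
        rw [← mul_assoc, ← ENNReal.ofReal_mul hK.le]; congr 2; ring

/-- the measure fields of `W.Ok`.
PROOF.  `ν_lo` : `a^d h³ ≤ K ν(asg q)` (`Ok.νQ`) `≤ 2 K³ νQ`.   `ν_hi` : `νQ ≤ K² ν(asg q) ≤ K³ a^d h³`.   `lab` : `Ok.labmem`, `k8a_blk`, `k8a_Sp_sub`.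
`capQ` : `lam0 (inc Q ∩ base⁻¹ U) ≤ K² lam (inc Q ∩ base⁻¹ U ∩ Ev0)` (`k8a_lam0_le`) `≤ K² lam (Sp ∩ {base ∈ U ∧ lab = Q})` (`k8a_lab_uniq`, `k8a_base`) `≤ K³ a^d vol U` (`Ok.capQ`); multiply by `h³` and use `ν_lo` : `≤ 2 K⁶ νQ vol U`.
`ref_in` : the histories counted by `refIn Q` occur: `lam0 (hist⁻¹ e ∩ labQ⁻¹ Q) ≠ 0` gives a point `z ∈ Ev0 ⊆ Sp` (`k8a_lam0_le`: otherwise the set `∩ Ev0` is empty); `Ok.refQ` : `≤ K mQ q = K bl q ν(asg q) ≤ K (K h) (2 K² νQ)`.   ~350 l. -/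
theorem k8a_f_mass (hI : K8aIn H c K s) (hP : K8aPre H c K s lev Ev0) :
    (∀ Q ∈ (k8aW H c s K lev Ev0).Qa, ENNReal.ofReal (c.a s ^ c.d * c.h s * (c.h s * c.h s)) ≤ ENNReal.ofReal (100 * K ^ 8) * (k8aW H c s K lev Ev0).νQ Q) ∧
    (∀ Q ∈ (k8aW H c s K lev Ev0).Qa, (k8aW H c s K lev Ev0).νQ Q ≤ ENNReal.ofReal (100 * K ^ 8 * (c.a s ^ c.d * c.h s * (c.h s * c.h s)))) ∧
    (∀ p ∈ Ev0, H.lab s p ∈ (k8aW H c s K lev Ev0).Qa ∧ p ∈ (k8aW H c s K lev Ev0).inc (H.lab s p)) ∧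
    (∀ Q ∈ (k8aW H c s K lev Ev0).Qa, ∀ U : Set (ℝ × ℝ × ℝ), MeasurableSet U →
      ENNReal.ofReal (c.h s * (c.h s * c.h s)) * (k8aW H c s K lev Ev0).lam0 ((k8aW H c s K lev Ev0).inc Q ∩ (k8aW H c s K lev Ev0).base ⁻¹' U)
        ≤ ENNReal.ofReal (100 * K ^ 8) * (k8aW H c s K lev Ev0).νQ Q * volume U) ∧
    (∀ Q ∈ (k8aW H c s K lev Ev0).Qa, (k8aW H c s K lev Ev0).refIn Q ≤ ENNReal.ofReal (100 * K ^ 8 * c.h s) * (k8aW H c s K lev Ev0).νQ Q) := by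
  obtain ⟨hN, ha, hh, hh1, hK⟩ := k8a_pos hI
  have hK1 := hI.K1
  have had : 0 < c.a s ^ c.d := Real.rpow_pos_of_pos ha _
  have e3 : c.a s ^ c.d * c.h s * (c.h s * c.h s) = c.a s ^ c.d * c.h s ^ 3 := by ring
  refine ⟨?_, ?_, ?_, ?_, ?_⟩
  · intro Q hQ
    rw [e3]
    refine (k8a_nu_lo hI hP hQ).trans (mul_le_mul' (ENNReal.ofReal_le_ofReal ?_) le_rfl)
    exact k8a_K_pow hK1 3 (by norm_num) 2 (by norm_num)
  · intro Q hQ
    rw [e3]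
    calc (k8aW H c s K lev Ev0).νQ Q ≤ ENNReal.ofReal (K ^ 2) * H.ν (H.asg Q) := (k8a_nuQ hI hP hQ).2
      _ ≤ ENNReal.ofReal (K ^ 2) * ENNReal.ofReal (K * c.a s ^ c.d * c.h s ^ 3) := by
          gcongr; exact (hI.ok.νQ s hI.hs Q hQ.1).2
      _ = ENNReal.ofReal (1 * K ^ 3 * (c.a s ^ c.d * c.h s ^ 3)) := by
          rw [← ENNReal.ofReal_mul (by positivity)]; congr 1; ring
      _ ≤ ENNReal.ofReal (100 * K ^ 8 * (c.a s ^ c.d * c.h s ^ 3)) := by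
          refine ENNReal.ofReal_le_ofReal (mul_le_mul_of_nonneg_right ?_ (by positivity))
          exact k8a_K_pow hK1 3 (by norm_num) 1 (by norm_num)
  · intro p hp
    have hpS := hP.sub hp
    obtain ⟨h1, h2, h3⟩ := hI.ok.labmem s hI.hs p hpS
    refine ⟨⟨h1, p, hp, rfl⟩, ⟨h3, (k8a_Sp_sub hI hpS).1⟩, ?_⟩
    rw [(k8a_blk hP h1).1]
    exact h2
  · intro Q hQ U hU
    have hsub : (k8aW H c s K lev Ev0).inc Q ∩ (k8aW H c s K lev Ev0).base ⁻¹' U ∩ Ev0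
        ⊆ H.Sp ∩ {z | H.base z ∈ U ∧ H.lab s z = Q} := by
      rintro z ⟨⟨hz1, hz2⟩, hz3⟩
      refine ⟨hP.sub hz3, ?_, k8a_lab_uniq hI hP hz3 hQ.1 hz1⟩
      have : (k8aLn H c K Ev0).base z ∈ U := hz2
      rwa [k8a_base] at this
    have h1 : (k8aW H c s K lev Ev0).lam0 ((k8aW H c s K lev Ev0).inc Q ∩ (k8aW H c s K lev Ev0).base ⁻¹' U)
        ≤ ENNReal.ofReal (K ^ 2) * (ENNReal.ofReal (K * c.a s ^ c.d) * volume U) := by
      refine (k8a_lam0_le hI hP _).2.trans ?_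
      gcongr
      exact (measure_mono hsub).trans (hI.ok.capQ s hI.hs Q hQ.1 U hU)
    calc ENNReal.ofReal (c.h s * (c.h s * c.h s)) * (k8aW H c s K lev Ev0).lam0 ((k8aW H c s K lev Ev0).inc Q ∩ (k8aW H c s K lev Ev0).base ⁻¹' U)
        ≤ ENNReal.ofReal (c.h s * (c.h s * c.h s)) * (ENNReal.ofReal (K ^ 2) * (ENNReal.ofReal (K * c.a s ^ c.d) * volume U)) := by
          gcongr
      _ = ENNReal.ofReal (K ^ 3) * ENNReal.ofReal (c.a s ^ c.d * c.h s ^ 3) * volume U := by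
          rw [← mul_assoc, ← mul_assoc, ← ENNReal.ofReal_mul (by positivity), ← ENNReal.ofReal_mul (by positivity),
            ← ENNReal.ofReal_mul (by positivity)]
          congr 2; ring
      _ ≤ ENNReal.ofReal (K ^ 3) * (ENNReal.ofReal (2 * K ^ 3) * (k8aW H c s K lev Ev0).νQ Q) * volume U := by
          gcongr; exact k8a_nu_lo hI hP hQ
      _ = ENNReal.ofReal (2 * K ^ 6) * (k8aW H c s K lev Ev0).νQ Q * volume U := by
          rw [← mul_assoc, ← ENNReal.ofReal_mul (by positivity)]; congr 3; ring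
      _ ≤ ENNReal.ofReal (100 * K ^ 8) * (k8aW H c s K lev Ev0).νQ Q * volume U := by
          refine mul_le_mul' (mul_le_mul' (ENNReal.ofReal_le_ofReal ?_) le_rfl) le_rfl
          exact k8a_K_pow hK1 6 (by norm_num) 2 (by norm_num)
  · intro Q hQ
    unfold K7aW.refIn
    have h1 := hI.ok.refQ s hI.hs Q hQ.1
      (Finset.univ.filter (fun e => (k8aW H c s K lev Ev0).lam0 ((k8aW H c s K lev Ev0).hist ⁻¹' {e} ∩ (k8aW H c s K lev Ev0).labQ ⁻¹' {Q}) ≠ 0))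
      (by
        intro e he
        have he' := (Finset.mem_filter.1 he).2
        have h2 := (k8a_lam0_le hI hP ((k8aW H c s K lev Ev0).hist ⁻¹' {e} ∩ (k8aW H c s K lev Ev0).labQ ⁻¹' {Q})).2
        rcases Set.eq_empty_or_nonempty ((k8aW H c s K lev Ev0).hist ⁻¹' {e} ∩ (k8aW H c s K lev Ev0).labQ ⁻¹' {Q} ∩ Ev0) with h0 | ⟨z, ⟨hz1, hz2⟩, hz3⟩
        · rw [h0, measure_empty, mul_zero] at h2
          exact absurd (le_antisymm h2 zero_le) he'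
        · exact ⟨z, hP.sub hz3, hz1, hz2⟩)
    refine h1.trans ?_
    have hbl := (hI.ok.bllen s hI.hs Q hQ.1).2
    calc ENNReal.ofReal K * H.mQ Q
        ≤ ENNReal.ofReal K * (ENNReal.ofReal (K * c.h s) * (ENNReal.ofReal (2 * K ^ 2) * (k8aW H c s K lev Ev0).νQ Q)) := by
          unfold K7bHor.mQ
          gcongr
          exact (k8a_nuQ hI hP hQ).1
      _ = ENNReal.ofReal (2 * K ^ 4 * c.h s) * (k8aW H c s K lev Ev0).νQ Q := by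
          rw [← mul_assoc, ← mul_assoc, ← ENNReal.ofReal_mul (by positivity), ← ENNReal.ofReal_mul (by positivity)]
          congr 2; ring
      _ ≤ ENNReal.ofReal (100 * K ^ 8 * c.h s) * (k8aW H c s K lev Ev0).νQ Q := by
          refine mul_le_mul' (ENNReal.ofReal_le_ofReal (mul_le_mul_of_nonneg_right ?_ hh.le)) le_rfl
          exact k8a_K_pow hK1 4 (by norm_num) 2 (by norm_num)

/-! ## 5. Joint caps at the coarser meshes      (LEAF L-252-S8A-A5) -/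

theorem k8a_bin_radius {ρ X : ℝ} (hρ : 0 < ρ) (c4 : ℤ) (h : kbBin ρ X = c4) : |X - ((c4 : ℝ) + 1 / 2) * kbDy ρ| ≤ ρ := by
  obtain ⟨hp1, hp2⟩ := k8a_dy_bounds hρ
  have hp0 : 0 < kbDy ρ := lt_of_lt_of_le hρ hp1
  unfold kbBin at h
  obtain ⟨h1, h2⟩ := Int.floor_eq_iff.1 h
  rw [le_div_iff₀ hp0] at h1
  rw [div_lt_iff₀ hp0] at h2
  rw [abs_le]
  constructor <;> nlinarith

/-- PROOF.  `σ := N^(-M) ≥ ξ`, `ρ := N^(-r) ∈ [ϱ, 1]`, `σ' := kbDy σ < 2σ`, `p' := kbDy ρ < 2ρ`.   `k8a_bin_cells` (three times): the set `{pt σ ρ z = cc}` is contained in `⋃_{C ∈ F₁ ×ˢ F₂ ×ˢ F₃} {k7bCell ξ (base z) = C} ∩ {|X z - x| ≤ ρ}` with `x := (cc.X + 1/2) p'` (a bin of width `p'` has radius `p'/2 ≤ ρ`), `#F_i ξ = σ'`.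
`vbin = k7bBin χ` (`k8a_bin_self`), `W.pi b = pal (k7bIv χ b)` (`k8a_binI_self`).   `lam0 ≤ K² lam (· ∩ Ev0)`, `Ev0 ⊆ Sp`, `measure_biUnion_finset_le`, `Ok.capJ` : `≤ K² #F₁ #F₂ #F₃ K ξ³ ρ^d pal = K³ σ'³ ρ^d pal ≤ 8 K³ σ³ ρ^d pal`.   ~300 l. -/
theorem k8a_f_joint (hI : K8aIn H c K s) (hP : K8aPre H c K s lev Ev0) {M r : ℝ} (hM : c.ξ ≤ c.N ^ (-M)) (hr0 : 0 ≤ r)
    (hr : c.ϱ ≤ c.N ^ (-r)) (cc : ℤ × ℤ × ℤ × ℤ) (b : ℤ) :
    (k8aLn H c K Ev0).lam0 {z | (k8aLn H c K Ev0).pt (c.N ^ (-M)) (c.N ^ (-r)) z = cc ∧ (k8aLn H c K Ev0).vbin z.1 = b}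
      ≤ ENNReal.ofReal (100 * K ^ 8 * (c.N ^ (-r)) ^ c.d * (c.N ^ (-M)) ^ 3) * (k8aLn H c K Ev0).pi b := by
  classical
  have hK := hI.K1
  have hK0 : 0 < K := by linarith
  obtain ⟨m, hξ, hχ, -⟩ := hI.dy
  have hN0 : 0 < c.N := lt_of_lt_of_le one_pos hI.wf.N1
  set σ := c.N ^ (-M) with hσ
  set ρ := c.N ^ (-r) with hρ
  have hσ0 : 0 < σ := Real.rpow_pos_of_pos hN0 _
  have hρ0 : 0 < ρ := Real.rpow_pos_of_pos hN0 _
  have hρ1 : ρ ≤ 1 := Real.rpow_le_one_of_one_le_of_nonpos hI.wf.N1 (by linarith)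
  obtain ⟨c1, c2, c3, c4⟩ := cc
  obtain ⟨F₁, hF₁c, hF₁⟩ := k8a_bin_cells ⟨m.1, hξ⟩ hM c1
  obtain ⟨F₂, hF₂c, hF₂⟩ := k8a_bin_cells ⟨m.1, hξ⟩ hM c2
  obtain ⟨F₃, hF₃c, hF₃⟩ := k8a_bin_cells ⟨m.1, hξ⟩ hM c3
  obtain ⟨hσ1, hσ2⟩ := k8a_dy_bounds hσ0
  set x : ℝ := ((c4 : ℝ) + 1 / 2) * kbDy ρ with hx
  have hpi : (k8aLn H c K Ev0).pi b = H.pal (k7bIv c.χ b) := by
    show H.pal (k7aBinI c.χ b) = _
    rw [k8a_binI_self ⟨m.2.1, hχ⟩]
  rw [hpi]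
  set S : Set (H.Lam × ℝ) := {z | (k8aLn H c K Ev0).pt σ ρ z = (c1, c2, c3, c4) ∧ (k8aLn H c K Ev0).vbin z.1 = b} with hS
  have hsub : S ∩ Ev0 ⊆ ⋃ C ∈ F₁ ×ˢ F₂ ×ˢ F₃,
      H.Sp ∩ {z | k7bCell c.ξ (H.base z) = C ∧ |H.X z - x| ≤ ρ ∧ k7bBin c.χ (H.v z.1) = b} := by
    rintro z ⟨⟨hz1, hz2⟩, hz3⟩
    simp only [K7aLn.pt, Prod.mk.injEq] at hz1
    obtain ⟨e1, e2, e3, e4⟩ := hz1
    rw [k8a_Z] at e2
    rw [k8a_Y] at e3
    rw [k8a_X] at e4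
    refine Set.mem_biUnion (x := k7bCell c.ξ (H.base z)) ?_ ⟨hP.sub hz3, rfl, ?_, ?_⟩
    · rw [Finset.mem_coe, Finset.mem_product, Finset.mem_product]
      exact ⟨(hF₁ _).1 e1, (hF₂ _).1 e2, (hF₃ _).1 e3⟩
    · exact k8a_bin_radius hρ0 c4 e4
    · rw [← k8a_bin_self ⟨m.2.1, hχ⟩]
      exact hz2
  have hreal : K ^ 2 * (((F₁ ×ˢ F₂ ×ˢ F₃).card : ℝ) * (K * c.ξ ^ 3 * ρ ^ c.d)) ≤ 100 * K ^ 8 * ρ ^ c.d * σ ^ 3 := by
    have hd0 : 0 ≤ ρ ^ c.d := Real.rpow_nonneg hρ0.le _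
    have e : K ^ 2 * (((F₁ ×ˢ F₂ ×ˢ F₃).card : ℝ) * (K * c.ξ ^ 3 * ρ ^ c.d)) = K ^ 3 * ρ ^ c.d * kbDy σ ^ 3 := by
      rw [Finset.card_product, Finset.card_product]
      push_cast
      calc K ^ 2 * ((F₁.card : ℝ) * ((F₂.card : ℝ) * (F₃.card : ℝ)) * (K * c.ξ ^ 3 * ρ ^ c.d))
          = K ^ 3 * ρ ^ c.d * (((F₁.card : ℝ) * c.ξ) * ((F₂.card : ℝ) * c.ξ) * ((F₃.card : ℝ) * c.ξ)) := by ring
        _ = K ^ 3 * ρ ^ c.d * kbDy σ ^ 3 := by rw [hF₁c, hF₂c, hF₃c]; ring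
    rw [e]
    have h1 : kbDy σ ^ 3 ≤ (2 * σ) ^ 3 := pow_le_pow_left₀ (hσ0.le.trans hσ1) hσ2.le 3
    have h2 : K ^ 3 ≤ K ^ 8 := pow_le_pow_right₀ hK (by norm_num)
    have h3 : 0 ≤ kbDy σ ^ 3 := pow_nonneg (hσ0.le.trans hσ1) 3
    calc K ^ 3 * ρ ^ c.d * kbDy σ ^ 3 ≤ K ^ 8 * ρ ^ c.d * (2 * σ) ^ 3 := by gcongr
      _ = 8 * K ^ 8 * ρ ^ c.d * σ ^ 3 := by ring
      _ ≤ 100 * K ^ 8 * ρ ^ c.d * σ ^ 3 := by
          have : 0 ≤ K ^ 8 * ρ ^ c.d * σ ^ 3 := by positivity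
          nlinarith
  calc (k8aLn H c K Ev0).lam0 S ≤ ENNReal.ofReal (K ^ 2) * H.lam (S ∩ Ev0) := (k8a_lam0_le hI hP S).2
    _ ≤ ENNReal.ofReal (K ^ 2) * ∑ C ∈ F₁ ×ˢ F₂ ×ˢ F₃,
        H.lam (H.Sp ∩ {z | k7bCell c.ξ (H.base z) = C ∧ |H.X z - x| ≤ ρ ∧ k7bBin c.χ (H.v z.1) = b}) := by
        gcongr
        exact (measure_mono hsub).trans (measure_biUnion_finset_le _ _)
    _ ≤ ENNReal.ofReal (K ^ 2) * ∑ _C ∈ F₁ ×ˢ F₂ ×ˢ F₃, ENNReal.ofReal (K * c.ξ ^ 3 * ρ ^ c.d) * H.pal (k7bIv c.χ b) := by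
        gcongr with C hC
        exact hI.ok.capJ C x ρ b hr hρ1
    _ = ENNReal.ofReal (K ^ 2 * (((F₁ ×ˢ F₂ ×ˢ F₃).card : ℝ) * (K * c.ξ ^ 3 * ρ ^ c.d))) * H.pal (k7bIv c.χ b) := by
        rw [Finset.sum_const, nsmul_eq_mul, ENNReal.ofReal_mul (q := _ * _) (by positivity),
          ENNReal.ofReal_mul (p := ((F₁ ×ˢ F₂ ×ˢ F₃).card : ℝ)) (by positivity), ENNReal.ofReal_natCast]
        ring
    _ ≤ ENNReal.ofReal (100 * K ^ 8 * ρ ^ c.d * σ ^ 3) * H.pal (k7bIv c.χ b) := by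
        gcongr

/-! ## 6. Palette, end histories, options      (LEAF L-252-S8A-A6) -/

/-- PROOF: for `p ≤ 1` : `Ok.palcap`;  for `p > 1` : `pal ≤ 1 ≤ K p^S` (`Ok.palle`, `Real.one_le_rpow`). -/
theorem k8a_f_pal (hI : K8aIn H c K s) (x p : ℝ) (hp : c.χ ≤ p) :
    H.pal (Set.Icc (x - p) (x + p)) ≤ ENNReal.ofReal (100 * K ^ 8 * p ^ c.S) := by
  have hK1 := hI.K1
  have hp0 : 0 < p := lt_of_lt_of_le hI.wf.χ0 hp
  have hpS : 0 < p ^ c.S := Real.rpow_pos_of_pos hp0 _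
  have hKK : 1 * K ^ 1 ≤ 100 * K ^ 8 := k8a_K_pow hK1 1 (by norm_num) 1 (by norm_num)
  rw [one_mul, pow_one] at hKK
  rcases le_or_gt p 1 with h1 | h1
  · exact (hI.ok.palcap x p hp h1).trans (ENNReal.ofReal_le_ofReal (mul_le_mul_of_nonneg_right hKK hpS.le))
  · calc H.pal (Set.Icc (x - p) (x + p)) ≤ H.pal Set.univ := measure_mono (Set.subset_univ _)
      _ ≤ 1 := hI.ok.palle
      _ = ENNReal.ofReal 1 := ENNReal.ofReal_one.symm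
      _ ≤ ENNReal.ofReal (100 * K ^ 8 * p ^ c.S) := by
          refine ENNReal.ofReal_le_ofReal ?_
          have h2 : 1 ≤ p ^ c.S := Real.one_le_rpow h1.le hI.wf.S0.le
          exact one_le_mul_of_one_le_of_one_le (by linarith) h2

/-- PROOF: `k8a_lam0_le`, `Ev0 ⊆ Sp`, `Ok.ehdom` (unfold `KsDom`; `(lam.restrict Sp) A = lam (A ∩ Sp)` by `Measure.restrict_apply'`), `W.vT b = H.vT χ b` (`k8a_bin_self`), `k8a_binI_self`.   Constant `K³`. -/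
theorem k8a_f_dom (hI : K8aIn H c K s) (hP : K8aPre H c K s lev Ev0) :
    KsDom (k8aLn H c K Ev0).lam0 (k8aLn H c K Ev0).hist (k8aLn H c K Ev0).vT (fun _ b => (k8aLn H c K Ev0).pi b)
      (k8aLn H c K Ev0).ref (ENNReal.ofReal (100 * K ^ 8)) := by
  obtain ⟨hN, ha, hh, hh1, hK⟩ := k8a_pos hI
  obtain ⟨m, -, hχ, -⟩ := hI.dy
  have hχ' : ∃ m : ℤ, c.χ = (2 : ℝ) ^ m := ⟨_, hχ⟩
  intro e b
  have hvT : (k8aLn H c K Ev0).vT b = H.vT c.χ b := by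
    ext z
    show kbBin c.χ (H.v z.1) = b ↔ k7bBin c.χ (H.v z.1) = b
    rw [k8a_bin_self hχ']
  have hpi : (k8aLn H c K Ev0).pi b = H.pal (k7bIv c.χ b) := by
    show H.pal (k7aBinI c.χ b) = H.pal (k7bIv c.χ b)
    rw [k8a_binI_self hχ']
  have hdom := hI.ok.ehdom e b
  rw [Measure.restrict_apply' hI.ok.mSp] at hdom
  show (k8aLn H c K Ev0).lam0 (H.eh ⁻¹' {e} ∩ (k8aLn H c K Ev0).vT b)
    ≤ ENNReal.ofReal (100 * K ^ 8) * (k8aLn H c K Ev0).pi b * H.Ref e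
  rw [hvT, hpi]
  calc (k8aLn H c K Ev0).lam0 (H.eh ⁻¹' {e} ∩ H.vT c.χ b)
      ≤ ENNReal.ofReal (K ^ 2) * H.lam (H.eh ⁻¹' {e} ∩ H.vT c.χ b ∩ Ev0) := (k8a_lam0_le hI hP _).2
    _ ≤ ENNReal.ofReal (K ^ 2) * H.lam (H.eh ⁻¹' {e} ∩ H.vT c.χ b ∩ H.Sp) := by
        gcongr; exact hP.sub
    _ ≤ ENNReal.ofReal (K ^ 2) * (ENNReal.ofReal K * H.pal (k7bIv c.χ b) * H.Ref e) := by
        gcongr
    _ = ENNReal.ofReal (1 * K ^ 3) * H.pal (k7bIv c.χ b) * H.Ref e := by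
        rw [← mul_assoc, ← mul_assoc, ← ENNReal.ofReal_mul (by positivity)]; congr 3; ring
    _ ≤ ENNReal.ofReal (100 * K ^ 8) * H.pal (k7bIv c.χ b) * H.Ref e := by
        refine mul_le_mul' (mul_le_mul' (ENNReal.ofReal_le_ofReal ?_) le_rfl) le_rfl
        exact k8a_K_pow hI.K1 3 (by norm_num) 1 (by norm_num)

/-- PROOF.  `n := ⌊K⌋₊`.   Fix a history `e`.   `L₀` from `Ok.ehpt e` (`card ≤ K`).   `k8a_bin_coarse` for `(ξ, N^(-M))` and `(ϱ, N^(-r))` : `pt σ ρ z = φ (H.pt ξ ϱ z)`, `φ ((i,j,k), m) := (i / n₁, j / n₁, k / n₁, m / n₂)` (use `k8a_Z`, `k8a_Y`, `k8a_X`).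
If no `z ∈ Ev0` has `eh z = e` take `L := ∅`; otherwise `q₀ := lab s z₀` and `L := L₀.image (fun x => (q₀, φ x))` (`Ok.ehlab`).   For `d0 ∉ L` the set `ksPair hist d ⁻¹' {(e, d0)} ∩ Ev0` is empty, so its `lam0`-mass vanishes (`k8a_lam0_le`).   ~200 l. -/
theorem k8a_f_opt (hI : K8aIn H c K s) (hP : K8aPre H c K s lev Ev0) {M r : ℝ} (hM : c.ξ ≤ c.N ^ (-M)) (hr : c.ϱ ≤ c.N ^ (-r)) :
    ∃ n : ℕ, (n : ℝ) ≤ 100 * K ^ 8 ∧ KsOpt (k8aLn H c K Ev0).lam0 (k8aLn H c K Ev0).hist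
      (fun z => (H.lab s z, (k8aLn H c K Ev0).pt (c.N ^ (-M)) (c.N ^ (-r)) z)) n := by
  classical
  obtain ⟨hN, ha, hh, hh1, hK⟩ := k8a_pos hI
  obtain ⟨m, hξ, -, hϱ⟩ := hI.dy
  obtain ⟨n₁, -, -, hb1⟩ := k8a_bin_coarse ⟨_, hξ⟩ hM
  obtain ⟨n₂, -, -, hb2⟩ := k8a_bin_coarse ⟨_, hϱ⟩ hr
  have hKK : 1 * K ^ 1 ≤ 100 * K ^ 8 := k8a_K_pow hI.K1 1 (by norm_num) 1 (by norm_num)
  rw [one_mul, pow_one] at hKK
  refine ⟨⌊K⌋₊, (Nat.floor_le hK.le).trans hKK, fun e => ?_⟩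
  obtain ⟨L₀, hL₀, hmem⟩ := hI.ok.ehpt e
  obtain ⟨φ, hφ⟩ : ∃ φ : (ℤ × ℤ × ℤ) × ℤ → ℤ × ℤ × ℤ × ℤ,
      ∀ x, φ x = (x.1.1 / (n₁ : ℤ), x.1.2.1 / (n₁ : ℤ), x.1.2.2 / (n₁ : ℤ), x.2 / (n₂ : ℤ)) := ⟨_, fun _ => rfl⟩
  have hpt : ∀ z, (k8aLn H c K Ev0).pt (c.N ^ (-M)) (c.N ^ (-r)) z = φ (H.pt c.ξ c.ϱ z) := by
    intro z
    rw [hφ]
    simp only [K7aLn.pt, k8a_Z, k8a_Y, k8a_X, hb1, hb2, K7bHor.pt, k7bCell, K7bHor.base, K7bHor.bs, K7bHor.X]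
  have hzero : ∀ A : Set (H.Lam × ℝ), A ∩ Ev0 = ∅ → (k8aLn H c K Ev0).lam0 A = 0 := by
    intro A hA
    have h2 := (k8a_lam0_le hI hP A).2
    rw [hA, measure_empty, mul_zero] at h2
    exact le_antisymm h2 zero_le
  by_cases hex : ∃ z₀ ∈ Ev0, H.eh z₀ = e
  · obtain ⟨z₀, hz₀, he₀⟩ := hex
    refine ⟨L₀.image (fun x => (H.lab s z₀, φ x)), ?_, fun d0 hd0 => ?_⟩
    · refine Finset.card_image_le.trans (Nat.le_floor hL₀)
    · refine hzero _ ?_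
      rw [Set.eq_empty_iff_forall_notMem]
      rintro z ⟨hz1, hz2⟩
      have hz1' : (H.eh z, (H.lab s z, (k8aLn H c K Ev0).pt (c.N ^ (-M)) (c.N ^ (-r)) z)) = (e, d0) := hz1
      rw [Prod.mk.injEq] at hz1'
      obtain ⟨e1, e2⟩ := hz1'
      apply hd0
      rw [← e2, Finset.mem_image]
      refine ⟨H.pt c.ξ c.ϱ z, hmem z (hP.sub hz2) e1, ?_⟩
      rw [hpt z, hI.ok.ehlab s hI.hs z (hP.sub hz2) z₀ (hP.sub hz₀) (e1.trans he₀.symm)]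
  · refine ⟨∅, by simp, fun d0 _ => ?_⟩
    refine hzero _ ?_
    rw [Set.eq_empty_iff_forall_notMem]
    rintro z ⟨hz1, hz2⟩
    have hz1' : (H.eh z, (H.lab s z, (k8aLn H c K Ev0).pt (c.N ^ (-M)) (c.N ^ (-r)) z)) = (e, d0) := hz1
    rw [Prod.mk.injEq] at hz1'
    exact hex ⟨z, hz2, hz1'.1⟩

/-! ## 7. EXIT: `W.Ok`      (assembly) -/

theorem k8a_ok_ln (hI : K8aIn H c K s) (hP : K8aPre H c K s lev Ev0) (Ms Ws : Finset ℝ) (hMs : ∀ M ∈ Ms, c.ξ ≤ c.N ^ (-M))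
    (hWs : ∀ r ∈ Ws, 0 ≤ r ∧ c.ϱ ≤ c.N ^ (-r)) : (k8aLn H c K Ev0).Ok c.N (100 * K ^ 8) c.d c.S Ms Ws := by
  have hK1 := hI.K1
  have hKK : K ≤ 100 * K ^ 8 := by
    have h1 : (1 : ℝ) ≤ K ^ 7 := one_le_pow₀ hK1
    nlinarith [mul_le_mul_of_nonneg_left h1 (by linarith : (0 : ℝ) ≤ K)]
  have h2K : 2 * K ≤ 100 * K ^ 8 := by
    have h1 : (1 : ℝ) ≤ K ^ 7 := one_le_pow₀ hK1
    nlinarith [mul_le_mul_of_nonneg_left h1 (by linarith : (0 : ℝ) ≤ K)]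
  refine
  { prob := k8a_nu_prob hI hP
    m_co := ⟨hI.ok.mp, hI.ok.mv, hI.ok.mq0, hI.ok.my1, hI.ok.mx0, hI.ok.mx1, measurable_const⟩
    m_Sp := k8a_Lb_meas hI K
    m_Ev0 := hP.meas
    m_hist := hI.ok.meh
    Sp_full := ?_
    Ev0_sub := hP.sub.trans (k8a_Sp_sub hI)
    bd := ?_
    χ0_pos := hI.wf.χ0
    χ0_le := hI.wf.χ1
    pal_le := hI.ok.palle
    pal_ball := fun x p hp => k8a_f_pal hI x p hp
    joint := fun M hM r hr cc b => k8a_f_joint hI hP (hMs M hM) (hWs r hr).1 (hWs r hr).2 cc b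
    dom := k8a_f_dom hI hP }
  · have h := (k8a_nu_le hI hP (k8aLb H K)ᶜ).2
    rw [Set.compl_inter_self, measure_empty, mul_zero] at h
    exact le_antisymm h zero_le
  · rintro l ⟨h1, h2, h3, h4, h5, h6⟩
    refine ⟨h1.trans hKK, h2.trans hKK, h3.trans hKK, h4.trans hKK, fun t ht => ?_⟩
    rw [k8a_X]
    unfold K7bHor.Xt
    have ht' : |t| ≤ 1 := abs_le.2 ⟨by linarith [ht.1], ht.2⟩
    calc |H.x0 l + t * H.x1 l| ≤ |H.x0 l| + |t| * |H.x1 l| := by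
          rw [← abs_mul]; exact abs_add_le _ _
      _ ≤ K + 1 * K := add_le_add h5 (mul_le_mul ht' h6 (abs_nonneg _) zero_le_one)
      _ ≤ 100 * K ^ 8 := by linarith

/-- **EXIT.** -/
theorem k8a_ok (hI : K8aIn H c K s) (hP : K8aPre H c K s lev Ev0) (hne : Ev0.Nonempty) (Ms Ws : Finset ℝ)
    (hMs : ∀ M ∈ Ms, c.ξ ≤ c.N ^ (-M)) (hWs : ∀ r ∈ Ws, 0 ≤ r ∧ c.ϱ ≤ c.N ^ (-r)) :
    (k8aW H c s K lev Ev0).Ok c.N (100 * K ^ 8) c.d c.S (c.a s) (c.h s) (c.h s) Ms Ws := by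
  obtain ⟨g1, g2, g3, g4, g5, g6, g7⟩ := k8a_f_geo hI hP hne
  obtain ⟨m1, m2, m3, m4, m5⟩ := k8a_f_mass hI hP
  exact
  { ln := k8a_ok_ln hI hP Ms Ws hMs hWs
    m_labQ := hI.ok.mlab s hI.hs
    m_asg := fun Q => (hI.ok.masg Q).inter (k8a_Lb_meas hI K)
    q_lo := g1
    q_hi := g2
    iv_lt := g3
    asg_Sp := fun Q _ => Set.inter_subset_right
    disj := g4
    row_bd := g5
    box := g6
    slope := g7
    ν_lo := m1
    ν_hi := m2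
    lab := m3
    capQ := m4
    opt := fun M hM r hr => k8a_f_opt hI hP (hMs M hM) (hWs r hr).2
    ref_in := m5 }

/-! ## 8. EXIT: the return to the horizontal problem      (LEAF L-252-S8A-A8) -/

/-- PROOF: `simp [k8Ev, k8aPol, MvPolynomial.eval_add, …, Matrix.cons_val_zero, Matrix.cons_val_one, …]` (`![a,b,c] 2 = c`: `Matrix.cons_val_two`/`rfl`). -/
theorem k8a_pol_ev (e : Fin 10 → ℝ) (u : ℝ × ℝ × ℝ) :
    k8Ev (k8aPol e) u = e 0 + e 1 * u.1 + e 2 * u.2.1 + e 3 * u.2.2 + e 4 * u.1 ^ 2 + e 5 * u.1 * u.2.1 + e 6 * u.1 * u.2.2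
      + e 7 * u.2.1 ^ 2 + e 8 * u.2.1 * u.2.2 + e 9 * u.2.2 ^ 2 := by
  simp [k8Ev, k8aPol]

theorem k8a_deg_CX (a : ℝ) (i : Fin 3) : (MvPolynomial.C a * MvPolynomial.X i : MvPolynomial (Fin 3) ℝ).totalDegree ≤ 1 := by
  refine (MvPolynomial.totalDegree_mul _ _).trans ?_
  rw [MvPolynomial.totalDegree_C, MvPolynomial.totalDegree_X]

theorem k8a_deg_CXX (a : ℝ) (i j : Fin 3) :
    (MvPolynomial.C a * MvPolynomial.X i * MvPolynomial.X j : MvPolynomial (Fin 3) ℝ).totalDegree ≤ 2 := by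
  refine (MvPolynomial.totalDegree_mul _ _).trans ?_
  have := k8a_deg_CX a i
  rw [MvPolynomial.totalDegree_X]
  omega

theorem k8a_deg_CX2 (a : ℝ) (i : Fin 3) :
    (MvPolynomial.C a * MvPolynomial.X i ^ 2 : MvPolynomial (Fin 3) ℝ).totalDegree ≤ 2 := by
  rw [pow_two, ← mul_assoc]
  exact k8a_deg_CXX a i i

/-- PROOF: `MvPolynomial.totalDegree_add` (max), `totalDegree_mul` (sum), `totalDegree_C = 0`, `totalDegree_X = 1`, `totalDegree_pow`. -/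
theorem k8a_pol_deg (e : Fin 10 → ℝ) : (k8aPol e).totalDegree ≤ 2 := by
  unfold k8aPol
  have h0 : (MvPolynomial.C (e 0) : MvPolynomial (Fin 3) ℝ).totalDegree ≤ 2 := by
    rw [MvPolynomial.totalDegree_C]; norm_num
  have h1 := fun (a : ℝ) (i : Fin 3) => (k8a_deg_CX a i).trans (by norm_num : 1 ≤ 2)
  refine (MvPolynomial.totalDegree_add _ _).trans (max_le ?_ (k8a_deg_CX2 _ _))
  refine (MvPolynomial.totalDegree_add _ _).trans (max_le ?_ (k8a_deg_CXX _ _ _))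
  refine (MvPolynomial.totalDegree_add _ _).trans (max_le ?_ (k8a_deg_CX2 _ _))
  refine (MvPolynomial.totalDegree_add _ _).trans (max_le ?_ (k8a_deg_CXX _ _ _))
  refine (MvPolynomial.totalDegree_add _ _).trans (max_le ?_ (k8a_deg_CXX _ _ _))
  refine (MvPolynomial.totalDegree_add _ _).trans (max_le ?_ (k8a_deg_CX2 _ _))
  refine (MvPolynomial.totalDegree_add _ _).trans (max_le ?_ (h1 _ _))
  refine (MvPolynomial.totalDegree_add _ _).trans (max_le ?_ (h1 _ _))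
  exact (MvPolynomial.totalDegree_add _ _).trans (max_le h0 (h1 _ _))

/-- **EXIT: the output of `k7a_P73` for `k8aW` is a time-improvement candidate in horizontal units.**   `T` = the slack `N^τ'` of P7.3, `g = c₂`.
PROOF.  `e` from `hF`, `P := k8aPol e`.   `s_mem`, `q_mem` (`hQ.1`), `deg` (`k8a_pol_deg`), `meas`, `sub`.   `lab` : `k8a_lab_uniq` (`Cn ⊆ E' ⊆ Ev0`).   `fit` : `k8a_blk`, `k8a_X`, `k8a_Z`, `k8a_Y`, `k8a_pol_ev`, `c.a (s+g) = N^(-s-g)` (`neg_add'`), `T ≤ 2 K⁴ T`.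
`mass` : `mQ Q * ofReal (N^(-(d g))) = ofReal (bl Q) * ν(asg Q) * … ≤ ofReal (2K²) * (ofReal (W.q N^(-(d g))) * νQ Q)` (`k8a_nuQ`, `k8a_blk`, `ENNReal.ofReal_mul`) `≤ ofReal (2K²) ofReal T prior Cn ≤ ofReal (2K²) ofReal T ofReal (K²) lam Cn` (`k8a_prior_le`).   ~200 l. -/
theorem k8a_return (hI : K8aIn H c K s) (hP : K8aPre H c K s lev Ev0) {E' : Set (H.Lam × ℝ)} (hE' : E' ⊆ Ev0) {T g : ℝ} (hT : 1 ≤ T)
    {Q : H.Q} {F : ℝ → ℝ → ℝ → ℝ} {Cn : Set (H.Lam × ℝ)} (hQ : Q ∈ (k8aW H c s K lev Ev0).Qa) (hF : K7aQuad3 F) (hCn : MeasurableSet Cn)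
    (hsub : Cn ⊆ E' ∩ (k8aW H c s K lev Ev0).inc Q)
    (hfit : ∀ p ∈ Cn, ∀ t ∈ (k8aW H c s K lev Ev0).blk Q,
      |(k8aW H c s K lev Ev0).X p.1 t - F t ((k8aW H c s K lev Ev0).Z p.1 t) ((k8aW H c s K lev Ev0).Y p.1 t)| ≤ T * c.N ^ (-s - g))
    (hmass : ENNReal.ofReal ((k8aW H c s K lev Ev0).q * c.N ^ (-(c.d * g))) * (k8aW H c s K lev Ev0).νQ Q
      ≤ ENNReal.ofReal T * (k8aW H c s K lev Ev0).prior Cn) :
    ∃ P : MvPolynomial (Fin 3) ℝ, K8Cand H c (2 * K ^ 4 * T) s g E' Q P Cn := by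
  obtain ⟨hN, ha, hh, hh1, hK⟩ := k8a_pos hI
  have hK1 := hI.K1
  have hT0 : 0 < T := by linarith
  obtain ⟨e, he⟩ := hF
  have hK4 : 1 ≤ 2 * K ^ 4 := by
    have : 1 ≤ K ^ 4 := one_le_pow₀ hK1
    linarith
  refine ⟨k8aPol e,
    { s_mem := hI.hs
      q_mem := hQ.1
      deg := k8a_pol_deg e
      meas := hCn
      sub := fun z hz => (hsub hz).1
      lab := fun z hz => k8a_lab_uniq hI hP (hE' (hsub hz).1) hQ.1 (hsub hz).2
      fit := ?_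
      mass := ?_ }⟩
  · intro z hz t ht
    have h1 := hfit z hz t (by rw [(k8a_blk hP hQ.1).1]; exact ht)
    rw [k8a_X, k8a_Z, k8a_Y, he] at h1
    rw [k8a_pol_ev]
    simp only [K7bHor.bs]
    have e1 : c.a (s + g) = c.N ^ (-s - g) := by
      unfold K7bPar.a; rw [neg_add']
    rw [e1]
    have hNp : 0 < c.N ^ (-s - g) := Real.rpow_pos_of_pos hN _
    refine h1.trans (mul_le_mul_of_nonneg_right ?_ hNp.le)
    exact le_mul_of_one_le_left hT0.le hK4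
  · have hNp : 0 < c.N ^ (-(c.d * g)) := Real.rpow_pos_of_pos hN _
    have hbl : 0 < H.bl Q := by rw [(hP.dyad Q hQ.1).1]; positivity
    have hq := (k8a_blk hP hQ.1).2
    rw [hq] at hmass
    have hpr := (k8a_prior_le hI hP (fun z hz => hE' (hsub hz).1 : Cn ⊆ Ev0)).2
    calc H.mQ Q * ENNReal.ofReal (c.N ^ (-(c.d * g)))
        ≤ (ENNReal.ofReal (H.bl Q) * (ENNReal.ofReal (2 * K ^ 2) * (k8aW H c s K lev Ev0).νQ Q)) * ENNReal.ofReal (c.N ^ (-(c.d * g))) := by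
          unfold K7bHor.mQ
          gcongr
          exact (k8a_nuQ hI hP hQ).1
      _ = ENNReal.ofReal (2 * K ^ 2) * (ENNReal.ofReal (H.bl Q * c.N ^ (-(c.d * g))) * (k8aW H c s K lev Ev0).νQ Q) := by
          rw [ENNReal.ofReal_mul hbl.le]; ring
      _ ≤ ENNReal.ofReal (2 * K ^ 2) * (ENNReal.ofReal T * (k8aW H c s K lev Ev0).prior Cn) := by gcongr
      _ ≤ ENNReal.ofReal (2 * K ^ 2) * (ENNReal.ofReal T * (ENNReal.ofReal (K ^ 2) * H.lam Cn)) := by gcongr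
      _ = ENNReal.ofReal (2 * K ^ 4 * T) * H.lam Cn := by
          rw [← mul_assoc, ← mul_assoc, ← ENNReal.ofReal_mul (by positivity), ← ENNReal.ofReal_mul (by positivity)]
          congr 2; ring

/-! ## 9. A coarser velocity mesh: see `k8w_ok_coarse` (`S8w/Main.lean`, helper182; leaf L-252-S8w-COARSE).   (`k8a_coarse` withdrawn 21:50Z.) -/

theorem k8a_contract_eqns_cite : True := by
  have := @K8aIn
  have := @K8aPre
  trivial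

end

end Claimed.Agent.R252
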