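-- KEEP
import Claimed.Agent.R252.S8.Hubs
import Claimed.Agent.R252.S7a.WideDefs

/-!
# Row 252, Sec. 8, unit S8-ADAPT (architect helper55; prefix `k8a`): THE HORIZONTAL PROBLEM AS A FINITE-NARROWNESS PARENT.      DEFINITIONS ONLY, no sorry.

`k8aW H c s Kb lev Ev0 : K7aW` = the record to which P7.3 (`k7a_P73`, `S7a/WideDefs.lean`) is applied in P8.6 (08 l.1040-1095), built from the horizontal record `H : K7bHor` (`S7b/HorDefs.lean`):
* lines `L = H.Lam` (DEFINITIONALLY: `k8aLn`, `k8aW` are `abbrev`s, so sets of `H.Lam × ℝ` ARE sets of `W.L × ℝ`);  `Z0 = p`, `v = v`, `Y0 = q0`, `Y1 = y1`, `X = x0 + x1 t` (`x2 = 0`);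
* `Sp = k8aLb H Kb` = the lines all of whose six coefficients are `≤ Kb`;  prior `ν' = ν(Sp)⁻¹ • ν.restrict Sp` (a probability; `1 ≤ ν(Sp)⁻¹ ≤ K²` for a dense input);
* prepared selection `Ev0` = a PARAMETER (the selection at the entry of the projection stage; the exit `k8a_ok` produces it from any dense residual);
* finest velocity mesh `χ0 = c.χ`, palette, end histories and reference weights of `H`;
* true labels of the ONE depth `s` : `Qa` = the labels of `H.Qat s` which OCCUR in `Ev0`, assignment `H.asg q ∩ Sp`, block number `iv q = ⌊bt q 2^lev⌋₊`, `lev` = a PARAMETER (= the level of `H.Ok.dyad`),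
  centre `Zc = cZ`, plane `Y_Q(t, Z) = cY - cZ t + ct Z` (= the centred horizontal plane of `k7bBox`), `labQ = H.lab s`.
Scales in `W.Ok N K d S a h g Ms Ws` : `a = c.a s`, `h = g = c.h s`.
-/

set_option autoImplicit false

namespace Claimed.Agent.R252

open MeasureTheory
open scoped ENNReal BigOperators

noncomputable section

/-- the lines with bounded coefficients -/
def k8aLb (H : K7bHor) (Kb : ℝ) : Set H.Lam :=
  {l | |H.p l| ≤ Kb ∧ |H.v l| ≤ Kb ∧ |H.q0 l| ≤ Kb ∧ |H.y1 l| ≤ Kb ∧ |H.x0 l| ≤ Kb ∧ |H.x1 l| ≤ Kb}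

/-- the trimmed and normalised prior -/
def k8aNu (H : K7bHor) (Kb : ℝ) : Measure H.Lam := (H.ν (k8aLb H Kb))⁻¹ • H.ν.restrict (k8aLb H Kb)

/-- the lines, the prepared selection, the palette and the end histories -/
abbrev k8aLn (H : K7bHor) (c : K7bPar) (Kb : ℝ) (Ev0 : Set (H.Lam × ℝ)) : K7aLn where
  L := H.Lam
  mL := H.mL
  ν := k8aNu H Kb
  Sp := k8aLb H Kb
  Z0 := H.p
  v := H.v
  Y0 := H.q0
  Y1 := H.y1
  x0 := H.x0
  x1 := H.x1
  x2 := fun _ => 0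
  Ev0 := Ev0
  χ0 := c.χ
  pal := H.pal
  H := H.Eh
  fH := H.fE
  hist := H.eh
  ref := H.Ref

/-- **the horizontal problem at the depth `s` as finite-narrowness parent data** -/
abbrev k8aW (H : K7bHor) (c : K7bPar) (s Kb : ℝ) (lev : ℕ) (Ev0 : Set (H.Lam × ℝ)) : K7aW where
  toK7aLn := k8aLn H c Kb Ev0
  Q := H.Q
  fQ := H.fQ
  Qa := {q | q ∈ H.Qat s ∧ ∃ z ∈ Ev0, H.lab s z = q}
  asg := fun q => H.asg q ∩ k8aLb H Kb
  lev := lev
  iv := fun q => ⌊H.bt q * 2 ^ lev⌋₊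
  Zc := H.cZ
  r0 := H.cY
  r1 := fun q => - H.cZ q
  r2 := H.ct
  labQ := H.lab s

/-- the meshes of `c` are dyadic (field `dy` of `K8Adm`) -/
def k8aDy (c : K7bPar) : Prop := ∃ m : ℤ × ℤ × ℤ, c.ξ = (2 : ℝ) ^ m.1 ∧ c.χ = (2 : ℝ) ^ m.2.1 ∧ c.ϱ = (2 : ℝ) ^ m.2.2

/-- the same parameters with a coarser velocity mesh -/
def k8aCo (c : K7bPar) (χ' : ℝ) : K7bPar := { c with χ := χ' }

/-- the polynomial in the base `(t, Z, Y)` with the ten coefficients `e` (order of `K7aQuad3`) -/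
def k8aPol (e : Fin 10 → ℝ) : MvPolynomial (Fin 3) ℝ :=
  MvPolynomial.C (e 0) + MvPolynomial.C (e 1) * MvPolynomial.X 0 + MvPolynomial.C (e 2) * MvPolynomial.X 1
    + MvPolynomial.C (e 3) * MvPolynomial.X 2 + MvPolynomial.C (e 4) * MvPolynomial.X 0 ^ 2
    + MvPolynomial.C (e 5) * MvPolynomial.X 0 * MvPolynomial.X 1 + MvPolynomial.C (e 6) * MvPolynomial.X 0 * MvPolynomial.X 2
    + MvPolynomial.C (e 7) * MvPolynomial.X 1 ^ 2 + MvPolynomial.C (e 8) * MvPolynomial.X 1 * MvPolynomial.X 2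
    + MvPolynomial.C (e 9) * MvPolynomial.X 2 ^ 2

/-! ### the dictionary (all by `rfl` or `ring`) -/

theorem k8a_Z (H : K7bHor) (c : K7bPar) (Kb : ℝ) (Ev0 : Set (H.Lam × ℝ)) (l : H.Lam) (t : ℝ) :
    (k8aLn H c Kb Ev0).Z l t = H.Zt l t := by
  simp only [K7aLn.Z, K7bHor.Zt]; ring

theorem k8a_Y (H : K7bHor) (c : K7bPar) (Kb : ℝ) (Ev0 : Set (H.Lam × ℝ)) (l : H.Lam) (t : ℝ) :
    (k8aLn H c Kb Ev0).Y l t = H.Yt l t := by
  simp only [K7aLn.Y, K7bHor.Yt]; ring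

theorem k8a_X (H : K7bHor) (c : K7bPar) (Kb : ℝ) (Ev0 : Set (H.Lam × ℝ)) (l : H.Lam) (t : ℝ) :
    (k8aLn H c Kb Ev0).X l t = H.Xt l t := by
  simp only [K7aLn.X, K7bHor.Xt]; ring

theorem k8a_base (H : K7bHor) (c : K7bPar) (Kb : ℝ) (Ev0 : Set (H.Lam × ℝ)) (z : H.Lam × ℝ) :
    (k8aLn H c Kb Ev0).base z = H.base z := by
  simp only [K7aLn.base, K7bHor.base, K7bHor.bs, k8a_Z, k8a_Y]

theorem k8a_tm : k7aTm = k7bTime := rfl

theorem k8a_prior (H : K7bHor) (c : K7bPar) (Kb : ℝ) (Ev0 : Set (H.Lam × ℝ)) :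
    (k8aLn H c Kb Ev0).prior = (k8aNu H Kb).prod k7bTime := rfl

theorem k8a_lam0 (H : K7bHor) (c : K7bPar) (Kb : ℝ) (Ev0 : Set (H.Lam × ℝ)) :
    (k8aLn H c Kb Ev0).lam0 = ((k8aNu H Kb).prod k7bTime).restrict Ev0 := rfl

theorem k8a_YQ (H : K7bHor) (c : K7bPar) (s Kb : ℝ) (lev : ℕ) (Ev0 : Set (H.Lam × ℝ)) (q : H.Q) (t Z : ℝ) :
    (k8aW H c s Kb lev Ev0).YQ q t Z = H.cY q + (-H.cZ q * (t - H.ct q) + H.ct q * (Z - H.cZ q)) := by
  simp only [K7aW.YQ]; ring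

theorem k8a_defs_eqns_cite : True := by
  have := @k8aLb.eq_1
  have := @k8aNu.eq_1
  have := @k8aLn.eq_1
  have := @k8aW.eq_1
  have := @k8aDy.eq_1
  have := @k8aCo.eq_1
  have := @k8aPol.eq_1
  trivial

end

end Claimed.Agent.R252
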