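-- KEEP
import Claimed.Agent.R252.S8.Chain
import Claimed.Agent.R252.S7a.Defs
import Claimed.Agent.R252.Base.Pb

/-!
# Row 252, Sec. 8, P8.6 `prop:offcritical-wide` (08 l.808-1100): INTERFACES AND HUBS      (chief helper182; prefix `k8w` / `K8w`)      definitions only, no sorry

```
 K8HWide  ⟸  K8wHChart (S1: charts + directional collapse;  helper182, `S8w/Chart*.lean`)
          ⟸  K8wHProj  (S2: Thm 7.1 with angular gain in every chart;  helper167, `S8w/Proj*.lean`)              [uses k7a_T71a]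
          ⟸  K8wHLay   (S3: slices `[p]_χ`, return to the true base `(t, Y)`;  `S8w/Lay*.lean`)
          ⟸  K8wHFin   (S4-S6: adaptor K7bHor → K7aW (helper55), lists = L7.2 (helper17), k7a_P73, K8Cand;  glue helper182)
          ⟸  k8w_ok_coarse (the group mesh of P7.3 is COARSER than the finest velocity mesh)
```
## Design (both cases `2k < 1`, `2k > 1` in ONE language)
* exponents `e : K8wE` : `s0`, `sA` (`= s0` if `2k < 1`, `= 0` if `2k > 1`), `s = s0 + δ`, `u`, `c2`.      `A₀ = a_{sA}`, `D₀ = a_{s0}^(2k) = N^(-2k s0)`, the three depths `e.T = {s, s + u, s + c2}`.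
* CHARTS = the labels `(group (d₀, P_{D₀}), H₀)` of a full-time labelling `F` with `F.Ok c K sA D₀ E` (`2k > 1`: `H₀ = 0`, depth `0`).
* `pr1 = H₀ + A₀ H_corr((P - P_c)/D₀)` is again a `K8Pr`; it is a separate map, constant on charts.      `x° = (x - pr1(t, P)) / A₀`.
* `shared` : ONE true label and ONE affine entry of depth `sA` per (chart, time block of depth `sA`)   (08 l.836 "take one paired `L_{s0}, Q_{s0}` per `H₀` and time block").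
* `coll` = (a07:directional-collapse) multiplied by `A₀` :  `|(∂_Z L_s + t ∂_Y L_s) - ∇_P pr1 · W(t)| D₀ ≤ K a_s`,  `W(t) = (1, 2t)`,  at the incidences of the selection.
* ALL STORED FLOORS of S2, S3 are measured in `H.Sp` (they persist; `K7aLayer.Ok.floor` is a stored witness floor).
-/

set_option autoImplicit false

namespace Claimed.Agent.R252

open MeasureTheory
open scoped ENNReal BigOperators

noncomputable section

/-! ## 1. Exponents -/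

/-- the exponents of P8.6 -/
structure K8wE where
  sA : ℝ
  s0 : ℝ
  s : ℝ
  u : ℝ
  c2 : ℝ

/-- the three depths -/
def K8wE.T (e : K8wE) : Finset ℝ := {e.s, e.s + e.u, e.s + e.c2}

/-- the margins of 08 l.905-935.   `Δ = s + u - s0` is the largest of the `Δ_i` -/
structure K8wE.Ok (e : K8wE) (x : K8Exp) : Prop where
  s0 : 0 < e.s0
  sA : (2 * x.k < 1 ∧ e.sA = e.s0) ∨ (1 < 2 * x.k ∧ e.sA = 0)
  e0 : 100 * e.s0 < x.e0
  R : 2 * e.s0 ≤ x.R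
  δ0 : e.s0 < e.s
  u0 : 0 < e.u
  c20 : 0 < e.c2
  c2u : e.c2 < (1 - x.d) * e.u / 4
  /-- `s_i < 3 s0 / 2` -/
  top : e.s + e.u - e.s0 < e.s0 / 2
  /-- `2k < 1` : `D₀ / h_{s_i} ≪ a_{s_i} / A₀` and `N^(-κ) ≪ a_{s_i} / A₀`, `κ = (s0 / 4) min (k, 1 - 2k)` -/
  sub1 : 2 * x.k < 1 → (x.k + 1) * (e.s + e.u - e.s0) < x.k * e.s0
  sub2 : 2 * x.k < 1 → e.s + e.u - e.s0 < e.s0 / 4 * min x.k (1 - 2 * x.k)
  /-- `2k > 1` : `D₀ ≪ a_{s_i}` -/
  sup : 1 < 2 * x.k → e.s + e.u - e.s0 < (2 * x.k - 1) * e.s0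
  /-- the wide inequalities -/
  wide : (10 / (1 - x.d) + 3) * e.u ≤ x.k * (e.s - e.s0) / 4

/-- `D₀` -/
def K8wE.D (e : K8wE) (c : K7bPar) : ℝ := c.a e.s0 ^ (2 * c.k)

/-! ## 2. Charts -/

/-- `∇_P h · W(t)`, `W(t) = (1, 2t)` -/
def K8Pr.dW (h : K8Pr) (t : ℝ) : ℝ := (h.p0 + h.p1 * t) + 2 * t * (h.q0 + h.q1 * t)

/-- `∇_P 𝓛 · W(t) = ∂_Z L + t ∂_Y L` -/
def k8wDL (L : ℝ × ℝ × ℝ × ℝ) (t : ℝ) : ℝ := L.2.2.1 + t * L.2.2.2

/-- the trajectories with the trajectory bounds and the horizontal equation (all trajectories of `H.Sp` are of this kind) -/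
def k8wGood (H : K7bHor) (c : K7bPar) (K : ℝ) : Set H.Lam :=
  {l | |H.p l| ≤ K ∧ |H.v l| ≤ K ∧ |H.q0 l| ≤ K ∧ |H.y1 l| ≤ K ∧ |H.x0 l| ≤ K ∧ |H.x1 l| ≤ K ∧ |H.y1 l + H.p l| ≤ c.N ^ (-c.e0)}

/-- **a chart system** (data) -/
structure K8wCh (H : K7bHor) where
  /-- the stored selection of the affine preparations -/
  E0 : Set (H.Lam × ℝ)
  /-- the charts are the labels of `F` -/
  F : K8Lab H
  /-- the corrected baseline predictor `H₀ + A₀ H_corr` -/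
  pr1 : H.Lam → K8Pr

/-- **a chart system with directional collapse at the depths `T`**: thickness depth `sA`, parameter width `D`, slack `K`, current selection `E` -/
structure K8wCh.Ok {H : K7bHor} (a : K8wCh H) (c : K7bPar) (K sA D : ℝ) (T : Finset ℝ) (E : Set (H.Lam × ℝ)) : Prop where
  sAG : sA ∈ c.G
  TG : ∀ s ∈ T, s ∈ c.G ∧ sA ≤ s
  prep : K8Prep H c K a.E0 E
  lab : a.F.Ok c K sA D E
  good : a.F.dom ⊆ k8wGood H c K
  /-- `pr1` is a function of the chart -/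
  same : ∀ l ∈ a.F.dom, ∀ l' ∈ a.F.dom, H.grp c.χ D l = H.grp c.χ D l' → a.F.pr l = a.F.pr l' → a.pr1 l = a.pr1 l'
  fit1 : ∀ l ∈ a.F.dom, ∀ t ∈ Set.Icc (0 : ℝ) 1, |H.Xt l t - (a.pr1 l).ev t (H.p l) (H.q0 l)| ≤ K * c.a sA
  norm1 : ∀ l ∈ a.F.dom, ∀ t ∈ Set.Icc (0 : ℝ) 1, ∀ p q : ℝ, |p - H.p l| ≤ D → |q - H.q0 l| ≤ D → |(a.pr1 l).ev t p q| ≤ K
  /-- one true label and one affine entry of depth `sA` per chart and time block -/
  shared : ∀ z ∈ E, ∀ z' ∈ E, z'.1 ∈ a.F.asg c.χ D z.1 → H.blk (H.lab sA z') = H.blk (H.lab sA z) →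
    H.lab sA z' = H.lab sA z ∧ H.entOf sA z' = H.entOf sA z
  /-- (a07:directional-collapse) -/
  coll : ∀ s ∈ T, ∀ z ∈ E, |k8wDL (H.entOf s z) z.2 - (a.pr1 z.1).dW z.2| * D ≤ K * c.a s

/-! ## 3. Projected labels in chart coordinates (exit of S2) -/

/-- the scalar parameter `R(t) = P̃₂ - 2 t P̃₁`, `P̃ = (P - P_c) / D`, `P_c` = corner of the parameter bin of the group `g` -/
def k8wR (D : ℝ) (g : ℤ × ℤ × ℤ) (p q t : ℝ) : ℝ := (q - g.2.2 * D) / D - 2 * t * ((p - g.2.1 * D) / D)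

/-- **projected full-time labels of one depth, in chart coordinates** (data): group, baseline predictor, moving centre and quadratic `F(t, R)` -/
structure K8wProj (H : K7bHor) where
  /-- the number of labels (labels = `Fin n`, so that the record lives in `Type`) -/
  n : ℕ
  /-- disjoint trajectory assignments -/
  lab : H.Lam → Option (Fin n)
  g : Fin n → ℤ × ℤ × ℤ
  h1 : Fin n → K8Pr
  G : Fin n → K7aLab

/-- conclusion of Thm 7.1 (angular form, `β ∼ 1`) in all charts: thickness `a_s`, unit `A₀ = a_{sA}`, slack `K` -/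
structure K8wProj.Ok {H : K7bHor} (Φ : K8wProj H) (c : K7bPar) (K sA D s : ℝ) : Prop where
  meas : ∀ o, MeasurableSet (Φ.lab ⁻¹' {o})
  good : ∀ l φ, Φ.lab l = some φ → l ∈ k8wGood H c K ∧ H.grp c.χ D l = Φ.g φ
  quad : ∀ φ, K7aQuad (Φ.G φ).F
  cen : ∀ φ, |(Φ.G φ).c0| ≤ K ∧ |(Φ.G φ).c1| ≤ K
  norm : ∀ φ, ∀ t ∈ Set.Icc (0 : ℝ) 1, ∀ r ∈ Set.Icc (-1 : ℝ) 1, |(Φ.G φ).F t ((Φ.G φ).cen t + r)| ≤ K
  /-- the baseline predictor is bounded on the doubled parameter box of the group -/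
  hnorm : ∀ φ, ∀ t ∈ Set.Icc (0 : ℝ) 1, ∀ p q : ℝ, |p - (Φ.g φ).2.1 * D| ≤ 2 * D → |q - (Φ.g φ).2.2 * D| ≤ 2 * D → |(Φ.h1 φ).ev t p q| ≤ K
  fit : ∀ l φ, Φ.lab l = some φ → ∀ t ∈ Set.Icc (0 : ℝ) 1,
    |k8wR D (Φ.g φ) (H.p l) (H.q0 l) t - (Φ.G φ).cen t| ≤ K ∧
    |H.Xt l t - (Φ.h1 φ).ev t (H.p l) (H.q0 l) - c.a sA * (Φ.G φ).F t (k8wR D (Φ.g φ) (H.p l) (H.q0 l) t)| ≤ K * c.a s
  /-- stored floor `π(d₀) D² a_s^d / K` -/
  floor : ∀ φ, H.gW c.χ D (Φ.g φ) * ENNReal.ofReal (c.a s ^ c.d) ≤ ENNReal.ofReal K * H.lam (H.Sp ∩ {z | Φ.lab z.1 = some φ})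

/-! ## 4. Layers over the true base (exit of S3) = `K7aLayer` in the language of `K7bHor` -/

/-- **one family of projected labels** `Φ` : group `α = ([v]_χ, [Z(0)]_χ)`, moving centre in `Y`, predictor `F(t, Y)` -/
structure K8wLay (H : K7bHor) where
  n : ℕ
  lab : H.Lam → Option (Fin n)
  vi : Fin n → ℤ
  zi : Fin n → ℤ
  G : Fin n → K7aLab

/-- thickness `th`, interval scale `β`, groups of mesh `c.χ`, slack `K`   (mirror of `K7aLayer.Ok`) -/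
structure K8wLay.Ok {H : K7bHor} (P : K8wLay H) (c : K7bPar) (K th β : ℝ) : Prop where
  meas : ∀ o, MeasurableSet (P.lab ⁻¹' {o})
  grp : ∀ l φ, P.lab l = some φ → l ∈ k8wGood H c K ∧ k7bBin c.χ (H.v l) = P.vi φ ∧ k7bBin c.χ (H.p l) = P.zi φ
  quad : ∀ φ, K7aQuad (P.G φ).F
  norm : ∀ φ, ∀ t ∈ Set.Icc (0 : ℝ) 1, ∀ r ∈ Set.Icc (-1 : ℝ) 1, |(P.G φ).F t ((P.G φ).cen t + β * r)| ≤ K
  fit : ∀ l φ, P.lab l = some φ → ∀ t ∈ Set.Icc (0 : ℝ) 1,
    |H.Yt l t - (P.G φ).cen t| ≤ K * β ∧ |H.Xt l t - (P.G φ).F t (H.Yt l t)| ≤ K * th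
  /-- stored floor `w_α th^d β / K`, `w_α = π([v]_χ) χ` -/
  floor : ∀ φ, ENNReal.ofReal (c.χ * th ^ c.d * β) * H.pal (k7bIv c.χ (P.vi φ)) ≤ ENNReal.ofReal K * H.lam (H.Sp ∩ {z | P.lab z.1 = some φ})

/-! ## 5. The hubs -/

/-- **S1** (08 l.822-945): charts with directional collapse at three depths with positive margins.   `smax` = any bound for `3 s0 / 2`.      OWNER helper182 -/
def K8wHChart : Prop := ∀ x : K8Exp, x.Ok → 2 * x.k ≠ 1 → ∃ e : K8wE, e.Ok x ∧ ∃ M0 : ℝ,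
  K8Hub0 x M0 fun H c K E => ∃ E' ⊆ E, H.Res E' (1 / K) ∧ ∃ a : K8wCh H, a.Ok c K e.sA (e.D c) e.T E'

/-- **S2** (08 l.946-1015): the scalar projection at ONE depth `s ∈ e.T` in all charts; every chart keeps a dense part, so the chart system survives.      OWNER helper167 -/
def K8wHProj : Prop := ∀ x : K8Exp, x.Ok → ∀ e : K8wE, e.Ok x → ∀ s ∈ e.T, ∃ M0 : ℝ,
  K8HubAt x M0 (A := K8wCh) (fun _ a c K E => a.Ok c K e.sA (e.D c) e.T E)
    (fun H a c K E => ∃ E' ⊆ E, H.Res E' (1 / K) ∧ a.Ok c K e.sA (e.D c) e.T E' ∧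
      ∃ Φ : K8wProj H, Φ.Ok c K e.sA (e.D c) s ∧ ∀ z ∈ E', Φ.lab z.1 ≠ none)

/-- **S3** (08 l.1016-1040): slices and return to the true base -/
def K8wHLay : Prop := ∀ x : K8Exp, x.Ok → ∀ e : K8wE, e.Ok x → ∀ s ∈ e.T, ∃ M0 : ℝ,
  K8HubAt x M0 (A := K8wProj) (fun _ Φ c K E => Φ.Ok c K e.sA (e.D c) s ∧ ∀ z ∈ E, Φ.lab z.1 ≠ none)
    (fun H _ c K E => ∃ E' ⊆ E, H.Res E' (1 / K) ∧ ∃ P : K8wLay H, P.Ok c K (c.a s) (e.D c) ∧ ∀ z ∈ E', P.lab z.1 ≠ none)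

/-- the record with the coarser group mesh `χ' = ` dyadic rounding of `N^(-Mχ)` -/
def k8wCo (c : K7bPar) (Mχ : ℝ) : K7bPar := { c with χ := kbDy (c.N ^ (-Mχ)) }

/-- three layers at the depths `s, s + u, s + c2` over the groups of the coarse mesh, all defined on the selection -/
def K8wFinH (e : K8wE) (Mχ : ℝ) (H : K7bHor) (P : Fin 3 → K8wLay H) (c : K7bPar) (K : ℝ) (E : Set (H.Lam × ℝ)) : Prop :=
  (P 0).Ok (k8wCo c Mχ) K (c.a e.s) (e.D c) ∧ (P 1).Ok (k8wCo c Mχ) K (c.a (e.s + e.u)) (e.D c) ∧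
    (P 2).Ok (k8wCo c Mχ) K (c.a (e.s + e.c2)) (e.D c) ∧ ∀ z ∈ E, ∀ i, (P i).lab z.1 ≠ none

/-- **S4-S6** (08 l.1041-1095): three wide layers give a candidate.   Group mesh `Mχ` beyond a threshold; then the threshold `M0` of the finest meshes -/
def K8wHFin : Prop := ∀ x : K8Exp, x.Ok → ∀ e : K8wE, e.Ok x → ∃ Mχ0 : ℝ, ∀ Mχ : ℝ, Mχ0 ≤ Mχ → ∃ M0 : ℝ, Mχ + 1 ≤ M0 ∧
  K8HubAt x M0 (A := fun H => Fin 3 → K8wLay H) (K8wFinH e Mχ) (fun H _ c K E => ∃ q P Cn, K8Cand H c K e.s e.c2 E q P Cn)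

theorem k8w_defs_eqns_cite : True := by
  have := @K8wE.T.eq_1
  have := @K8wE.D.eq_1
  have := @K8Pr.dW.eq_1
  have := @k8wDL.eq_1
  have := @k8wGood.eq_1
  have := @k8wR.eq_1
  have := @K8wHChart.eq_1
  have := @K8wHProj.eq_1
  have := @K8wHLay.eq_1
  have := @k8wCo.eq_1
  have := @K8wFinH.eq_1
  have := @K8wHFin.eq_1
  trivial

end

end Claimed.Agent.R252
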