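import Claimed.Agent.R252.S8w.AdaptContract
import Claimed.Agent.R252.S8w.Defs

/-!
# Row 252, Sec. 8, unit S8-ADAPT (architect helper55; prefix `k8a`), file 3: THE LAYERS `K8wLay → K7aLayer` AND THE LAST PRUNING.      CONTRACT

PAPER-FREE.   Consumers: the glue of `K8wHFin` (`S8w/Defs.lean`).
* `k8aLay c Kb Ev0 P G : K7aLayer (k8aLn H c Kb Ev0)` = the layer `P : K8wLay H` restricted to a set `G` of GOOD labels (labels = the subtype; the other trajectories become unlabelled).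
* `K8aLayIn P c' K th β` = the fields of `K8wLay.Ok` except the floor.
* `k8a_lay_ok`   : `K8aLayIn P (k8wCo c Mχ) K th β` + floors of the good labels inside `Ev0`  `⟹`  `(k8aLay …).Ok K' (N^(-Mχ)) th β d`.
* `k8a_refloor`  : prepared `Ev0` (from the CURRENT selection, after `k8_prep`), three layers with floors stored in `H.Sp` (used as a budget)  `⟹`  good labels (floor `12 K³` inside `Ev0`), `E₂ ⊆ Ev0` of mass `≥ 1/(4K)` all of whose labels are good.
RULE: statements are frozen; prove IN PLACE; helper lemmas (prefix `k8a_`) directly above the theorem that needs them; statements of the imported files are black boxes.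
-/

set_option autoImplicit false

namespace Claimed.Agent.R252

open MeasureTheory
open scoped ENNReal BigOperators

noncomputable section

open Classical in
/-- the layer restricted to the good labels -/
def k8aLay {H : K7bHor} (c : K7bPar) (Kb : ℝ) (Ev0 : Set (H.Lam × ℝ)) (P : K8wLay H) (G : Set (Fin P.n)) :
    K7aLayer (k8aLn H c Kb Ev0) where
  Ph := {φ : Fin P.n // φ ∈ G}
  fPh := inferInstance
  lab := fun l => match P.lab l with
    | some φ => if h : φ ∈ G then some ⟨φ, h⟩ else none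
    | none => none
  vi := fun φ => P.vi φ.1
  zi := fun φ => P.zi φ.1
  G := fun φ => P.G φ.1

/-- the fields of `K8wLay.Ok` except the floor -/
structure K8aLayIn {H : K7bHor} (P : K8wLay H) (c : K7bPar) (K th β : ℝ) : Prop where
  meas : ∀ o, MeasurableSet (P.lab ⁻¹' {o})
  grp : ∀ l φ, P.lab l = some φ → l ∈ k8wGood H c K ∧ k7bBin c.χ (H.v l) = P.vi φ ∧ k7bBin c.χ (H.p l) = P.zi φ
  quad : ∀ φ, K7aQuad (P.G φ).F
  norm : ∀ φ, ∀ t ∈ Set.Icc (0 : ℝ) 1, ∀ r ∈ Set.Icc (-1 : ℝ) 1, |(P.G φ).F t ((P.G φ).cen t + β * r)| ≤ K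
  fit : ∀ l φ, P.lab l = some φ → ∀ t ∈ Set.Icc (0 : ℝ) 1,
    |H.Yt l t - (P.G φ).cen t| ≤ K * β ∧ |H.Xt l t - (P.G φ).F t (H.Yt l t)| ≤ K * th

variable {H : K7bHor} {c : K7bPar} {K s : ℝ} {lev : ℕ} {Ev0 : Set (H.Lam × ℝ)}

/-! ## 1. The layers      (LEAF L-252-S8A-L1) -/

/-- PROOF: unfold `k8aLay`; `cases h : P.lab l`; `split_ifs`/`dif_pos`; `Subtype.ext`. -/
theorem k8a_lay_lab (Kb : ℝ) (P : K8wLay H) (G : Set (Fin P.n)) (l : H.Lam) (φ : {φ : Fin P.n // φ ∈ G}) :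
    (k8aLay c Kb Ev0 P G).lab l = some φ ↔ P.lab l = some φ.1 := by
  classical
  unfold k8aLay
  simp only
  cases h : P.lab l with
  | none => simp
  | some ψ =>
    by_cases hψ : ψ ∈ G
    · simp only [dif_pos hψ, Option.some.injEq]
      constructor
      · intro h1; rw [← h1]
      · intro h1; exact Subtype.ext h1
    · simp only [dif_neg hψ, Option.some.injEq]
      constructor
      · intro h1; exact absurd h1 (by simp)
      · intro h1; exact absurd (h1 ▸ φ.2) hψ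

/-- PROOF: as above. -/
theorem k8a_lay_ne (Kb : ℝ) (P : K8wLay H) (G : Set (Fin P.n)) (l : H.Lam) {φ : Fin P.n} (h : P.lab l = some φ) (hφ : φ ∈ G) :
    (k8aLay c Kb Ev0 P G).lab l ≠ none := by
  have h1 := (k8a_lay_lab (c := c) (Ev0 := Ev0) Kb P G l ⟨φ, hφ⟩).2 h
  intro h2
  rw [h1] at h2
  exact Option.some_ne_none _ h2

/-- `H.Ok` and the standing hypotheses are monotone in the slack (`k8_ok_mono`, `S8/Glue.lean`). -/
theorem k8a_in_mono {K' : ℝ} (hI : K8aIn H c K s) (hK : K ≤ K') : K8aIn H c K' s :=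
  ⟨hI.wf, hI.dy, hI.K1.trans hK, k8_ok_mono hI.wf (lt_of_lt_of_le one_pos hI.K1) hK hI.ok, hI.hs⟩

/-- **the layers of P8.6 are layers of P7.3.**   `Kb` = the slack of the adaptor, `K` = the slack of the layer, `K'` = the output slack.
PROOF.  `χ := N^(-Mχ)`, `(k8wCo c Mχ).χ = kbDy χ` by `rfl`, so `k7bBin (k8wCo c Mχ).χ x = kbBin χ x` and `k7bIv (kbDy χ) m = k7aBinI χ m` by `rfl` (unfold).
`meas` : for `o = some φ` the preimage is `P.lab ⁻¹' {some φ.1}` (`k8a_lay_lab`); for `o = none` it is the complement of the finite union of the others.   `grp` : `k8wGood H _ K ⊆ k8aLb H K ⊆ k8aLb H Kb`.   `quad`, `norm`, `fit` : the fields of `hP` (`k8a_Y`, `k8a_X`), `K ≤ K'`, `0 ≤ β, th`.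
`floor` : `χ ≤ kbDy χ` (`k8a_dy_bounds`), so `ofReal (χ th^d β) ≤ ofReal (kbDy χ th^d β)`; `hfl`; `lam (A ∩ Ev0) ≤ lam0 A` (`k8a_lam0_le`) with `A = {z | lab z.1 = some φ}` (`k8a_lay_lab`, `Set.inter_comm`).   ~200 l. -/
theorem k8a_lay_ok {Kb K' Mχ th β : ℝ} (hI : K8aIn H c Kb s) (hPre : K8aPre H c Kb s lev Ev0) (P : K8wLay H) (G : Set (Fin P.n))
    (hK : K ≤ Kb) (hK' : K ≤ K') (hth : 0 ≤ th) (hβ : 0 ≤ β) (hP : K8aLayIn P (k8wCo c Mχ) K th β)
    (hfl : ∀ φ ∈ G, ENNReal.ofReal ((k8wCo c Mχ).χ * th ^ c.d * β) * H.pal (k7bIv (k8wCo c Mχ).χ (P.vi φ))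
      ≤ ENNReal.ofReal K' * H.lam (Ev0 ∩ {z | P.lab z.1 = some φ})) :
    (k8aLay c Kb Ev0 P G).Ok K' (c.N ^ (-Mχ)) th β c.d := by
  have hN : 0 < c.N := lt_of_lt_of_le one_pos hI.wf.N1
  have hsome : ∀ φ : {φ : Fin P.n // φ ∈ G}, (k8aLay c Kb Ev0 P G).lab ⁻¹' {some φ} = P.lab ⁻¹' {some φ.1} := by
    intro φ
    ext l
    exact k8a_lay_lab Kb P G l φ
  have hmsome : ∀ φ : {φ : Fin P.n // φ ∈ G}, MeasurableSet ((k8aLay c Kb Ev0 P G).lab ⁻¹' {some φ}) := by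
    intro φ
    rw [hsome φ]
    exact hP.meas _
  refine
  { meas := ?_
    grp := ?_
    quad := fun φ => hP.quad φ.1
    norm := fun φ t ht u hu => (hP.norm φ.1 t ht u hu).trans hK'
    fit := ?_
    floor := ?_ }
  · intro o
    cases o with
    | some φ => exact hmsome φ
    | none =>
      have e : (k8aLay c Kb Ev0 P G).lab ⁻¹' {none}
          = (⋃ φ : {φ : Fin P.n // φ ∈ G}, (k8aLay c Kb Ev0 P G).lab ⁻¹' {some φ})ᶜ := by
        ext l
        simp only [Set.mem_preimage, Set.mem_singleton_iff, Set.mem_compl_iff, Set.mem_iUnion, not_exists]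
        exact Option.eq_none_iff_forall_ne_some
      rw [e]
      exact (MeasurableSet.iUnion hmsome).compl
  · intro l φ hl
    obtain ⟨⟨g1, g2, g3, g4, g5, g6, -⟩, h2, h3⟩ := hP.grp l φ.1 ((k8a_lay_lab Kb P G l φ).1 hl)
    exact ⟨⟨g1.trans hK, g2.trans hK, g3.trans hK, g4.trans hK, g5.trans hK, g6.trans hK⟩, h2, h3⟩
  · intro l φ hl t ht
    obtain ⟨f1, f2⟩ := hP.fit l φ.1 ((k8a_lay_lab Kb P G l φ).1 hl) t ht
    rw [k8a_Y, k8a_X]
    exact ⟨f1.trans (mul_le_mul_of_nonneg_right hK' hβ), f2.trans (mul_le_mul_of_nonneg_right hK' hth)⟩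
  · intro φ
    have hχ : c.N ^ (-Mχ) ≤ kbDy (c.N ^ (-Mχ)) := (k8a_dy_bounds (Real.rpow_pos_of_pos hN _)).1
    have hd : 0 ≤ th ^ c.d := Real.rpow_nonneg hth _
    have h1 := hfl φ.1 φ.2
    have hA : {z : H.Lam × ℝ | (k8aLay c Kb Ev0 P G).lab z.1 = some φ} = {z | P.lab z.1 = some φ.1} := by
      ext z
      exact k8a_lay_lab Kb P G z.1 φ
    have h2 := (k8a_lam0_le hI hPre {z : H.Lam × ℝ | P.lab z.1 = some φ.1}).1
    rw [Set.inter_comm] at h2
    calc ENNReal.ofReal (c.N ^ (-Mχ) * th ^ c.d * β) * (k8aLn H c Kb Ev0).palχ (c.N ^ (-Mχ)) ((k8aLay c Kb Ev0 P G).vi φ)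
        ≤ ENNReal.ofReal ((k8wCo c Mχ).χ * th ^ c.d * β) * H.pal (k7bIv (k8wCo c Mχ).χ (P.vi φ.1)) := by
          refine mul_le_mul' (ENNReal.ofReal_le_ofReal ?_) (le_of_eq rfl)
          exact mul_le_mul_of_nonneg_right (mul_le_mul_of_nonneg_right hχ hd) hβ
      _ ≤ ENNReal.ofReal K' * H.lam (Ev0 ∩ {z | P.lab z.1 = some φ.1}) := h1
      _ ≤ ENNReal.ofReal K' * (k8aLn H c Kb Ev0).lam0 {z | (k8aLay c Kb Ev0 P G).lab z.1 = some φ} := by
          rw [hA]
          exact mul_le_mul' le_rfl h2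

/-! ## 2. The last pruning      (LEAF L-252-S8A-L2; version 2 of 22:05Z, after helper17 and helper142: the stored floors are used only as a BUDGET) -/

/-- **the last pruning** (08 l.1041-1052).   `T i φ` = the floor numerator of the label `φ` of the layer `i` (`= ofReal (χ' th_i^d β) * pal (k7bIv χ' (vi φ))`); `hT` = the floors STORED in `H.Sp`.
The prepared selection `Ev0` stays FIXED (it is `W.Ev0`); the labels which are light IN `Ev0` are dropped; `E₂` = the current selection.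
PROOF.  `A i φ := {z | (P i).lab z.1 = some φ}` (measurable: preimage of `hPm i (some φ)` under `Prod.fst`; pairwise disjoint in `φ`).   `G i := {φ | T i φ ≤ ofReal (12 K³) * lam (Ev0 ∩ A i φ)}`.   `E₂ := Ev0 \ ⋃ i, ⋃ φ ∉ G i, A i φ` (finite unions).
BUDGET: `∑_φ T i φ ≤ ofReal K * ∑_φ lam (Sp ∩ A i φ) = ofReal K * lam (Sp ∩ ⋃_φ A i φ) ≤ ofReal K * lam univ ≤ ofReal K * ofReal K` (`measure_biUnion_finset`/`measure_iUnion` for disjoint measurable sets; `Ok.dom`, `Measure.smul_apply`, `Measure.prod_prod`, `Ok.νle`, `k7bTime univ = 1`).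
For `φ ∉ G i` : `ofReal (12 K³) * lam (Ev0 ∩ A i φ) < T i φ`, so `lam (Ev0 ∩ A i φ) ≤ T i φ / ofReal (12 K³)` (`ENNReal.le_div_iff_mul_le`); sum over `φ` : `≤ ofReal (K²) / ofReal (12 K³) = ofReal (1/(12 K))`; three layers: `≤ ofReal (1/(4K))`.
`ofReal (1/(2K)) ≤ lam Ev0 ≤ lam E₂ + ofReal (1/(4K))`, `1/(2K) = 1/(4K) + 1/(4K)`.   ~250 l. -/
theorem k8a_refloor (hI : K8aIn H c K s) (hPre : K8aPre H c K s lev Ev0) (hmass : ENNReal.ofReal (1 / (2 * K)) ≤ H.lam Ev0)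
    (P : Fin 3 → K8wLay H) (hPm : ∀ i o, MeasurableSet ((P i).lab ⁻¹' {o})) (T : ∀ i, Fin (P i).n → ℝ≥0∞)
    (hT : ∀ i φ, T i φ ≤ ENNReal.ofReal K * H.lam (H.Sp ∩ {z | (P i).lab z.1 = some φ})) :
    ∃ (G : ∀ i, Set (Fin (P i).n)) (E₂ : Set (H.Lam × ℝ)),
      E₂ ⊆ Ev0 ∧ MeasurableSet E₂ ∧ ENNReal.ofReal (1 / (4 * K)) ≤ H.lam E₂ ∧
      (∀ i, ∀ φ ∈ G i, T i φ ≤ ENNReal.ofReal (12 * K ^ 3) * H.lam (Ev0 ∩ {z | (P i).lab z.1 = some φ})) ∧
      ∀ z ∈ E₂, ∀ i, ∀ φ, (P i).lab z.1 = some φ → φ ∈ G i := by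
  classical
  have hK := hI.K1
  have hK0 : 0 < K := lt_of_lt_of_le one_pos hK
  have hAm : ∀ i φ, MeasurableSet {z : H.Lam × ℝ | (P i).lab z.1 = some φ} := fun i φ => measurable_fst (hPm i (some φ))
  have hAd : ∀ i, Pairwise fun φ ψ => Disjoint {z : H.Lam × ℝ | (P i).lab z.1 = some φ} {z : H.Lam × ℝ | (P i).lab z.1 = some ψ} := by
    intro i φ ψ hne
    refine Set.disjoint_left.2 fun z h1 h2 => hne ?_
    exact Option.some.inj ((Eq.symm h1).trans h2)
  have hbud : ∀ i, ∑ φ, T i φ ≤ ENNReal.ofReal (K ^ 2) := by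
    intro i
    calc ∑ φ, T i φ ≤ ∑ φ, ENNReal.ofReal K * H.lam.restrict H.Sp {z | (P i).lab z.1 = some φ} := by
          refine Finset.sum_le_sum fun φ _ => ?_
          rw [Measure.restrict_apply (hAm i φ), Set.inter_comm]
          exact hT i φ
      _ = ENNReal.ofReal K * H.lam.restrict H.Sp (⋃ φ ∈ (Finset.univ : Finset (Fin (P i).n)), {z | (P i).lab z.1 = some φ}) := by
          rw [← Finset.mul_sum, measure_biUnion_finset (fun φ _ ψ _ hne => hAd i hne) (fun φ _ => hAm i φ)]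
      _ ≤ ENNReal.ofReal K * ENNReal.ofReal K := by
          refine mul_le_mul' le_rfl ((Measure.restrict_apply_le _ _).trans (k8f_lam_le hI.ok _))
      _ = ENNReal.ofReal (K ^ 2) := by rw [← ENNReal.ofReal_mul hK0.le, sq]
  have hC0 : ENNReal.ofReal (12 * K ^ 3) ≠ 0 := (ENNReal.ofReal_pos.2 (by positivity)).ne'
  have hCt : ENNReal.ofReal (12 * K ^ 3) ≠ ⊤ := ENNReal.ofReal_ne_top
  obtain ⟨Bd, hBd⟩ : ∃ Bd : Fin 3 → Set (H.Lam × ℝ), Bd = fun i =>
      ⋃ φ ∈ Finset.univ.filter (fun φ => ENNReal.ofReal (12 * K ^ 3) * H.lam (Ev0 ∩ {z | (P i).lab z.1 = some φ}) < T i φ),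
      {z | (P i).lab z.1 = some φ} := ⟨_, rfl⟩
  have hBdm : ∀ i, MeasurableSet (Bd i) := fun i => by
    rw [hBd]
    exact Finset.measurableSet_biUnion _ fun φ _ => hAm i φ
  have hbad : ∀ i, H.lam (Ev0 ∩ Bd i) ≤ ENNReal.ofReal (1 / (12 * K)) := by
    intro i
    rw [hBd]
    simp only [Set.inter_iUnion]
    calc _ ≤ ∑ φ ∈ Finset.univ.filter (fun φ => ENNReal.ofReal (12 * K ^ 3) * H.lam (Ev0 ∩ {z | (P i).lab z.1 = some φ}) < T i φ),
            H.lam (Ev0 ∩ {z | (P i).lab z.1 = some φ}) := measure_biUnion_finset_le _ _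
      _ ≤ ∑ φ ∈ Finset.univ.filter (fun φ => ENNReal.ofReal (12 * K ^ 3) * H.lam (Ev0 ∩ {z | (P i).lab z.1 = some φ}) < T i φ),
            (ENNReal.ofReal (12 * K ^ 3))⁻¹ * T i φ := by
          refine Finset.sum_le_sum fun φ hφ => ?_
          have h1 := (Finset.mem_filter.1 hφ).2.le
          calc H.lam (Ev0 ∩ {z | (P i).lab z.1 = some φ})
              = (ENNReal.ofReal (12 * K ^ 3))⁻¹ * (ENNReal.ofReal (12 * K ^ 3) * H.lam (Ev0 ∩ {z | (P i).lab z.1 = some φ})) := by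
                rw [← mul_assoc, ENNReal.inv_mul_cancel hC0 hCt, one_mul]
            _ ≤ _ := mul_le_mul' le_rfl h1
      _ ≤ ∑ φ, (ENNReal.ofReal (12 * K ^ 3))⁻¹ * T i φ := Finset.sum_le_sum_of_subset (Finset.filter_subset _ _)
      _ = (ENNReal.ofReal (12 * K ^ 3))⁻¹ * ∑ φ, T i φ := by rw [Finset.mul_sum]
      _ ≤ (ENNReal.ofReal (12 * K ^ 3))⁻¹ * ENNReal.ofReal (K ^ 2) := mul_le_mul' le_rfl (hbud i)
      _ = ENNReal.ofReal (1 / (12 * K)) := by
          rw [← ENNReal.ofReal_inv_of_pos (by positivity), ← ENNReal.ofReal_mul (by positivity)]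
          congr 1
          field_simp
  refine ⟨fun i => {φ | T i φ ≤ ENNReal.ofReal (12 * K ^ 3) * H.lam (Ev0 ∩ {z | (P i).lab z.1 = some φ})},
    Ev0 \ ⋃ i, Bd i, Set.sdiff_subset, hPre.meas.diff (MeasurableSet.iUnion hBdm), ?_, fun i φ h => h, ?_⟩
  · have h2 : (0 : ℝ) < 2 * K := by positivity
    have h3 := k8f_mass_half H.lam h2 (E := Ev0) (E' := Ev0 \ ⋃ i, Bd i) hmass ?_
    · rwa [show 2 * (2 * K) = 4 * K by ring] at h3
    · have hsub : Ev0 \ (Ev0 \ ⋃ i, Bd i) ⊆ ⋃ i, Ev0 ∩ Bd i := by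
        intro z hz
        by_contra h2
        refine hz.2 ⟨hz.1, fun h3 => h2 ?_⟩
        obtain ⟨i, hi⟩ := Set.mem_iUnion.1 h3
        exact Set.mem_iUnion.2 ⟨i, hz.1, hi⟩
      calc H.lam (Ev0 \ (Ev0 \ ⋃ i, Bd i)) ≤ H.lam (⋃ i, Ev0 ∩ Bd i) := measure_mono hsub
        _ ≤ ∑ i : Fin 3, H.lam (Ev0 ∩ Bd i) := by
            have := measure_biUnion_finset_le (μ := H.lam) (Finset.univ : Finset (Fin 3)) (fun i => Ev0 ∩ Bd i)
            simpa using this
        _ ≤ ∑ _i : Fin 3, ENNReal.ofReal (1 / (12 * K)) := Finset.sum_le_sum fun i _ => hbad i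
        _ = 3 * ENNReal.ofReal (1 / (12 * K)) := by
            simp only [Finset.sum_const, Finset.card_univ, Fintype.card_fin, nsmul_eq_mul]
            push_cast
            ring
        _ = ENNReal.ofReal (1 / (2 * (2 * K))) := by
            rw [show (3 : ℝ≥0∞) = ENNReal.ofReal 3 by simp, ← ENNReal.ofReal_mul (by norm_num)]
            congr 1
            field_simp
            norm_num
  · intro z hz i φ hφ
    by_contra hn
    refine hz.2 (Set.mem_iUnion.2 ⟨i, ?_⟩)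
    rw [hBd]
    simp only [Set.mem_iUnion]
    have hn' : ENNReal.ofReal (12 * K ^ 3) * H.lam (Ev0 ∩ {z | (P i).lab z.1 = some φ}) < T i φ := not_le.1 hn
    exact ⟨φ, Finset.mem_filter.2 ⟨Finset.mem_univ _, hn'⟩, hφ⟩

theorem k8a_lay_eqns_cite : True := by
  have := @k8aLay.eq_1
  have := @K8aLayIn
  trivial

end

end Claimed.Agent.R252
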