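-- KEEP
import Claimed.Agent.R252.S8w.Defs
import Claimed.Agent.R252.Remez.One
import Claimed.Agent.R252.S7b.P5Band

/-!
# Row 252, Sec. 8, P8.6, stage S1 (08 l.822-945): ONE-SCALE CORES OF THE CHARTS      (helper182; prefix `k8w`)      CONTRACT: every `sorry` is a leaf `L-252-S8w-*`, PAPER-FREE, prove IN PLACE, only your theorem

| leaf | theorem | content |
|---|---|---|
| H1    | `k8w_H1_ev`, `k8w_H1_dW` (proved), `k8w_H1_bd`  | the corrected predictor `H₀ + A H_corr((P - P_c)/D)` is a `K8Pr` |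
| GRAD  | `k8w_grad_close`                        | an affine function of `P` bounded by `B` on a box of half side `D` has `|∇·W(t)| ≤ 3B/D` |
| PSL   | `k8w_pair_slope`                        | `PairFit` ⟹ `|(∂_Z + t ∂_Y)(L_s - L_{s'})| ≤ (1+K) K a_{s'} / h_s` at the incidence |
| SEL   | `k8w_sel_abs`, `k8w_sel`                | one (true label, entry) per (chart, block): heaviest element of a list of `≤ K` |
| TSEL  | `k8w_time_select`                       | choice of a line whose time set carries a dense part of ALL lines (no densities) |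
| CORR1 | `k8w_corr_chart`                        | the quadratic time polynomial of one chart (TSEL + `rmz_one`) |
| CORR2 | `k8w_corr_all`                          | all charts at once |
| TRIV  | `k8w_triv`                              | `2k > 1` : the groups are charts (`H₀ = 0`, depth `0`) |
| LIST0 | `k8w_list0`                             | `≤ K³` (label, entry) pairs of depth `0` |
-/

set_option autoImplicit false

namespace Claimed.Agent.R252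

open MeasureTheory
open scoped ENNReal BigOperators

noncomputable section

/-- a quadratic polynomial in time -/
def k8wQ (b : ℝ × ℝ × ℝ) (t : ℝ) : ℝ := b.1 + b.2.1 * t + b.2.2 * t ^ 2

/-- `H₀ + A H_corr((P - P_c)/D)`, `H_corr(t, P̃) = (b₀ + b₁ t) P̃₁ + (b₂ t / 2) P̃₂`, `P_c = (g.2.1 D, g.2.2 D)`   (08 l.897-901) -/
def k8wH1 (h : K8Pr) (b : ℝ × ℝ × ℝ) (A D : ℝ) (g : ℤ × ℤ × ℤ) : K8Pr where
  c0 := h.c0 - A * (b.1 * g.2.1)
  c1 := h.c1 - A * (b.2.1 * g.2.1 + b.2.2 * g.2.2 / 2)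
  p0 := h.p0 + A * b.1 / D
  p1 := h.p1 + A * b.2.1 / D
  q0 := h.q0
  q1 := h.q1 + A * b.2.2 / (2 * D)

/-- the un-normalised time signal `∇_P (𝓛_s - H₀) · W(t)` at an incidence -/
def k8wSig (H : K7bHor) (F : K8Lab H) (s : ℝ) (z : H.Lam × ℝ) : ℝ := k8wDL (H.entOf s z) z.2 - (F.pr z.1).dW z.2

theorem k8w_core_eqns_cite : True := by
  have := @k8wQ.eq_1
  have := @k8wH1.eq_1
  have := @k8wSig.eq_1
  trivial

/-! ## Algebra -/

theorem k8w_H1_ev (h : K8Pr) (b : ℝ × ℝ × ℝ) (A : ℝ) {D : ℝ} (hD : D ≠ 0) (g : ℤ × ℤ × ℤ) (t p q : ℝ) :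
    (k8wH1 h b A D g).ev t p q = h.ev t p q + A * ((b.1 + b.2.1 * t) * ((p - g.2.1 * D) / D) + b.2.2 * t / 2 * ((q - g.2.2 * D) / D)) := by
  simp only [k8wH1, K8Pr.ev]
  field_simp
  ring

theorem k8w_H1_dW (h : K8Pr) (b : ℝ × ℝ × ℝ) (A : ℝ) {D : ℝ} (hD : D ≠ 0) (g : ℤ × ℤ × ℤ) (t : ℝ) :
    (k8wH1 h b A D g).dW t = h.dW t + A / D * k8wQ b t := by
  simp only [k8wH1, K8Pr.dW, k8wQ]
  field_simp
  ring

/-- **L-252-S8w-H1**: the correction is bounded by `ρ A (|b₀| + |b₁| + |b₂|)` on the `ρ`-enlarged parameter box, `t ∈ [0,1]`   (`k8w_H1_ev`, triangle inequality) -/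
theorem k8w_H1_bd (h : K8Pr) (b : ℝ × ℝ × ℝ) {A D ρ : ℝ} (hA : 0 ≤ A) (hD : 0 < D) (g : ℤ × ℤ × ℤ) {t p q : ℝ} (ht : t ∈ Set.Icc (0 : ℝ) 1)
    (hp : |p - g.2.1 * D| ≤ ρ * D) (hq : |q - g.2.2 * D| ≤ ρ * D) :
    |(k8wH1 h b A D g).ev t p q - h.ev t p q| ≤ ρ * A * (|b.1| + |b.2.1| + |b.2.2|) := by
  rw [k8w_H1_ev h b A hD.ne', add_sub_cancel_left, abs_mul, abs_of_nonneg hA]
  have hP : |(p - g.2.1 * D) / D| ≤ ρ := by rw [abs_div, abs_of_pos hD, div_le_iff₀ hD]; exact hp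
  have hQ : |(q - g.2.2 * D) / D| ≤ ρ := by rw [abs_div, abs_of_pos hD, div_le_iff₀ hD]; exact hq
  have hρ : 0 ≤ ρ := (abs_nonneg _).trans hP
  have h1 : |b.1 + b.2.1 * t| ≤ |b.1| + |b.2.1| := by
    refine (abs_add_le _ _).trans (add_le_add le_rfl ?_)
    rw [abs_mul, abs_of_nonneg ht.1]
    exact mul_le_of_le_one_right (abs_nonneg _) ht.2
  have h2 : |b.2.2 * t / 2| ≤ |b.2.2| := by
    rw [abs_div, abs_mul, abs_of_nonneg ht.1, abs_of_pos (two_pos : (0 : ℝ) < 2)]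
    have : |b.2.2| * t ≤ |b.2.2| := mul_le_of_le_one_right (abs_nonneg _) ht.2
    have h0 := abs_nonneg b.2.2
    linarith
  have h3 : |(b.1 + b.2.1 * t) * ((p - g.2.1 * D) / D) + b.2.2 * t / 2 * ((q - g.2.2 * D) / D)| ≤ (|b.1| + |b.2.1|) * ρ + |b.2.2| * ρ := by
    refine (abs_add_le _ _).trans (add_le_add ?_ ?_)
    · rw [abs_mul]; exact mul_le_mul h1 hP (abs_nonneg _) (by positivity)
    · rw [abs_mul]; exact mul_le_mul h2 hQ (abs_nonneg _) (abs_nonneg _)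
  calc A * |(b.1 + b.2.1 * t) * ((p - g.2.1 * D) / D) + b.2.2 * t / 2 * ((q - g.2.2 * D) / D)|
      ≤ A * ((|b.1| + |b.2.1|) * ρ + |b.2.2| * ρ) := mul_le_mul_of_nonneg_left h3 hA
    _ = ρ * A * (|b.1| + |b.2.1| + |b.2.2|) := by ring

/-- **L-252-S8w-GRAD**.   `f(p,q) = 𝓛(t,p,q) - h(t,p,q) = f₀ + a p + b q` with `a = (L_Z - t L_Y) - (p0 + p1 t)`, `b = L_Y - (q0 + q1 t)`; `2 a D = f(pc + D, qc) - f(pc - D, qc)`, same for `b`; the left side is `a + 2 t b`. -/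
theorem k8w_grad_close (L : ℝ × ℝ × ℝ × ℝ) (v : ℝ) (h : K8Pr) {t pc qc D B : ℝ} (ht : t ∈ Set.Icc (0 : ℝ) 1) (hD : 0 < D)
    (hB : ∀ p q : ℝ, |p - pc| ≤ D → |q - qc| ≤ D → |k8Cal L v t p q - h.ev t p q| ≤ B) :
    |k8wDL L t - h.dW t| ≤ 3 * B / D := by
  have z0 : |qc - qc| ≤ D := by rw [sub_self, abs_zero]; exact hD.le
  have z0' : |pc - pc| ≤ D := by rw [sub_self, abs_zero]; exact hD.le
  have zp : |pc + D - pc| ≤ D := by rw [add_sub_cancel_left, abs_of_pos hD]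
  have zm : |pc - D - pc| ≤ D := by rw [sub_sub_cancel_left, abs_neg, abs_of_pos hD]
  have zp' : |qc + D - qc| ≤ D := by rw [add_sub_cancel_left, abs_of_pos hD]
  have zm' : |qc - D - qc| ≤ D := by rw [sub_sub_cancel_left, abs_neg, abs_of_pos hD]
  have a1 := abs_le.1 (hB (pc + D) qc zp z0)
  have a2 := abs_le.1 (hB (pc - D) qc zm z0)
  have a3 := abs_le.1 (hB pc (qc + D) z0' zp')
  have a4 := abs_le.1 (hB pc (qc - D) z0' zm')
  simp only [k8Cal, k7bAff, K8Pr.ev] at a1 a2 a3 a4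
  simp only [k8wDL, K8Pr.dW]
  obtain ⟨a, ha⟩ : ∃ a : ℝ, a = L.2.2.1 - t * L.2.2.2 - (h.p0 + h.p1 * t) := ⟨_, rfl⟩
  obtain ⟨bq, hbq⟩ : ∃ bq : ℝ, bq = L.2.2.2 - (h.q0 + h.q1 * t) := ⟨_, rfl⟩
  have ea : |a * D| ≤ B := by
    rw [abs_le, ha]
    constructor <;> linarith [a1.1, a1.2, a2.1, a2.2]
  have eb : |bq * D| ≤ B := by
    rw [abs_le, hbq]
    constructor <;> linarith [a3.1, a3.2, a4.1, a4.2]
  rw [abs_mul, abs_of_pos hD] at ea eb
  have e : L.2.2.1 + t * L.2.2.2 - (h.p0 + h.p1 * t + 2 * t * (h.q0 + h.q1 * t)) = a + 2 * t * bq := by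
    rw [ha, hbq]; ring
  rw [e, le_div_iff₀ hD]
  have h1 : |a + 2 * t * bq| ≤ |a| + 2 * |bq| := by
    refine (abs_add_le _ _).trans (add_le_add le_rfl ?_)
    rw [abs_mul, abs_mul, abs_of_pos (two_pos : (0 : ℝ) < 2), abs_of_nonneg ht.1]
    have h0 := abs_nonneg bq
    have h2 : t * |bq| ≤ |bq| := mul_le_of_le_one_left h0 ht.2
    linarith
  calc |a + 2 * t * bq| * D ≤ (|a| + 2 * |bq|) * D := mul_le_mul_of_nonneg_right h1 hD.le
    _ = |a| * D + 2 * (|bq| * D) := by ring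
    _ ≤ 3 * B := by linarith

/-- **L-252-S8w-PSL**.   `PairFit` with `R = 1` on `qBox c s (lab s z) 1 = k7bBox ct cZ cY (h s) 1`, `k7b_affine_slopes` for the difference of the two entries, then `k7b_affine_slopes_at` with `ρ = K`
(`|z.2 - ct| ≤ K h_s` and `|Z - cZ| ≤ K h_s` from `Ok.box`, `Ok.labmem`). -/
theorem k8w_pair_slope {H : K7bHor} {c : K7bPar} {K s' s : ℝ} {E : Set (H.Lam × ℝ)} (hc : c.WF) (hK : 1 ≤ K) (hok : H.Ok c K) (hE : E ⊆ H.Sp)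
    (hP : H.PairFit c K E) (hs' : s' ∈ c.G) (hs : s ∈ c.G) (hss : s' ≤ s) {z : H.Lam × ℝ} (hz : z ∈ E) :
    |k8wDL (H.entOf s z) z.2 - k8wDL (H.entOf s' z) z.2| ≤ (1 + K) * (K * c.a s' / c.h s) := by
  have hN0 : 0 < c.N := by linarith [hc.N1]
  have hh : 0 < c.h s := Real.rpow_pos_of_pos hN0 _
  have hl := hok.labmem s hs z (hE hz)
  have hb : (z.2, H.Zt z.1 z.2, H.Yt z.1 z.2)
      ∈ k7bBox (H.ct (H.lab s z)) (H.cZ (H.lab s z)) (H.cY (H.lab s z)) (c.h s) K :=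
    hok.box s hs _ hl.1 z.1 hl.2.2 z.2 hl.2.1
  obtain ⟨h1, h2, h3⟩ := k7b_affine_slopes (tc := H.ct (H.lab s z)) (Zc := H.cZ (H.lab s z)) (Yc := H.cY (H.lab s z)) (H := c.h s) (A := K * c.a s')
    (c := (H.entOf s z).1 - (H.entOf s' z).1) (α1 := (H.entOf s z).2.1 - (H.entOf s' z).2.1)
    (α2 := (H.entOf s z).2.2.1 - (H.entOf s' z).2.2.1) (γ := (H.entOf s z).2.2.2 - (H.entOf s' z).2.2.2) hh
    (fun u hu => by
      have := hP s' hs' s hs hss z hz 1 le_rfl u hu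
      simp only [k7bAff, mul_one] at this
      refine le_trans (le_of_eq ?_) this
      congr 1
      ring)
  have g2 := (k7b_affine_slopes_at hh h1 h2 h3 hb.1 hb.2.1).2
  refine le_trans (le_of_eq ?_) g2
  simp only [k8wDL]
  congr 1
  ring

/-! ## Selections -/

/-- **L-252-S8w-SEL** (a), abstract.   For each key choose the heaviest value (`Finset.exists_max_image` on the list); `μ (E ∩ {key = κ}) ≤ ∑_{v ∈ L κ} μ (E ∩ {key = κ} ∩ {val = v}) ≤ K μ (E ∩ {key = κ} ∩ {val = sel κ})`; sum over the finite set `Ks` of keys. -/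
theorem k8w_sel_abs {Ω κ V : Type*} [MeasurableSpace Ω] [Nonempty V] (μ : Measure Ω) (E : Set Ω) (hE : MeasurableSet E) (key : Ω → κ) (val : Ω → V)
    (hkey : ∀ k, MeasurableSet (key ⁻¹' {k})) (hval : ∀ v, MeasurableSet (val ⁻¹' {v})) (Ks : Finset κ) (hKs : ∀ z ∈ E, key z ∈ Ks)
    {K : ℝ} (hK : 0 ≤ K) (hL : ∀ k, ∃ L : Finset V, (L.card : ℝ) ≤ K ∧ ∀ z ∈ E, key z = k → val z ∈ L) :
    ∃ sel : κ → V, MeasurableSet (E ∩ {z | val z = sel (key z)}) ∧ μ E ≤ ENNReal.ofReal K * μ (E ∩ {z | val z = sel (key z)}) := by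
  classical
  choose Lf hLc hLm using hL
  obtain ⟨P, hP⟩ : ∃ P : κ → V → Set Ω, P = fun k v => E ∩ key ⁻¹' {k} ∩ val ⁻¹' {v} := ⟨_, rfl⟩
  have hPm : ∀ k v, MeasurableSet (P k v) := fun k v => by
    rw [hP]; exact (hE.inter (hkey k)).inter (hval v)
  have hsel : ∀ k, ∃ v : V, ∀ v' ∈ Lf k, μ (P k v') ≤ μ (P k v) := by
    intro k
    by_cases hne : (Lf k).Nonempty
    · obtain ⟨v, -, hv⟩ := Finset.exists_max_image (Lf k) (fun v => μ (P k v)) hne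
      exact ⟨v, hv⟩
    · rw [Finset.not_nonempty_iff_eq_empty] at hne
      exact ⟨Classical.arbitrary V, fun v' hv' => by simp [hne] at hv'⟩
  choose sel hselmax using hsel
  have hA : ∀ k, μ (E ∩ key ⁻¹' {k}) ≤ ENNReal.ofReal K * μ (P k (sel k)) := by
    intro k
    have hsub : E ∩ key ⁻¹' {k} ⊆ ⋃ v ∈ Lf k, P k v := by
      rintro z ⟨hzE, hzk⟩
      refine Set.mem_iUnion₂.2 ⟨val z, hLm k z hzE hzk, ?_⟩
      rw [hP]
      exact ⟨⟨hzE, hzk⟩, rfl⟩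
    calc μ (E ∩ key ⁻¹' {k}) ≤ μ (⋃ v ∈ Lf k, P k v) := measure_mono hsub
      _ ≤ ∑ v ∈ Lf k, μ (P k v) := measure_biUnion_finset_le _ _
      _ ≤ ∑ _v ∈ Lf k, μ (P k (sel k)) := Finset.sum_le_sum fun v hv => hselmax k v hv
      _ = ((Lf k).card : ℝ≥0∞) * μ (P k (sel k)) := by rw [Finset.sum_const, nsmul_eq_mul]
      _ ≤ _ := by
          gcongr
          rw [← ENNReal.ofReal_natCast]
          exact ENNReal.ofReal_le_ofReal (hLc k)
  have hG : E ∩ {z | val z = sel (key z)} = ⋃ k ∈ Ks, P k (sel k) := by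
    ext z
    rw [hP]
    simp only [Set.mem_inter_iff, Set.mem_ofPred_eq, Set.mem_iUnion, Set.mem_preimage, Set.mem_singleton_iff, exists_prop]
    constructor
    · rintro ⟨hzE, hz⟩
      exact ⟨key z, hKs z hzE, ⟨hzE, rfl⟩, hz⟩
    · rintro ⟨k, -, ⟨hzE, rfl⟩, hz⟩
      exact ⟨hzE, hz⟩
  refine ⟨sel, ?_, ?_⟩
  · rw [hG]
    exact Finset.measurableSet_biUnion _ fun k _ => hPm k _
  · have hdisj : Set.PairwiseDisjoint (↑Ks) fun k => P k (sel k) := by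
      intro k _ k' _ hkk
      refine Set.disjoint_left.2 fun z hz hz' => hkk ?_
      rw [hP] at hz hz'
      have a : key z = k := hz.1.2
      have b : key z = k' := hz'.1.2
      rw [← a, ← b]
    rw [hG, measure_biUnion_finset hdisj fun k _ => hPm k _, Finset.mul_sum]
    have hsub : E ⊆ ⋃ k ∈ Ks, E ∩ key ⁻¹' {k} := fun z hz =>
      Set.mem_iUnion₂.2 ⟨key z, hKs z hz, hz, rfl⟩
    calc μ E ≤ μ (⋃ k ∈ Ks, E ∩ key ⁻¹' {k}) := measure_mono hsub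
      _ ≤ ∑ k ∈ Ks, μ (E ∩ key ⁻¹' {k}) := measure_biUnion_finset_le _ _
      _ ≤ _ := Finset.sum_le_sum fun k _ => hA k

/-- **L-252-S8w-SEL** (b).   `k8w_sel_abs` with `key z = ((grp z.1, pr z.1), H.blk (H.lab s z))`, `val z = (lab s z, entOf s z)`; keys are finite by `k8f_lab_finite` (`S8/Floor.lean`) and `Fintype H.Q`; measurability: `k8f_asg_meas`, `Ok.mlab`, `Ok.ment` (`KsLab`);
`{z | H.blk (H.lab s z) = I}` is the finite union of the fibres of `H.lab s` over the `q` with `H.blk q = I`. -/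
theorem k8w_sel {H : K7bHor} {c : K7bPar} {K s D : ℝ} {E : Set (H.Lam × ℝ)} (F : K8Lab H) (hc : c.WF) (hK : 1 ≤ K) (hok : H.Ok c K) (hs : s ∈ c.G)
    (hD : 0 < D) (hE : E ⊆ H.Sp) (hmE : MeasurableSet E) (hmd : MeasurableSet F.dom) (hmp : ∀ h, MeasurableSet (F.pr ⁻¹' {h}))
    (hfin : (F.pr '' F.dom).Finite) (hcov : ∀ z ∈ E, z.1 ∈ F.dom) {K' : ℝ}
    (hlist : ∀ (l₀ : H.Lam) (I : Set ℝ), ∃ L : Finset (H.Q × (ℝ × ℝ × ℝ × ℝ)), (L.card : ℝ) ≤ K' ∧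
      ∀ z ∈ E, z.1 ∈ F.asg c.χ D l₀ → H.blk (H.lab s z) = I → (H.lab s z, H.entOf s z) ∈ L) :
    ∃ E' ⊆ E, MeasurableSet E' ∧ H.lam E ≤ ENNReal.ofReal K' * H.lam E' ∧
      ∀ z ∈ E', ∀ z' ∈ E', z'.1 ∈ F.asg c.χ D z.1 → H.blk (H.lab s z') = H.blk (H.lab s z) →
        H.lab s z' = H.lab s z ∧ H.entOf s z' = H.entOf s z := by
  classical
  rcases E.eq_empty_or_nonempty with hE0 | ⟨z₀, hz₀⟩
  · refine ⟨∅, Set.empty_subset _, MeasurableSet.empty, ?_, fun z hz => absurd hz (Set.notMem_empty z)⟩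
    rw [hE0, measure_empty]
    exact zero_le
  have : Nonempty (H.Q × (ℝ × ℝ × ℝ × ℝ)) := ⟨(H.lab s z₀, H.entOf s z₀)⟩
  have hK'0 : 0 ≤ K' := by
    obtain ⟨L, hL, -⟩ := hlist z₀.1 ∅
    exact (Nat.cast_nonneg _).trans hL
  obtain ⟨key, hkeyd⟩ : ∃ key : H.Lam × ℝ → ((ℤ × ℤ × ℤ) × K8Pr) × Set ℝ,
      key = fun z => ((H.grp c.χ D z.1, F.pr z.1), H.blk (H.lab s z)) := ⟨_, rfl⟩
  obtain ⟨val, hvald⟩ : ∃ val : H.Lam × ℝ → H.Q × (ℝ × ℝ × ℝ × ℝ), val = fun z => (H.lab s z, H.entOf s z) := ⟨_, rfl⟩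
  have hkey : ∀ k, MeasurableSet (key ⁻¹' {k}) := by
    intro k
    have e : key ⁻¹' {k} = (Prod.fst ⁻¹' (H.grp c.χ D ⁻¹' {k.1.1})) ∩ (Prod.fst ⁻¹' (F.pr ⁻¹' {k.1.2}))
        ∩ ⋃ q ∈ (Finset.univ.filter fun q : H.Q => H.blk q = k.2), H.lab s ⁻¹' {q} := by
      ext z
      rw [hkeyd]
      simp only [Set.mem_preimage, Set.mem_singleton_iff, Set.mem_inter_iff, Set.mem_iUnion, Finset.mem_filter, Finset.mem_univ,
        true_and, exists_prop, Prod.ext_iff]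
      constructor
      · rintro ⟨⟨h1, h2⟩, h3⟩
        exact ⟨⟨h1, h2⟩, H.lab s z, h3, rfl⟩
      · rintro ⟨⟨h1, h2⟩, q, h3, h4⟩
        exact ⟨⟨h1, h2⟩, by rw [h4]; exact h3⟩
    rw [e]
    refine ((measurable_fst ((k8f_grp_meas hok c.χ D) (measurableSet_singleton _))).inter (measurable_fst (hmp _))).inter ?_
    exact Finset.measurableSet_biUnion _ fun q _ => hok.mlab s hs q
  have hval : ∀ v, MeasurableSet (val ⁻¹' {v}) := by
    intro v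
    have e : val ⁻¹' {v} = H.lab s ⁻¹' {v.1} ∩ H.entOf s ⁻¹' {v.2} := by
      ext z
      rw [hvald]
      simp [Prod.ext_iff]
    rw [e]
    exact (hok.mlab s hs _).inter (hok.ment s hs _)
  have hfinL := k8f_lab_finite hok hc.χ0 hD F hfin hE hcov
  have hKs : ∀ z ∈ E, key z ∈ hfinL.toFinset ×ˢ (Finset.univ.image H.blk) := by
    intro z hz
    rw [hkeyd]
    refine Finset.mem_product.2 ⟨?_, Finset.mem_image.2 ⟨_, Finset.mem_univ _, rfl⟩⟩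
    exact hfinL.mem_toFinset.2 ⟨z, hz, rfl⟩
  have hL : ∀ k, ∃ L : Finset (H.Q × (ℝ × ℝ × ℝ × ℝ)), (L.card : ℝ) ≤ K' ∧ ∀ z ∈ E, key z = k → val z ∈ L := by
    intro k
    by_cases hex : ∃ z₁ ∈ E, key z₁ = k
    · obtain ⟨z₁, hz₁, hk₁⟩ := hex
      obtain ⟨L, hLc, hLm⟩ := hlist z₁.1 k.2
      refine ⟨L, hLc, fun z hz hzk => ?_⟩
      rw [← hk₁, hkeyd] at hzk
      simp only [Prod.mk.injEq] at hzk
      rw [hvald]
      refine hLm z hz ⟨hcov z hz, hzk.1.1, hzk.1.2⟩ ?_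
      rw [hzk.2, ← hk₁, hkeyd]
    · exact ⟨∅, by simpa using hK'0, fun z hz hzk => absurd ⟨z, hz, hzk⟩ hex⟩
  obtain ⟨sel, hm, hle⟩ := k8w_sel_abs H.lam E hmE key val hkey hval _ hKs hK'0 hL
  refine ⟨E ∩ {z | val z = sel (key z)}, Set.inter_subset_left, hm, hle, ?_⟩
  rintro z ⟨hzE, hz⟩ z' ⟨hzE', hz'⟩ hasg hblk
  have hkk : key z' = key z := by
    rw [hkeyd]
    simp only [Prod.mk.injEq]
    exact ⟨⟨hasg.2.1, hasg.2.2⟩, hblk⟩
  have hvv : val z' = val z := by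
    have a : val z' = sel (key z') := hz'
    have b : val z = sel (key z) := hz
    rw [a, b, hkk]
  rw [hvald] at hvv
  simp only [Prod.mk.injEq] at hvv
  exact hvv

theorem k8w_ts_time_univ : k7bTime Set.univ = 1 := by
  simp [k7bTime]

/-- **L-252-S8w-TSEL** (08 l.868-895, in the form of helper98: no densities).   `M = μ univ`, `n(t) = ν {l | (l,t) ∈ S}` (measurable: `measurable_measure_prodMk_right`), `θ = M / (2K)`.
(1) `μ {z | n z.2 < θ} = μ (.. ∩ S) ≤ K (ν × time) (.. ∩ S) = K ∫_{n < θ} n dt ≤ K θ = M / 2`   (`Measure.prod_apply_symm`, time has mass `1`).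
(2) Tonelli for the measurable set `{(l, z) | (l, z.2) ∈ S}` : `∫ ν(dl) μ {z | (l, z.2) ∈ S} = ∫ μ(dz) n(z.2) ≥ θ M / 2 = M² / (4K)`.
(3) so some `l` has `μ {z | (l, z.2) ∈ S} ≥ M² / (4 K ν univ) ≥ M / (4K²)`   (by contradiction / `exists_le_lintegral`; `ν univ ≤ K M`, `0 < M < ∞`).
(4) `μ {z | z.2 ∈ T} ≤ K ν univ · |T ∩ [0,1]|`, hence `|T(l) ∩ [0,1]| ≥ M / (4K² · K · K M) = 1/(4K⁴)`. -/
theorem k8w_time_select {L : Type} [MeasurableSpace L] (ν : Measure L) [IsFiniteMeasure ν] (μ : Measure (L × ℝ)) (S : Set (L × ℝ))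
    (hS : MeasurableSet S) {K : ℝ} (hK : 1 ≤ K) (hdom : μ ≤ ENNReal.ofReal K • ν.prod k7bTime) (hμ : μ Sᶜ = 0) (hpos : μ Set.univ ≠ 0)
    (hfl : ν Set.univ ≤ ENNReal.ofReal K * μ Set.univ) :
    ∃ l : L, μ Set.univ ≤ ENNReal.ofReal (4 * K ^ 2) * μ {z | (l, z.2) ∈ S} ∧
      ENNReal.ofReal (1 / (4 * K ^ 4)) ≤ volume ({t | (l, t) ∈ S} ∩ Set.Icc (0 : ℝ) 1) := by
  have hK0 : 0 < K := by linarith
  have : IsFiniteMeasure k7bTime := ⟨by rw [k8w_ts_time_univ]; exact ENNReal.one_lt_top⟩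
  obtain ⟨k, hk⟩ : ∃ k : ℝ≥0∞, k = ENNReal.ofReal K := ⟨_, rfl⟩
  have hk0 : k ≠ 0 := by rw [hk]; simpa using hK0
  have hkt : k ≠ ∞ := by rw [hk]; exact ENNReal.ofReal_ne_top
  rw [← hk] at hdom hfl
  obtain ⟨M, hM⟩ : ∃ M : ℝ≥0∞, M = μ Set.univ := ⟨_, rfl⟩
  obtain ⟨V, hV⟩ : ∃ V : ℝ≥0∞, V = ν Set.univ := ⟨_, rfl⟩
  have hVt : V ≠ ∞ := by rw [hV]; exact measure_ne_top _ _
  have hdomA : ∀ A : Set (L × ℝ), μ A ≤ k * (ν.prod k7bTime) A := fun A => by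
    have := hdom A
    simpa using this
  have hMt : M ≠ ∞ := by
    rw [hM]
    exact ne_top_of_le_ne_top (ENNReal.mul_ne_top hkt (measure_ne_top _ _)) (hdomA _)
  have : IsFiniteMeasure μ := ⟨by rw [← hM]; exact hMt.lt_top⟩
  rw [← hM] at hpos hfl ⊢
  rw [← hV] at hfl
  -- the section function
  obtain ⟨n, hn⟩ : ∃ n : ℝ → ℝ≥0∞, n = fun t => ν ((fun l => (l, t)) ⁻¹' S) := ⟨_, rfl⟩
  have hnm : Measurable n := by rw [hn]; exact measurable_measure_prodMk_right hS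
  obtain ⟨θ, hθ⟩ : ∃ θ : ℝ≥0∞, θ = M / (2 * k) := ⟨_, rfl⟩
  have h2k0 : 2 * k ≠ 0 := mul_ne_zero (by norm_num) hk0
  have h2kt : 2 * k ≠ ∞ := ENNReal.mul_ne_top (by norm_num) hkt
  have hθM : θ * (2 * k) = M := by rw [hθ]; exact ENNReal.div_mul_cancel h2k0 h2kt
  -- (1)
  obtain ⟨B, hB⟩ : ∃ B : Set (L × ℝ), B = {z | n z.2 < θ} := ⟨_, rfl⟩
  have hBm : MeasurableSet B := by
    rw [hB]; exact measurableSet_lt (hnm.comp measurable_snd) measurable_const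
  have h1 : μ B ≤ k * θ := by
    have e1 : μ B ≤ μ (B ∩ S) := by
      have : B ⊆ (B ∩ S) ∪ Sᶜ := fun z hz => by
        by_cases hzS : z ∈ S
        · exact Or.inl ⟨hz, hzS⟩
        · exact Or.inr hzS
      calc μ B ≤ μ ((B ∩ S) ∪ Sᶜ) := measure_mono this
        _ ≤ μ (B ∩ S) + μ Sᶜ := measure_union_le _ _
        _ = μ (B ∩ S) := by rw [hμ, add_zero]
    refine e1.trans ((hdomA _).trans ?_)
    gcongr
    rw [Measure.prod_apply_symm (hBm.inter hS)]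
    calc ∫⁻ t, ν ((fun l => (l, t)) ⁻¹' (B ∩ S)) ∂k7bTime ≤ ∫⁻ _, θ ∂k7bTime := by
          refine lintegral_mono fun t => ?_
          by_cases ht : n t < θ
          · refine (measure_mono (Set.preimage_mono Set.inter_subset_right)).trans ?_
            rw [hn] at ht
            exact ht.le
          · have : (fun l => (l, t)) ⁻¹' (B ∩ S) = ∅ := by
              ext l
              simp only [Set.mem_preimage, Set.mem_inter_iff, Set.mem_empty_iff_false, iff_false, not_and]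
              intro hl
              rw [hB] at hl
              exact absurd hl ht
            rw [this, measure_empty]
            exact zero_le
      _ = θ := by rw [lintegral_const, k8w_ts_time_univ, mul_one]
  have h2 : M ≤ 2 * μ Bᶜ := by
    have e : M = μ B + μ Bᶜ := by rw [hM]; exact (measure_add_measure_compl hBm).symm
    have e2 : 2 * μ B ≤ M := by
      calc 2 * μ B ≤ 2 * (k * θ) := by gcongr
        _ = θ * (2 * k) := by ring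
        _ = M := hθM
    have e3 : M + M ≤ M + 2 * μ Bᶜ := by
      calc M + M = 2 * μ B + 2 * μ Bᶜ := by
            nth_rewrite 1 [e]
            nth_rewrite 1 [e]
            ring
        _ ≤ M + 2 * μ Bᶜ := by gcongr
    exact (ENNReal.add_le_add_iff_left hMt).1 e3
  -- (2) Tonelli
  obtain ⟨f, hf⟩ : ∃ f : L → ℝ≥0∞, f = fun l => μ {z | (l, z.2) ∈ S} := ⟨_, rfl⟩
  have hT : ∫⁻ l, f l ∂ν = ∫⁻ z, n z.2 ∂μ := by
    have hW : MeasurableSet {w : L × (L × ℝ) | (w.1, w.2.2) ∈ S} :=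
      (measurable_fst.prodMk (measurable_snd.comp measurable_snd)) hS
    have a1 := Measure.prod_apply (μ := ν) (ν := μ) hW
    have a2 := Measure.prod_apply_symm (μ := ν) (ν := μ) hW
    rw [a1] at a2
    rw [hf, hn]
    exact a2
  have h3 : θ * M ≤ 2 * ∫⁻ l, f l ∂ν := by
    have e1 : θ * μ Bᶜ ≤ ∫⁻ z, n z.2 ∂μ := by
      calc θ * μ Bᶜ = ∫⁻ _ in Bᶜ, θ ∂μ := by rw [setLIntegral_const]
        _ ≤ ∫⁻ z in Bᶜ, n z.2 ∂μ := by
            refine setLIntegral_mono' hBm.compl fun z hz => ?_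
            rw [hB] at hz
            exact not_lt.1 hz
        _ ≤ _ := setLIntegral_le_lintegral _ _
    calc θ * M ≤ θ * (2 * μ Bᶜ) := by gcongr
      _ = 2 * (θ * μ Bᶜ) := by ring
      _ ≤ _ := by rw [hT]; gcongr
  -- (3)
  have hν0 : ν ≠ 0 := by
    intro h0
    apply hpos
    have := hdomA Set.univ
    rw [h0] at this
    rw [hM]
    simpa using this
  have hfint : ∫⁻ l, f l ∂ν ≠ ∞ := by
    have : ∫⁻ l, f l ∂ν ≤ ∫⁻ _, M ∂ν := lintegral_mono fun l => by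
      rw [hf, hM]; exact measure_mono (Set.subset_univ _)
    refine ne_top_of_le_ne_top ?_ this
    rw [lintegral_const]
    exact ENNReal.mul_ne_top hMt (measure_ne_top _ _)
  obtain ⟨l, hl⟩ := exists_laverage_le hν0 hfint
  rw [laverage_eq, ← hV] at hl
  have hV0 : V ≠ 0 := by
    rw [hV]; exact (Measure.measure_univ_ne_zero).2 hν0
  have h4 : ∫⁻ l, f l ∂ν ≤ f l * V := (ENNReal.div_le_iff hV0 hVt).1 hl
  have h5 : θ ≤ 2 * k * f l := by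
    have e : θ * M ≤ (2 * k * f l) * M := by
      calc θ * M ≤ 2 * ∫⁻ l, f l ∂ν := h3
        _ ≤ 2 * (f l * V) := by gcongr
        _ ≤ 2 * (f l * (k * M)) := by gcongr
        _ = _ := by ring
    exact (ENNReal.mul_le_mul_iff_left hpos hMt).1 e
  have h6 : M ≤ 4 * k ^ 2 * f l := by
    calc M = θ * (2 * k) := hθM.symm
      _ ≤ (2 * k * f l) * (2 * k) := by gcongr
      _ = _ := by ring
  have c4 : ENNReal.ofReal (4 * K ^ 2) = 4 * k ^ 2 := by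
    rw [ENNReal.ofReal_mul (by norm_num), ENNReal.ofReal_pow hK0.le, hk]
    norm_num
  refine ⟨l, ?_, ?_⟩
  · rw [c4]
    rw [hf] at h6
    exact h6
  · -- (4)
    obtain ⟨T, hTd⟩ : ∃ T : Set ℝ, T = {t | (l, t) ∈ S} := ⟨_, rfl⟩
    have hTm : MeasurableSet T := by rw [hTd]; exact measurable_prodMk_left hS
    have e1 : f l ≤ k * (V * k7bTime T) := by
      have : f l = μ (Set.univ ×ˢ T) := by
        rw [hf, hTd]
        have : {z : L × ℝ | (l, z.2) ∈ S} = Set.univ ×ˢ {t | (l, t) ∈ S} := by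
          ext z
          simp
        simp only [this]
      rw [this, hV, ← Measure.prod_prod]
      exact hdomA _
    have e2 : 1 * M ≤ (4 * k ^ 4 * k7bTime T) * M := by
      calc 1 * M = M := one_mul _
        _ ≤ 4 * k ^ 2 * f l := h6
        _ ≤ 4 * k ^ 2 * (k * (V * k7bTime T)) := by gcongr
        _ ≤ 4 * k ^ 2 * (k * ((k * M) * k7bTime T)) := by gcongr
        _ = _ := by ring
    have e3 : 1 ≤ 4 * k ^ 4 * k7bTime T := (ENNReal.mul_le_mul_iff_left hpos hMt).1 e2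
    have c5 : ENNReal.ofReal (1 / (4 * K ^ 4)) = (4 * k ^ 4)⁻¹ := by
      rw [one_div, ENNReal.ofReal_inv_of_pos (by positivity), ENNReal.ofReal_mul (by norm_num), ENNReal.ofReal_pow hK0.le, hk]
      norm_num
    have hc0 : 4 * k ^ 4 ≠ 0 := mul_ne_zero (by norm_num) (pow_ne_zero _ hk0)
    have hct : 4 * k ^ 4 ≠ ∞ := ENNReal.mul_ne_top (by norm_num) (ENNReal.pow_ne_top hkt)
    have e4 : k7bTime T = volume ({t | (l, t) ∈ S} ∩ Set.Icc (0 : ℝ) 1) := by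
      rw [k7bTime, Measure.restrict_apply hTm, hTd]
    rw [c5, ← e4]
    calc (4 * k ^ 4)⁻¹ = (4 * k ^ 4)⁻¹ * 1 := (mul_one _).symm
      _ ≤ (4 * k ^ 4)⁻¹ * (4 * k ^ 4 * k7bTime T) := by gcongr
      _ = k7bTime T := by rw [← mul_assoc, ENNReal.inv_mul_cancel hc0 hct, one_mul]

/-! ### helpers of `k8w_corr_chart` (prefix `k8w_cc_`) -/

/-- the quadratic polynomial with the coefficients `b` -/
theorem k8w_cc_poly (b : ℝ × ℝ × ℝ) :
    ∃ p : Polynomial ℝ, p.natDegree ≤ 2 ∧ (∀ x, p.eval x = k8wQ b x) ∧ rmzN p = |b.1| + |b.2.1| + |b.2.2| := by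
  refine ⟨Polynomial.C b.1 + Polynomial.C b.2.1 * Polynomial.X + Polynomial.C b.2.2 * Polynomial.X ^ 2, ?_, ?_, ?_⟩
  · compute_degree
  · intro x
    simp [k8wQ]
  · have hd : (Polynomial.C b.1 + Polynomial.C b.2.1 * Polynomial.X + Polynomial.C b.2.2 * Polynomial.X ^ 2 : Polynomial ℝ).natDegree ≤ 2 := by
      compute_degree
    rw [rmz_N_eq_sum _ 2 hd]
    simp [Finset.sum_range_succ, Polynomial.coeff_C, Polynomial.coeff_X, Polynomial.coeff_X_pow]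

/-- a law dominated by `ν × time` is carried by the times of `[0,1]` -/
theorem k8w_cc_time {L : Type} [MeasurableSpace L] (ν : Measure L) [IsFiniteMeasure ν] (μ : Measure (L × ℝ)) {K : ℝ}
    (hdom : μ ≤ ENNReal.ofReal K • ν.prod k7bTime) : μ {z | z.2 ∉ Set.Icc (0 : ℝ) 1} = 0 := by
  have h1 : (ν.prod k7bTime) {z : L × ℝ | z.2 ∉ Set.Icc (0 : ℝ) 1} = 0 := by
    have e : {z : L × ℝ | z.2 ∉ Set.Icc (0 : ℝ) 1} = Set.univ ×ˢ (Set.Icc (0 : ℝ) 1)ᶜ := by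
      ext z
      simp
    have : SFinite k7bTime := by
      unfold k7bTime
      infer_instance
    rw [e, Measure.prod_prod]
    have : k7bTime (Set.Icc (0 : ℝ) 1)ᶜ = 0 := by
      unfold k7bTime
      rw [Measure.restrict_apply measurableSet_Icc.compl]
      simp
    rw [this, mul_zero]
  have h2 := hdom {z : L × ℝ | z.2 ∉ Set.Icc (0 : ℝ) 1}
  rw [Measure.smul_apply, h1, smul_zero] at h2
  exact nonpos_iff_eq_zero.1 h2

/-- **L-252-S8w-CORR1** (08 l.880-895).   `l` from `k8w_time_select`, `b = gq l`, `Tb = {t | (l,t) ∈ S} ∩ [0,1]` (a measurable section).   For `z ∈ S`, `z.2 ∈ Tb` : `G z = G (l, z.2)` (shared) and `(l, z.2) ∈ S`.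
Coefficients: `rmz_one 2` for `p = C b₀ + C b₁ X + C b₂ X²`, `θ = 1/(4K⁴)`, `|p| ≤ B + η` on `Tb`; `rmzC 2 θ = 3 (12/θ)² = 6912 K⁸`; `rmz_N_eq_sum p 2`.   (`μ {z.2 ∈ Tb} = μ {(l, z.2) ∈ S}` because `μ` is carried by time `[0,1]` : `hdom`.) -/
theorem k8w_corr_chart {L : Type} [MeasurableSpace L] (ν : Measure L) [IsFiniteMeasure ν] (μ : Measure (L × ℝ)) (S : Set (L × ℝ))
    (hS : MeasurableSet S) {K : ℝ} (hK : 1 ≤ K) (hdom : μ ≤ ENNReal.ofReal K • ν.prod k7bTime) (hμ : μ Sᶜ = 0) (hpos : μ Set.univ ≠ 0)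
    (hfl : ν Set.univ ≤ ENNReal.ofReal K * μ Set.univ) (G : L × ℝ → ℝ) (gq : L → ℝ × ℝ × ℝ) {B η : ℝ} (hB : 0 ≤ B) (hη : 0 ≤ η)
    (hsh : ∀ z ∈ S, ∀ z' ∈ S, z.2 = z'.2 → G z = G z') (hG : ∀ z ∈ S, |G z| ≤ B) (hcl : ∀ z ∈ S, |G z - k8wQ (gq z.1) z.2| ≤ η) :
    ∃ (b : ℝ × ℝ × ℝ) (Tb : Set ℝ), MeasurableSet Tb ∧ |b.1| + |b.2.1| + |b.2.2| ≤ 6912 * K ^ 8 * (B + η) ∧
      μ Set.univ ≤ ENNReal.ofReal (4 * K ^ 2) * μ {z | z.2 ∈ Tb} ∧ ∀ z ∈ S, z.2 ∈ Tb → |G z - k8wQ b z.2| ≤ η := by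
  obtain ⟨l, h1, h2⟩ := k8w_time_select ν μ S hS hK hdom hμ hpos hfl
  have hK0 : 0 < K := by linarith
  refine ⟨gq l, {t | (l, t) ∈ S} ∩ Set.Icc (0 : ℝ) 1, (measurable_prodMk_left hS).inter measurableSet_Icc, ?_, ?_, ?_⟩
  · obtain ⟨p, hp, hev, hN⟩ := k8w_cc_poly (gq l)
    have hθ : (0 : ℝ) < 1 / (4 * K ^ 4) := by positivity
    have hM : ∀ x ∈ {t | (l, t) ∈ S} ∩ Set.Icc (0 : ℝ) 1, |p.eval x| ≤ B + η := by
      intro x hx
      have hxS : (l, x) ∈ S := hx.1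
      have a1 := hG _ hxS
      have a2 := hcl _ hxS
      rw [hev]
      have a3 : k8wQ (gq l) x = G (l, x) - (G (l, x) - k8wQ (gq l) x) := by ring
      rw [a3]
      calc |G (l, x) - (G (l, x) - k8wQ (gq l) x)| ≤ |G (l, x)| + |G (l, x) - k8wQ (gq l) x| := abs_sub _ _
        _ ≤ B + η := add_le_add a1 a2
    have h3 := rmz_one 2 p hp (1 / (4 * K ^ 4)) (B + η) hθ _ Set.inter_subset_right h2 hM
    have e : rmzC 2 (1 / (4 * K ^ 4)) = 6912 * K ^ 8 := by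
      unfold rmzC
      field_simp
      norm_num
    rw [hN, e] at h3
    exact h3
  · refine h1.trans (mul_le_mul' le_rfl ?_)
    have hsub : {z : L × ℝ | (l, z.2) ∈ S} ⊆ {z : L × ℝ | z.2 ∈ {t | (l, t) ∈ S} ∩ Set.Icc (0 : ℝ) 1} ∪ {z : L × ℝ | z.2 ∉ Set.Icc (0 : ℝ) 1} := by
      intro z hz
      by_cases hz1 : z.2 ∈ Set.Icc (0 : ℝ) 1
      · exact Or.inl ⟨hz, hz1⟩
      · exact Or.inr hz1
    calc μ {z : L × ℝ | (l, z.2) ∈ S} ≤ μ ({z : L × ℝ | z.2 ∈ {t | (l, t) ∈ S} ∩ Set.Icc (0 : ℝ) 1} ∪ {z : L × ℝ | z.2 ∉ Set.Icc (0 : ℝ) 1}) := measure_mono hsub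
      _ ≤ μ {z : L × ℝ | z.2 ∈ {t | (l, t) ∈ S} ∩ Set.Icc (0 : ℝ) 1} + μ {z : L × ℝ | z.2 ∉ Set.Icc (0 : ℝ) 1} := measure_union_le _ _
      _ = μ {z : L × ℝ | z.2 ∈ {t | (l, t) ∈ S} ∩ Set.Icc (0 : ℝ) 1} := by rw [k8w_cc_time ν μ hdom, add_zero]
  · intro z hz hzT
    have hlS : (l, z.2) ∈ S := hzT.1
    rw [hsh z hz (l, z.2) hlS rfl]
    exact hcl _ hlS

/-- one label: the output of `k8w_corr_chart`, or the trivial data for a null label -/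
theorem k8w_corr_one {H : K7bHor} {c : K7bPar} {K s D : ℝ} {E : Set (H.Lam × ℝ)} (F : K8Lab H) (hK : 1 ≤ K) (hok : H.Ok c K)
    (hmE : MeasurableSet E) (hF : F.Ok c K s D E) (G : H.Lam × ℝ → ℝ) (gq : H.Lam → ℝ × ℝ × ℝ) {B η : ℝ}
    (hB : 0 ≤ B) (hη : 0 ≤ η) (hsh : ∀ z ∈ E, ∀ z' ∈ E, z'.1 ∈ F.asg c.χ D z.1 → z.2 = z'.2 → G z = G z') (hG : ∀ z ∈ E, |G z| ≤ B)
    (hcl : ∀ z ∈ E, |G z - k8wQ (gq z.1) z.2| ≤ η) (x : (ℤ × ℤ × ℤ) × K8Pr) :
    ∃ (b : ℝ × ℝ × ℝ) (Tb : Set ℝ), MeasurableSet Tb ∧ |b.1| + |b.2.1| + |b.2.2| ≤ 6912 * K ^ 8 * (B + η) ∧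
      H.lam (E ∩ {z | z.1 ∈ F.dom ∧ H.grp c.χ D z.1 = x.1 ∧ F.pr z.1 = x.2})
        ≤ ENNReal.ofReal (4 * K ^ 2) * H.lam (E ∩ {z | z.1 ∈ F.dom ∧ H.grp c.χ D z.1 = x.1 ∧ F.pr z.1 = x.2} ∩ {z | z.2 ∈ Tb}) ∧
      ∀ z ∈ E ∩ {z | z.1 ∈ F.dom ∧ H.grp c.χ D z.1 = x.1 ∧ F.pr z.1 = x.2}, z.2 ∈ Tb → |G z - k8wQ b z.2| ≤ η := by
  have hfin : IsFiniteMeasure H.ν := ⟨lt_of_le_of_lt hok.νle ENNReal.one_lt_top⟩
  have hsf : SFinite k7bTime := by unfold k7bTime; infer_instance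
  obtain ⟨A, hA⟩ : ∃ A : Set H.Lam, A = {l | l ∈ F.dom ∧ H.grp c.χ D l = x.1 ∧ F.pr l = x.2} := ⟨_, rfl⟩
  have hAm : MeasurableSet A := hA ▸ k8f_asg_meas hok c.χ D F hF.mdom hF.mpr x
  have hI : {z : H.Lam × ℝ | z.1 ∈ F.dom ∧ H.grp c.χ D z.1 = x.1 ∧ F.pr z.1 = x.2} = A ×ˢ (Set.univ : Set ℝ) := by
    ext z; rw [hA]
    exact ⟨fun h => ⟨h, Set.mem_univ _⟩, fun h => h.1⟩
  rw [hI]
  have hIm : MeasurableSet (A ×ˢ (Set.univ : Set ℝ)) := hAm.prod MeasurableSet.univ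
  have hSm : MeasurableSet (E ∩ A ×ˢ (Set.univ : Set ℝ)) := hmE.inter hIm
  by_cases h0 : H.lam (E ∩ A ×ˢ (Set.univ : Set ℝ)) = 0
  · refine ⟨0, ∅, MeasurableSet.empty, ?_, ?_, ?_⟩
    · simp only [Prod.fst_zero, Prod.snd_zero, abs_zero, add_zero]
      have : 0 ≤ K ^ 8 := by positivity
      positivity
    · rw [h0]; exact zero_le
    · intro z _ hz; exact absurd hz (Set.notMem_empty _)
  · obtain ⟨z₀, hz₀E, hz₀A⟩ : (E ∩ A ×ˢ (Set.univ : Set ℝ)).Nonempty := by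
      rcases Set.eq_empty_or_nonempty (E ∩ A ×ˢ (Set.univ : Set ℝ)) with h | h
      · rw [h, measure_empty] at h0; exact absurd rfl h0
      · exact h
    have hasg : ∀ z : H.Lam × ℝ, z ∈ A ×ˢ (Set.univ : Set ℝ) → F.asg c.χ D z.1 = A := by
      intro z hz
      have hz1 : z.1 ∈ A := hz.1
      rw [hA] at hz1
      rw [hA]
      unfold K8Lab.asg
      rw [hz1.2.1, hz1.2.2]
    have hinc : F.inc c.χ D z₀.1 = A ×ˢ (Set.univ : Set ℝ) := by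
      ext z
      unfold K8Lab.inc
      rw [hasg z₀ hz₀A]
      simp
    have hdom : H.lam.restrict (E ∩ A ×ˢ (Set.univ : Set ℝ)) ≤ ENNReal.ofReal K • (H.ν.restrict A).prod k7bTime := by
      calc H.lam.restrict (E ∩ A ×ˢ (Set.univ : Set ℝ))
          ≤ (ENNReal.ofReal K • H.ν.prod k7bTime).restrict (A ×ˢ (Set.univ : Set ℝ)) :=
            Measure.restrict_mono Set.inter_subset_right hok.dom
        _ = ENNReal.ofReal K • (H.ν.restrict A).prod k7bTime := by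
            rw [Measure.restrict_smul, ← Measure.prod_restrict, Measure.restrict_univ]
    have hμ : (H.lam.restrict (E ∩ A ×ˢ (Set.univ : Set ℝ))) (E ∩ A ×ˢ (Set.univ : Set ℝ))ᶜ = 0 := by
      rw [Measure.restrict_apply hSm.compl, Set.compl_inter_self, measure_empty]
    have huniv : (H.lam.restrict (E ∩ A ×ˢ (Set.univ : Set ℝ))) Set.univ = H.lam (E ∩ A ×ˢ (Set.univ : Set ℝ)) := by
      rw [Measure.restrict_apply MeasurableSet.univ, Set.univ_inter]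
    have hfl : (H.ν.restrict A) Set.univ ≤ ENNReal.ofReal K * (H.lam.restrict (E ∩ A ×ˢ (Set.univ : Set ℝ))) Set.univ := by
      rw [huniv, Measure.restrict_apply MeasurableSet.univ, Set.univ_inter]
      have := hF.prior z₀ hz₀E
      rwa [hasg z₀ hz₀A, hinc] at this
    obtain ⟨b, Tb, hTb, hb, hmass, hfit⟩ := k8w_corr_chart (H.ν.restrict A) (H.lam.restrict (E ∩ A ×ˢ (Set.univ : Set ℝ)))
      (E ∩ A ×ˢ (Set.univ : Set ℝ)) hSm hK hdom hμ (by rw [huniv]; exact h0) hfl G gq hB hη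
      (fun z hz z' hz' h => hsh z hz.1 z' hz'.1 (by rw [hasg z hz.2]; exact hz'.2.1) h)
      (fun z hz => hG z hz.1) (fun z hz => hcl z hz.1)
    refine ⟨b, Tb, hTb, hb, ?_, hfit⟩
    have hTm : MeasurableSet {z : H.Lam × ℝ | z.2 ∈ Tb} := measurable_snd hTb
    rw [huniv, Measure.restrict_apply hTm, Set.inter_comm {z : H.Lam × ℝ | z.2 ∈ Tb}] at hmass
    exact hmass

/-- **L-252-S8w-CORR2**: all charts.   For a label `x = (g, h)` with `lam (E ∩ inc x) ≠ 0` apply `k8w_corr_chart` to `ν.restrict (asg x)`, `lam.restrict (E ∩ inc x)`, `S = E ∩ inc x`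
(`hdom` : `Ok.dom` restricted to `asg x ×ˢ univ`, `Measure.prod_restrict`; `hfl` = `K8Lab.Ok.prior`).   Choose `β x`, `Tb x` by `Classical.choice`; `β x = 0`, `Tb x = ∅` for all other labels.
`E' = {z ∈ E | z.2 ∈ Tb (label of z.1)}` = finite union over the occurring labels (`k8f_lab_finite`) of measurable sets. -/
theorem k8w_corr_all {H : K7bHor} {c : K7bPar} {K s D : ℝ} {E : Set (H.Lam × ℝ)} (F : K8Lab H) (hc : c.WF) (hK : 1 ≤ K) (hok : H.Ok c K)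
    (hD : 0 < D) (hE : E ⊆ H.Sp) (hmE : MeasurableSet E) (hF : F.Ok c K s D E) (G : H.Lam × ℝ → ℝ) (gq : H.Lam → ℝ × ℝ × ℝ) {B η : ℝ}
    (hB : 0 ≤ B) (hη : 0 ≤ η) (hsh : ∀ z ∈ E, ∀ z' ∈ E, z'.1 ∈ F.asg c.χ D z.1 → z.2 = z'.2 → G z = G z') (hG : ∀ z ∈ E, |G z| ≤ B)
    (hcl : ∀ z ∈ E, |G z - k8wQ (gq z.1) z.2| ≤ η) :
    ∃ (β : (ℤ × ℤ × ℤ) × K8Pr → ℝ × ℝ × ℝ) (E' : Set (H.Lam × ℝ)), E' ⊆ E ∧ MeasurableSet E' ∧
      (∀ x, |(β x).1| + |(β x).2.1| + |(β x).2.2| ≤ 6912 * K ^ 8 * (B + η)) ∧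
      (∀ l₀, H.lam (E ∩ F.inc c.χ D l₀) ≤ ENNReal.ofReal (4 * K ^ 2) * H.lam (E' ∩ F.inc c.χ D l₀)) ∧
      ∀ z ∈ E', |G z - k8wQ (β (H.grp c.χ D z.1, F.pr z.1)) z.2| ≤ η := by
  choose β Tb h1 h2 h3 h4 using k8w_corr_one F hK hok hmE hF G gq hB hη hsh hG hcl
  have hfinX := k8f_lab_finite hok hc.χ0 hD F hF.fin hE hF.cover
  obtain ⟨I, hI⟩ : ∃ I : (ℤ × ℤ × ℤ) × K8Pr → Set (H.Lam × ℝ),
      ∀ x, I x = {z | z.1 ∈ F.dom ∧ H.grp c.χ D z.1 = x.1 ∧ F.pr z.1 = x.2} := ⟨_, fun _ => rfl⟩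
  have hIm : ∀ x, MeasurableSet (I x) := by
    intro x
    rw [hI]
    exact measurable_fst (k8f_asg_meas hok c.χ D F hF.mdom hF.mpr x)
  have hTm : ∀ x, MeasurableSet {z : H.Lam × ℝ | z.2 ∈ Tb x} := fun x => measurable_snd (h1 x)
  have hE'eq : {z : H.Lam × ℝ | z ∈ E ∧ z.2 ∈ Tb (H.grp c.χ D z.1, F.pr z.1)}
      = ⋃ x ∈ (fun z : H.Lam × ℝ => (H.grp c.χ D z.1, F.pr z.1)) '' E, (E ∩ I x ∩ {z | z.2 ∈ Tb x}) := by
    ext z
    simp only [Set.mem_iUnion, Set.mem_ofPred_eq, exists_prop]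
    constructor
    · rintro ⟨hzE, hzT⟩
      refine ⟨_, ⟨z, hzE, rfl⟩, ⟨hzE, ?_⟩, hzT⟩
      rw [hI]
      exact ⟨hF.cover z hzE, rfl, rfl⟩
    · rintro ⟨x, -, ⟨hzE, hzI⟩, hzT⟩
      rw [hI] at hzI
      have hx : (H.grp c.χ D z.1, F.pr z.1) = x := Prod.ext hzI.2.1 hzI.2.2
      refine ⟨hzE, ?_⟩
      rw [hx]; exact hzT
  refine ⟨β, {z | z ∈ E ∧ z.2 ∈ Tb (H.grp c.χ D z.1, F.pr z.1)}, fun z hz => hz.1, ?_, h2, ?_, ?_⟩
  · rw [hE'eq]
    exact hfinX.measurableSet_biUnion fun x _ => (hmE.inter (hIm x)).inter (hTm x)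
  · intro l₀
    have e1 : F.inc c.χ D l₀ = {z | z.1 ∈ F.dom ∧ H.grp c.χ D z.1 = (H.grp c.χ D l₀, F.pr l₀).1 ∧ F.pr z.1 = (H.grp c.χ D l₀, F.pr l₀).2} := rfl
    have e2 : {z : H.Lam × ℝ | z ∈ E ∧ z.2 ∈ Tb (H.grp c.χ D z.1, F.pr z.1)} ∩ F.inc c.χ D l₀
        = E ∩ F.inc c.χ D l₀ ∩ {z | z.2 ∈ Tb (H.grp c.χ D l₀, F.pr l₀)} := by
      ext z
      constructor
      · rintro ⟨⟨hzE, hzT⟩, hzI⟩
        have hzI' : z.1 ∈ F.dom ∧ H.grp c.χ D z.1 = H.grp c.χ D l₀ ∧ F.pr z.1 = F.pr l₀ := hzI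
        rw [hzI'.2.1, hzI'.2.2] at hzT
        exact ⟨⟨hzE, hzI⟩, hzT⟩
      · rintro ⟨⟨hzE, hzI⟩, hzT⟩
        have hzI' : z.1 ∈ F.dom ∧ H.grp c.χ D z.1 = H.grp c.χ D l₀ ∧ F.pr z.1 = F.pr l₀ := hzI
        refine ⟨⟨hzE, ?_⟩, hzI⟩
        rw [hzI'.2.1, hzI'.2.2]
        exact hzT
    rw [e2, e1]
    exact h3 (H.grp c.χ D l₀, F.pr l₀)
  · rintro z ⟨hzE, hzT⟩
    exact h4 (H.grp c.χ D z.1, F.pr z.1) z ⟨hzE, hF.cover z hzE, rfl, rfl⟩ hzT

/-! ## The trivial charts (`2k > 1`) -/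

theorem k8w_triv_good_meas {H : K7bHor} {c : K7bPar} {K : ℝ} (h : H.Ok c K) (K' : ℝ) : MeasurableSet (k8wGood H c K') := by
  have m1 : MeasurableSet {l | |H.p l| ≤ K'} := measurableSet_le (continuous_abs.measurable.comp h.mp) measurable_const
  have m2 : MeasurableSet {l | |H.v l| ≤ K'} := measurableSet_le (continuous_abs.measurable.comp h.mv) measurable_const
  have m3 : MeasurableSet {l | |H.q0 l| ≤ K'} := measurableSet_le (continuous_abs.measurable.comp h.mq0) measurable_const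
  have m4 : MeasurableSet {l | |H.y1 l| ≤ K'} := measurableSet_le (continuous_abs.measurable.comp h.my1) measurable_const
  have m5 : MeasurableSet {l | |H.x0 l| ≤ K'} := measurableSet_le (continuous_abs.measurable.comp h.mx0) measurable_const
  have m6 : MeasurableSet {l | |H.x1 l| ≤ K'} := measurableSet_le (continuous_abs.measurable.comp h.mx1) measurable_const
  have m7 : MeasurableSet {l | |H.y1 l + H.p l| ≤ c.N ^ (-c.e0)} :=
    measurableSet_le (continuous_abs.measurable.comp (h.my1.add h.mp)) measurable_const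
  exact m1.inter (m2.inter (m3.inter (m4.inter (m5.inter (m6.inter m7)))))

theorem k8w_triv_num {K : ℝ} (hK : 1 ≤ K) : 2 * K * ((2 * K + 3) ^ 2 + 1) ≤ ((52 : ℕ) : ℝ) * K ^ 52 ∧ 2 * K ≤ ((52 : ℕ) : ℝ) * K ^ 52 := by
  have h1 : K ^ 3 ≤ K ^ 52 := pow_le_pow_right₀ hK (by norm_num)
  have h2 : K ≤ K ^ 3 := by
    calc K = K ^ 1 := (pow_one K).symm
      _ ≤ K ^ 3 := pow_le_pow_right₀ hK (by norm_num)
  have h3 : K ^ 2 ≤ K ^ 3 := pow_le_pow_right₀ hK (by norm_num)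
  push_cast
  constructor <;> nlinarith

/-- **L-252-S8w-TRIV** (08 l.836, l.838-845).   `F = ⟨k8wGood H c K, 0⟩`.   `fit` : `|x0 + t x1| ≤ 2K = 2K a_0` (`c.a 0 = 1`), `norm` trivial, `cover` : `Ok.bdd`, `Ok.bddx`, `Ok.heq`.
Floors: ONE call of `k8f_refloor` (`S8/Floor.lean`; `ι = Unit`, `w = 1`, `B = (2K+3)²` by `k7b_group_budget`, `κ = 1 / (2K ((2K+3)² + 1))`), then `k8f_mass_half`, `k8f_read`. -/
theorem k8w_triv : ∃ C : ℕ, ∀ (H : K7bHor) (c : K7bPar) (K D : ℝ) (E : Set (H.Lam × ℝ)), c.WF → K8Inp H c K E → 0 < D → D ≤ 1 →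
    ∃ E' ⊆ E, H.Res E' (1 / (2 * K)) ∧ (⟨k8wGood H c K, fun _ => ⟨0, 0, 0, 0, 0, 0⟩⟩ : K8Lab H).Ok c ((C : ℝ) * K ^ C) 0 D E' := by
  classical
  refine ⟨52, fun H c K D E hc hI hD hD1 => ?_⟩
  have hK := hI.K1
  have hK0 : 0 < K := lt_of_lt_of_le one_pos hK
  have hok := hI.ok
  obtain ⟨hn1, hn2⟩ := k8w_triv_num hK
  obtain ⟨F, hF⟩ : ∃ F : K8Lab H, F = ⟨k8wGood H c K, fun _ => ⟨0, 0, 0, 0, 0, 0⟩⟩ := ⟨_, rfl⟩
  have hdom : F.dom = k8wGood H c K := by rw [hF]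
  have hpr : ∀ l, F.pr l = ⟨0, 0, 0, 0, 0, 0⟩ := fun l => by rw [hF]
  rw [← hF]
  have hmd : MeasurableSet F.dom := by
    rw [hdom]
    exact k8w_triv_good_meas hok K
  have hmp : ∀ h, MeasurableSet (F.pr ⁻¹' {h}) := by
    intro h
    by_cases hh : (⟨0, 0, 0, 0, 0, 0⟩ : K8Pr) = h
    · have : F.pr ⁻¹' {h} = Set.univ := by
        ext l
        simp [hpr, hh]
      rw [this]
      exact MeasurableSet.univ
    · have : F.pr ⁻¹' {h} = ∅ := by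
        ext l
        simp [hpr, hh]
      rw [this]
      exact MeasurableSet.empty
  have hfin : (F.pr '' F.dom).Finite := by
    refine (Set.finite_singleton (⟨0, 0, 0, 0, 0, 0⟩ : K8Pr)).subset ?_
    rintro _ ⟨l, _, rfl⟩
    exact hpr l
  have hcov : ∀ z ∈ E, z.1 ∈ F.dom := by
    intro z hz
    rw [hdom]
    have h1 := hok.bdd z (hI.res.sub hz)
    have h2 := hok.bddx z (hI.res.sub hz)
    exact ⟨h1.1, h1.2.1, h1.2.2.1, h1.2.2.2, h2.1, h2.2, hok.heq z (hI.res.sub hz)⟩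
  obtain ⟨K1, hK1⟩ : ∃ K1 : ℝ, K1 = 2 * K * ((2 * K + 3) ^ 2 + 1) := ⟨_, rfl⟩
  have hK1p : 0 < K1 := by rw [hK1]; positivity
  obtain ⟨E', hE', hmE', hloss, hfl⟩ := k8f_refloor H c hc hok (ι := Unit) (fun _ => F) (fun _ => D) (fun _ => 1)
    (fun _ => ENNReal.ofReal ((2 * K + 3) ^ 2)) (ENNReal.ofReal K1)⁻¹ hI.res.sub hI.res.meas (fun _ => hD) (fun _ => hmd) (fun _ => hmp)
    (fun _ => hfin) (fun _ => hcov) (by
      intro _ S hS
      have hinj : Set.InjOn (fun x : (ℤ × ℤ × ℤ) × K8Pr => x.1) S := by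
        intro x hx y hy hxy
        obtain ⟨z, _, rfl⟩ := hS x hx
        obtain ⟨z', _, rfl⟩ := hS y hy
        exact Prod.ext hxy ((hpr _).trans (hpr _).symm)
      simp only [mul_one]
      rw [← Finset.sum_image (f := fun g => H.gW c.χ D g) hinj]
      refine k7b_group_budget c H hc hK hok hD hD1 _ fun g hg => ?_
      obtain ⟨x, hx, rfl⟩ := Finset.mem_image.1 hg
      obtain ⟨z, hz, rfl⟩ := hS x hx
      exact ⟨z, hI.res.sub hz, rfl⟩)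
  have hloss' : H.lam (E \ E') ≤ ENNReal.ofReal (1 / (2 * K)) := by
    refine hloss.trans (le_of_eq ?_)
    simp only [Finset.univ_unique, Finset.sum_singleton]
    rw [← ENNReal.ofReal_one, ← ENNReal.ofReal_add (by positivity) zero_le_one, ← ENNReal.ofReal_inv_of_pos hK1p,
      ← ENNReal.ofReal_mul (by positivity)]
    congr 1
    rw [hK1]
    field_simp
  have ha : c.a 0 = 1 := by simp [K7bPar.a]
  have hoK : ENNReal.ofReal K1 ≤ ENNReal.ofReal (((52 : ℕ) : ℝ) * K ^ 52) := ENNReal.ofReal_le_ofReal (hK1 ▸ hn1)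
  refine ⟨E', hE', ⟨hE'.trans hI.res.sub, hmE', k8f_mass_half H.lam hK0 hI.res.mass hloss'⟩, ?_⟩
  refine ⟨hmd, hmp, hfin, fun z hz => hcov z (hE' hz), ?_, ?_, ?_, ?_⟩
  · intro l hl t ht
    rw [hdom] at hl
    obtain ⟨-, -, -, -, h5, h6, -⟩ := hl
    rw [hpr, ha, mul_one]
    refine le_trans ?_ hn2
    have e : H.Xt l t - (⟨0, 0, 0, 0, 0, 0⟩ : K8Pr).ev t (H.p l) (H.q0 l) = H.x0 l + t * H.x1 l := by
      simp [K8Pr.ev, K7bHor.Xt]
    rw [e]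
    have h7 : |t * H.x1 l| ≤ K := by
      rw [abs_mul, abs_of_nonneg ht.1]
      calc t * |H.x1 l| ≤ 1 * K := mul_le_mul ht.2 h6 (abs_nonneg _) zero_le_one
        _ = K := one_mul K
    calc |H.x0 l + t * H.x1 l| ≤ |H.x0 l| + |t * H.x1 l| := abs_add_le _ _
      _ ≤ 2 * K := by linarith
  · intro l _ t _ p q _ _
    rw [hpr]
    have e : (⟨0, 0, 0, 0, 0, 0⟩ : K8Pr).ev t p q = 0 := by simp [K8Pr.ev]
    rw [e, abs_zero]
    positivity
  · intro z hz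
    have h1 := (k8f_read hK1p (hfl () z hz)).1
    rw [ha, Real.one_rpow, ENNReal.ofReal_one]
    exact h1.trans (mul_le_mul' hoK le_rfl)
  · intro z hz
    have h1 := (k8f_read hK1p (hfl () z hz)).2
    exact h1.trans (mul_le_mul' hoK le_rfl)

/-- **L-252-S8w-LIST0**.   `L = (Qat 0).biUnion fun q => (ent q).image (q, ·)`; `#ent q ≤ K`; `#Qat 0 ≤ K²` because `∑_{Qat 0} mQ ≤ 1` (`Ok.budget`) and `mQ q = bl q · ν (asg q) ≥ (h_0 / K) (a_0^d h_0³ / K) = 1/K²` (`Ok.bllen`, `Ok.νQ`; `c.a 0 = c.h 0 = 1`). -/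
theorem k8w_list0 {H : K7bHor} {c : K7bPar} {K : ℝ} (hc : c.WF) (hK : 1 ≤ K) (hok : H.Ok c K) (h0 : (0 : ℝ) ∈ c.G) :
    ∃ L : Finset (H.Q × (ℝ × ℝ × ℝ × ℝ)), (L.card : ℝ) ≤ K ^ 3 ∧ ∀ z ∈ H.Sp, (H.lab 0 z, H.entOf 0 z) ∈ L := by
  classical
  have hK0 : 0 < K := lt_of_lt_of_le one_pos hK
  have ha : c.a 0 = 1 := by simp [K7bPar.a]
  have hh : c.h 0 = 1 := by simp [K7bPar.h]
  have hm : ∀ q ∈ H.Qat 0, ENNReal.ofReal (1 / K ^ 2) ≤ H.mQ q := by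
    intro q hq
    have h1 := (hok.bllen 0 h0 q hq).1
    have h2 := (hok.νQ 0 h0 q hq).1
    rw [ha, hh] at h2
    rw [hh] at h1
    have e : 1 / K ^ 2 = 1 / K * ((1 : ℝ) ^ c.d * 1 ^ 3 / K) := by
      rw [Real.one_rpow]
      field_simp
    rw [e, ENNReal.ofReal_mul (by positivity)]
    exact mul_le_mul' (ENNReal.ofReal_le_ofReal h1) h2
  have hcard : ((H.Qat 0).card : ℝ) ≤ K ^ 2 := by
    have h1 : ((H.Qat 0).card : ℝ≥0∞) * ENNReal.ofReal (1 / K ^ 2) ≤ 1 := by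
      refine le_trans ?_ (hok.budget 0 h0)
      rw [← nsmul_eq_mul, ← Finset.sum_const]
      exact Finset.sum_le_sum hm
    have h2 : ENNReal.ofReal (((H.Qat 0).card : ℝ) * (1 / K ^ 2)) ≤ ENNReal.ofReal 1 := by
      rw [ENNReal.ofReal_mul (Nat.cast_nonneg _), ENNReal.ofReal_natCast, ENNReal.ofReal_one]
      exact h1
    have h3 := (ENNReal.ofReal_le_ofReal_iff zero_le_one).1 h2
    have h4 : 0 < K ^ 2 := by positivity
    rw [mul_one_div, div_le_one h4] at h3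
    exact h3
  refine ⟨(H.Qat 0).biUnion fun q => (H.ent q).image fun e => (q, e), ?_, ?_⟩
  · have h1 : (((H.Qat 0).biUnion fun q => (H.ent q).image fun e => (q, e)).card : ℝ) ≤ ∑ q ∈ H.Qat 0, ((H.ent q).card : ℝ) := by
      have := Finset.card_biUnion_le (s := H.Qat 0) (t := fun q => (H.ent q).image fun e => (q, e))
      calc _ ≤ ((∑ q ∈ H.Qat 0, ((H.ent q).image fun e => (q, e)).card : ℕ) : ℝ) := by exact_mod_cast this
        _ ≤ _ := by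
          push_cast
          exact Finset.sum_le_sum fun q _ => by exact_mod_cast Finset.card_image_le
    calc _ ≤ ∑ q ∈ H.Qat 0, ((H.ent q).card : ℝ) := h1
      _ ≤ ∑ _q ∈ H.Qat 0, K := Finset.sum_le_sum fun q _ => hok.entcard q
      _ = (H.Qat 0).card * K := by rw [Finset.sum_const, nsmul_eq_mul]
      _ ≤ K ^ 2 * K := mul_le_mul_of_nonneg_right hcard hK0.le
      _ = K ^ 3 := by ring
  · intro z hz
    rw [Finset.mem_biUnion]
    exact ⟨H.lab 0 z, (hok.labmem 0 h0 z hz).1, Finset.mem_image.2 ⟨_, hok.entmem 0 h0 z hz, rfl⟩⟩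

end

end Claimed.Agent.R252
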