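-- KEEP
import Claimed.Agent.R252.S8w.ChartCore
import Claimed.Agent.R252.S8.Multi

/-!
# Row 252, Sec. 8, P8.6, stage S1 (08 l.822-945): THE ONE-SCALE ASSEMBLIES OF THE CHARTS      (helper182; prefix `k8w`)      CONTRACT: 3 leaves (EXP, MSUP, MSUB), prove IN PLACE, only your theorem

* `k8w_exp_exists`   the exponents of 08 l.905-935                                         (leaf L-252-S8w-EXP)
* `k8w_chart_sup`    `2k > 1` : trivial charts + one entry of depth `0` per chart and block + collapse by the slope bounds      (leaf L-252-S8w-MSUP)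
* `k8w_chart_sub`    `2k < 1` : `𝒢(2k)`-labels at `s0`, `sb`, compared with the true entries ⟹ charts with the correction `H_corr`      (leaf L-252-S8w-MSUB)
`Λ` = the power margin (`N^μ` in the hub); the slack of the conclusions is `C K^C ≤ Λ`.      The hub glue is in `S8w/ChartHub.lean`.
-/

set_option autoImplicit false

namespace Claimed.Agent.R252

open MeasureTheory
open scoped ENNReal BigOperators

/-- **L-252-S8w-EXP** (08 l.905-935).   `s0 = min (e0/200) (min (R/2) (smax/2))`; `B = min (s0/2) (min (s0/4 · min k (1-2k)) (k s0/(1+k)))` if `2k < 1`, `B = min (s0/2) ((2k-1) s0)` if `2k > 1`;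
`δ = B/4`, `s = s0 + δ`, `Cw = 10/(1-d) + 3`, `u = min (δ/4) (k δ/(4 Cw))`, `c2 = (1-d) u/8`.   Then `s + u - s0 ≤ 5B/16 < B`. -/
theorem k8w_exp_exists (x : K8Exp) (hx : x.Ok) (hk : 2 * x.k ≠ 1) {smax : ℝ} (hs : 0 < smax) : ∃ e : K8wE, e.Ok x ∧ 3 / 2 * e.s0 < smax := by
  have hk0 := hx.k0
  have hd1 : 0 < 1 - x.d := by linarith [hx.d1]
  obtain ⟨s0, hs0d⟩ : ∃ s0 : ℝ, s0 = min (x.e0 / 200) (min (x.R / 2) (smax / 2)) := ⟨_, rfl⟩
  have hs0 : 0 < s0 := by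
    rw [hs0d]
    exact lt_min (by linarith [hx.e0]) (lt_min (by linarith [hx.R0]) (by linarith))
  have h1 : s0 ≤ x.e0 / 200 := hs0d ▸ min_le_left _ _
  have h2 : s0 ≤ x.R / 2 := hs0d ▸ (min_le_right _ _).trans (min_le_left _ _)
  have h3 : s0 ≤ smax / 2 := hs0d ▸ (min_le_right _ _).trans (min_le_right _ _)
  obtain ⟨B, sA, hB0, hB1, hsA, hB2, hB3, hB4⟩ : ∃ B sA : ℝ, 0 < B ∧ B ≤ s0 / 2 ∧
      ((2 * x.k < 1 ∧ sA = s0) ∨ (1 < 2 * x.k ∧ sA = 0)) ∧ (2 * x.k < 1 → (x.k + 1) * B ≤ x.k * s0) ∧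
      (2 * x.k < 1 → B ≤ s0 / 4 * min x.k (1 - 2 * x.k)) ∧ (1 < 2 * x.k → B ≤ (2 * x.k - 1) * s0) := by
    rcases lt_or_gt_of_ne hk with h | h
    · have hm : 0 < min x.k (1 - 2 * x.k) := lt_min hk0 (by linarith)
      refine ⟨min (s0 / 2) (min (s0 / 4 * min x.k (1 - 2 * x.k)) (x.k * s0 / (1 + x.k))), s0, ?_, min_le_left _ _, Or.inl ⟨h, rfl⟩,
        fun _ => ?_, fun _ => (min_le_right _ _).trans (min_le_left _ _), fun h' => absurd h' (by linarith)⟩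
      · exact lt_min (by linarith) (lt_min (by positivity) (by positivity))
      · have : min (s0 / 2) (min (s0 / 4 * min x.k (1 - 2 * x.k)) (x.k * s0 / (1 + x.k))) ≤ x.k * s0 / (1 + x.k) :=
          (min_le_right _ _).trans (min_le_right _ _)
        calc (x.k + 1) * _ ≤ (x.k + 1) * (x.k * s0 / (1 + x.k)) := mul_le_mul_of_nonneg_left this (by linarith)
          _ = x.k * s0 := by field_simp; ring
    · refine ⟨min (s0 / 2) ((2 * x.k - 1) * s0), 0, ?_, min_le_left _ _, Or.inr ⟨h, rfl⟩, fun h' => absurd h' (by linarith),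
        fun h' => absurd h' (by linarith), fun _ => min_le_right _ _⟩
      exact lt_min (by linarith) (mul_pos (by linarith) hs0)
  obtain ⟨Cw, hCw⟩ : ∃ Cw : ℝ, Cw = 10 / (1 - x.d) + 3 := ⟨_, rfl⟩
  have hCw0 : 0 < Cw := by rw [hCw]; positivity
  obtain ⟨δ, hδ⟩ : ∃ δ : ℝ, δ = B / 4 := ⟨_, rfl⟩
  have hδ0 : 0 < δ := by rw [hδ]; linarith
  obtain ⟨u, hu⟩ : ∃ u : ℝ, u = min (δ / 4) (x.k * δ / (4 * Cw)) := ⟨_, rfl⟩
  have hu0 : 0 < u := by rw [hu]; exact lt_min (by linarith) (by positivity)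
  have hu1 : u ≤ δ / 4 := hu ▸ min_le_left _ _
  have hu2 : u ≤ x.k * δ / (4 * Cw) := hu ▸ min_le_right _ _
  have hlt : s0 + δ + u - s0 < B := by rw [hδ] at hu1 ⊢; linarith
  refine ⟨⟨sA, s0, s0 + δ, u, (1 - x.d) * u / 8⟩, ⟨hs0, hsA, by linarith [hx.e0], by linarith, by linarith, hu0, by positivity, ?_, by linarith,
    fun h => ?_, fun h => lt_of_lt_of_le hlt (hB3 h), fun h => lt_of_lt_of_le hlt (hB4 h), ?_⟩, by show 3 / 2 * s0 < smax; linarith⟩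
  · have : 0 < (1 - x.d) * u := by positivity
    show (1 - x.d) * u / 8 < (1 - x.d) * u / 4
    linarith
  · exact lt_of_lt_of_le (mul_lt_mul_of_pos_left hlt (by linarith)) (hB2 h)
  · show (10 / (1 - x.d) + 3) * u ≤ x.k * (s0 + δ - s0) / 4
    rw [← hCw]
    calc Cw * u ≤ Cw * (x.k * δ / (4 * Cw)) := mul_le_mul_of_nonneg_left hu2 hCw0.le
      _ = x.k * (s0 + δ - s0) / 4 := by field_simp; ring

theorem K8wCh.Ok.mono {H : K7bHor} {a : K8wCh H} {c : K7bPar} {K K' sA D : ℝ} {T : Finset ℝ} {E : Set (H.Lam × ℝ)} (hc : c.WF) (hK : K ≤ K')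
    (h : a.Ok c K sA D T E) : a.Ok c K' sA D T E := by
  have hN : 0 < c.N := lt_of_lt_of_le one_pos hc.N1
  have ha : ∀ s, 0 < c.a s := fun s => Real.rpow_pos_of_pos hN _
  exact
  { sAG := h.sAG, TG := h.TG
    prep := h.prep.mono hc hK subset_rfl
    lab := h.lab.mono hc hK
    good := fun l hl => by
      obtain ⟨a1, a2, a3, a4, a5, a6, a7⟩ := h.good hl
      exact ⟨a1.trans hK, a2.trans hK, a3.trans hK, a4.trans hK, a5.trans hK, a6.trans hK, a7⟩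
    same := h.same
    fit1 := fun l hl t ht => (h.fit1 l hl t ht).trans (mul_le_mul_of_nonneg_right hK (ha sA).le)
    norm1 := fun l hl t ht p q h1 h2 => (h.norm1 l hl t ht p q h1 h2).trans hK
    shared := h.shared
    coll := fun s hs z hz => (h.coll s hs z hz).trans (mul_le_mul_of_nonneg_right hK (ha s).le) }

theorem k8w_poly_le {K : ℝ} (hK : 1 ≤ K) {a b C : ℕ} (ha : a ≤ C) (hb : b ≤ C) : (a : ℝ) * K ^ b ≤ (C : ℝ) * K ^ C :=
  mul_le_mul (Nat.cast_le.2 ha) (pow_le_pow_right₀ hK hb) (by positivity) (by positivity)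

theorem k8w_good_up {H : K7bHor} {c : K7bPar} {K K' : ℝ} (hK : K ≤ K') : k8wGood H c K ⊆ k8wGood H c K' := by
  rintro l ⟨a1, a2, a3, a4, a5, a6, a7⟩
  exact ⟨a1.trans hK, a2.trans hK, a3.trans hK, a4.trans hK, a5.trans hK, a6.trans hK, a7⟩

theorem k8w_a_le_h {c : K7bPar} (hc : c.WF) {s : ℝ} (hs : 0 ≤ s) : c.a s ≤ c.h s := by
  unfold K7bPar.a K7bPar.h
  refine Real.rpow_le_rpow_of_exponent_le hc.N1 ?_
  have := mul_le_mul_of_nonneg_right hc.k1 hs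
  linarith

/-- mass after a selection with loss factor `K'` -/
theorem k8w_res_div {H : K7bHor} {E E' : Set (H.Lam × ℝ)} {m K' : ℝ} (hK' : 0 < K') (hE : H.Res E m) (hsub : E' ⊆ E) (hm : MeasurableSet E')
    (hl : H.lam E ≤ ENNReal.ofReal K' * H.lam E') : H.Res E' (m / K') := by
  refine ⟨hsub.trans hE.sub, hm, ?_⟩
  have h1 : ENNReal.ofReal m ≤ ENNReal.ofReal K' * H.lam E' := hE.mass.trans hl
  rw [div_eq_inv_mul, ENNReal.ofReal_mul (inv_pos.2 hK').le, ENNReal.ofReal_inv_of_pos hK']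
  exact (ENNReal.inv_mul_le_iff (ENNReal.ofReal_pos.2 hK').ne' ENNReal.ofReal_ne_top).2 h1

/-- **L-252-S8w-MSUP** (`2k > 1`; 08 l.836-845, l.940).
1. `k8w_triv` on `E` : `E1 ⊆ E`, `F = ⟨k8wGood H c K, 0⟩`, `F.Ok c K1 0 D E1`.
2. `k8w_list0` (list `≤ K³`, the same for all charts and blocks) and `k8w_sel` (`s = 0`) on `E1` : `E2 ⊆ E1`, `lam E1 ≤ K³ lam E2`, `shared` on `E2`.
3. re-floor: `k8_multi_one` (`S8/Multi.lean`; `T = {0}`, `Es = E1`, slack `max K1 (2K⁴)`) : `E3 ⊆ E2` dense, `F.Ok` on `E3`.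
4. `a = ⟨E₀, F, fun _ => 0⟩`.   `fit1`, `norm1` = `fit`, `norm` of `F`; `shared` persists; `prep` by `K8Prep.mono`;
   `coll` : `(0 : K8Pr).dW = 0`, `|k8wDL (entOf s z) z.2| ≤ K (1 + a_s/h_s) ≤ 2K` (second component of `K8Prep.slopes`; `a_s ≤ h_s` since `k ≤ 1`, `s ≥ 0`), and `2K D ≤ Λ D ≤ a_s`.
   (`good` : `F.dom = k8wGood H c K ⊆ k8wGood H c (C K^C)`.) -/
theorem k8w_chart_sup : ∃ C : ℕ, 1 ≤ C ∧ ∀ (H : K7bHor) (c : K7bPar) (K Λ D : ℝ) (T : Finset ℝ) (E₀ E : Set (H.Lam × ℝ)),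
    c.WF → K8Inp H c K E → K8Prep H c K E₀ E → (0 : ℝ) ∈ c.G → (∀ s ∈ T, s ∈ c.G) → 0 < D → D ≤ 1 →
    (C : ℝ) * K ^ C ≤ Λ → (∀ s ∈ T, Λ * D ≤ c.a s) →
    ∃ E' ⊆ E, H.Res E' (1 / ((C : ℝ) * K ^ C)) ∧ ∃ a : K8wCh H, a.Ok c ((C : ℝ) * K ^ C) 0 D T E' := by
  obtain ⟨C₁, htriv⟩ := k8w_triv
  refine ⟨8 * (C₁ + 2) ^ 3 + 3 * (C₁ + 4), by have := Nat.zero_le (8 * (C₁ + 2) ^ 3); omega, ?_⟩
  intro H c K Λ D T E₀ E hc hI hP h0 hT hD hD1 hΛ hΛD
  obtain ⟨C, hCd⟩ : ∃ C : ℕ, C = 8 * (C₁ + 2) ^ 3 + 3 * (C₁ + 4) := ⟨_, rfl⟩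
  rw [← hCd] at hΛ ⊢
  have hK := hI.K1
  have hK0 : 0 < K := by linarith
  have hok := hI.ok
  have hN : 0 < c.N := lt_of_lt_of_le one_pos hc.N1
  have ha : ∀ s, 0 < c.a s := fun s => Real.rpow_pos_of_pos hN _
  have hh : ∀ s, 0 < c.h s := fun s => Real.rpow_pos_of_pos hN _
  obtain ⟨Kf, hKf⟩ : ∃ Kf : ℝ, Kf = (C : ℝ) * K ^ C := ⟨_, rfl⟩
  rw [← hKf] at hΛ ⊢
  -- 1
  obtain ⟨E1, hE1, hR1, hF1⟩ := htriv H c K D E hc hI hD hD1
  obtain ⟨F, hFd⟩ : ∃ F : K8Lab H, F = ⟨k8wGood H c K, fun _ => ⟨0, 0, 0, 0, 0, 0⟩⟩ := ⟨_, rfl⟩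
  rw [← hFd] at hF1
  -- 2
  obtain ⟨L, hLc, hLm⟩ := k8w_list0 hc hK hok h0
  obtain ⟨E2, hE2, hmE2, hl2, hsh⟩ := k8w_sel F hc hK hok h0 hD hR1.sub hR1.meas hF1.mdom hF1.mpr hF1.fin hF1.cover (K' := K ^ 3)
    (fun _ _ => ⟨L, hLc, fun z hz _ _ => hLm z (hR1.sub hz)⟩)
  -- 3
  obtain ⟨K2, hK2d⟩ : ∃ K2 : ℝ, K2 = ((C₁ + 2 : ℕ) : ℝ) * K ^ (C₁ + 4) := ⟨_, rfl⟩
  have hK2a : (C₁ : ℝ) * K ^ C₁ ≤ K2 := by
    rw [hK2d]
    exact mul_le_mul (Nat.cast_le.2 (by omega)) (pow_le_pow_right₀ hK (by omega)) (by positivity) (by positivity)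
  have hK2b : 2 * K ^ 4 ≤ K2 := by
    rw [hK2d]
    refine mul_le_mul ?_ (pow_le_pow_right₀ hK (by omega)) (by positivity) (by positivity)
    push_cast
    have : (0 : ℝ) ≤ (C₁ : ℝ) := Nat.cast_nonneg _
    linarith
  have hK4 : K ≤ K ^ 4 := by
    have := pow_le_pow_right₀ hK (show 1 ≤ 4 by norm_num)
    rwa [pow_one] at this
  have hKK2 : K ≤ K2 := by linarith
  have hK21 : 1 ≤ K2 := hK.trans hKK2
  have hK20 : 0 < K2 := by linarith
  have hR2 : H.Res E2 (1 / K2) := by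
    refine k8_res_mono (k8w_res_div (by positivity) hR1 hE2 hmE2 hl2) ?_
    rw [div_div]
    refine one_div_le_one_div_of_le (by positivity) ?_
    calc 2 * K * K ^ 3 = 2 * K ^ 4 := by ring
      _ ≤ K2 := hK2b
  obtain ⟨E3, hE3, hR3, hF3⟩ := k8_multi_one H c hc hK21 (k8_ok_mono hc hK0 hKK2 hok) {0} (fun _ => D) (fun _ _ => hD) (fun _ => F)
    (fun _ => E1) hR2 (fun s hs => by
      rw [Finset.mem_singleton.1 hs]
      exact ⟨hE2, hF1.mono hc hK2a⟩)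
  have hF3' := hF3 0 (Finset.mem_singleton_self 0)
  have hfin : 4 * ((({0} : Finset ℝ).card : ℝ) + 1) * K2 ^ 3 ≤ Kf := by
    rw [Finset.card_singleton, hK2d, hKf]
    have e : 4 * (((1 : ℕ) : ℝ) + 1) * (((C₁ + 2 : ℕ) : ℝ) * K ^ (C₁ + 4)) ^ 3 = ((8 * (C₁ + 2) ^ 3 : ℕ) : ℝ) * K ^ (3 * (C₁ + 4)) := by
      push_cast
      ring
    rw [e]
    exact k8w_poly_le hK (by omega) (by omega)
  have hK23 : K2 ≤ K2 ^ 3 := by
    have := pow_le_pow_right₀ hK21 (show 1 ≤ 3 by norm_num)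
    rwa [pow_one] at this
  have h2K2 : 2 * K2 ≤ Kf := by
    refine le_trans ?_ hfin
    rw [Finset.card_singleton]
    push_cast
    nlinarith
  have hKKf : K ≤ Kf := by linarith
  have hE3E : E3 ⊆ E := hE3.trans (hE2.trans hE1)
  refine ⟨E3, hE3E, k8_res_mono hR3 (one_div_le_one_div_of_le (by positivity) h2K2), ⟨E₀, F, fun _ => ⟨0, 0, 0, 0, 0, 0⟩⟩, ?_⟩
  have hF4 : F.Ok c Kf 0 D E3 := hF3'.mono hc hfin
  exact
  { sAG := h0
    TG := fun s hs => ⟨hT s hs, hc.G0 s (hT s hs)⟩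
    prep := hP.mono hc hKKf hE3E
    lab := hF4
    good := by
      show F.dom ⊆ _
      rw [hFd]
      exact k8w_good_up hKKf
    same := fun _ _ _ _ _ _ => rfl
    fit1 := fun l hl t ht => by
      have := hF4.fit l hl t ht
      rw [hFd] at this
      exact this
    norm1 := fun l hl t ht p q h1 h2 => by
      have := hF4.norm l hl t ht p q h1 h2
      rw [hFd] at this
      exact this
    shared := fun z hz z' hz' => hsh z (hE3 hz) z' (hE3 hz')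
    coll := fun s hs z hz => by
      have hsl := (hP.slopes s (hT s hs) z (hE3E hz)).2.1
      have hs0 : 0 ≤ s := hc.G0 s (hT s hs)
      have h1 : c.a s / c.h s ≤ 1 := (div_le_one (hh s)).2 (k8w_a_le_h hc hs0)
      have h2 : |k8wDL (H.entOf s z) z.2 - (⟨0, 0, 0, 0, 0, 0⟩ : K8Pr).dW z.2| ≤ 2 * K := by
        have e : k8wDL (H.entOf s z) z.2 - (⟨0, 0, 0, 0, 0, 0⟩ : K8Pr).dW z.2 = (H.entOf s z).2.2.1 + (H.entOf s z).2.2.2 * z.2 := by
          simp only [k8wDL, K8Pr.dW]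
          ring
        rw [e]
        refine hsl.trans ?_
        nlinarith
      have h3 : 2 * K ≤ Λ := by linarith
      have hKf1 : 1 ≤ Kf := hK.trans hKKf
      calc |k8wDL (H.entOf s z) z.2 - (⟨0, 0, 0, 0, 0, 0⟩ : K8Pr).dW z.2| * D ≤ Λ * D :=
            mul_le_mul_of_nonneg_right (h2.trans h3) hD.le
        _ ≤ c.a s := hΛD s hs
        _ ≤ Kf * c.a s := le_mul_of_one_le_left (ha s).le hKf1 }

theorem k8w_good_meas {H : K7bHor} {c : K7bPar} {K : ℝ} (h : H.Ok c K) (K' : ℝ) : MeasurableSet (k8wGood H c K') := by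
  have m : ∀ (f : H.Lam → ℝ) (b : ℝ), Measurable f → MeasurableSet {l | |f l| ≤ b} := fun f b hf =>
    measurableSet_le (continuous_abs.measurable.comp hf) measurable_const
  exact (m _ _ h.mp).inter ((m _ _ h.mv).inter ((m _ _ h.mq0).inter ((m _ _ h.my1).inter ((m _ _ h.mx0).inter
    ((m _ _ h.mx1).inter (m _ _ (h.my1.add h.mp)))))))

theorem k8w_good_of_Sp {H : K7bHor} {c : K7bPar} {K : ℝ} (h : H.Ok c K) {z : H.Lam × ℝ} (hz : z ∈ H.Sp) : z.1 ∈ k8wGood H c K :=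
  ⟨(h.bdd z hz).1, (h.bdd z hz).2.1, (h.bdd z hz).2.2.1, (h.bdd z hz).2.2.2, (h.bddx z hz).1, (h.bddx z hz).2, h.heq z hz⟩

/-- trimming the labelled lines to the good ones -/
theorem k8w_trim {H : K7bHor} {c : K7bPar} {K s D : ℝ} {E : Set (H.Lam × ℝ)} {F0 : K8Lab H} (hok : H.Ok c K) (hE : E ⊆ H.Sp)
    (hF : F0.Ok c K s D E) : (⟨F0.dom ∩ k8wGood H c K, F0.pr⟩ : K8Lab H).Ok c K s D E := by
  have hinc : ∀ l₀, E ∩ (⟨F0.dom ∩ k8wGood H c K, F0.pr⟩ : K8Lab H).inc c.χ D l₀ = E ∩ F0.inc c.χ D l₀ := by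
    intro l₀
    ext z
    constructor
    · rintro ⟨h1, h2, h3⟩
      exact ⟨h1, h2.1, h3⟩
    · rintro ⟨h1, h2, h3⟩
      exact ⟨h1, ⟨h2, k8w_good_of_Sp hok (hE h1)⟩, h3⟩
  exact
  { mdom := hF.mdom.inter (k8w_good_meas hok K)
    mpr := hF.mpr
    fin := hF.fin.subset (Set.image_mono Set.inter_subset_left)
    cover := fun z hz => ⟨hF.cover z hz, k8w_good_of_Sp hok (hE hz)⟩
    fit := fun l hl => hF.fit l hl.1
    norm := fun l hl => hF.norm l hl.1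
    floor := fun z hz => by rw [hinc]; exact hF.floor z hz
    prior := fun z hz => by
      rw [hinc]
      refine le_trans (measure_mono ?_) (hF.prior z hz)
      rintro l ⟨h1, h2⟩
      exact ⟨h1.1, h2⟩ }

theorem k8w_trim_cmp {H : K7bHor} {c : K7bPar} {K s D : ℝ} {E : Set (H.Lam × ℝ)} {F0 : K8Lab H} (G : Set H.Lam)
    (hF : F0.Cmp c K s D E) : (⟨F0.dom ∩ G, F0.pr⟩ : K8Lab H).Cmp c K s D E := by
  refine ⟨hF.close, fun l₀ I => ?_⟩
  obtain ⟨L, h1, h2⟩ := hF.list l₀ I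
  exact ⟨L, h1, fun z hz hz' => h2 z hz ⟨hz'.1.1, hz'.2⟩⟩

/-- a chartwise comparison of masses sums up -/
theorem k8w_sum_charts {H : K7bHor} {c : K7bPar} {K D : ℝ} (F : K8Lab H) (hc : c.WF) (hok : H.Ok c K) (hD : 0 < D)
    {E E' : Set (H.Lam × ℝ)} (hE : E ⊆ H.Sp) (hmE' : MeasurableSet E') (hmd : MeasurableSet F.dom)
    (hmp : ∀ h, MeasurableSet (F.pr ⁻¹' {h})) (hfin : (F.pr '' F.dom).Finite) (hcov : ∀ z ∈ E, z.1 ∈ F.dom) (κ : ℝ≥0∞)
    (h : ∀ l₀, H.lam (E ∩ F.inc c.χ D l₀) ≤ κ * H.lam (E' ∩ F.inc c.χ D l₀)) : H.lam E ≤ κ * H.lam E' := by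
  classical
  have hSf := k8f_lab_finite hok hc.χ0 hD F hfin hE hcov
  obtain ⟨S, hS⟩ : ∃ S : Finset ((ℤ × ℤ × ℤ) × K8Pr), S = hSf.toFinset := ⟨_, rfl⟩
  let L : (ℤ × ℤ × ℤ) × K8Pr → Set H.Lam := fun x => {l | l ∈ F.dom ∧ H.grp c.χ D l = x.1 ∧ F.pr l = x.2}
  have hLm : ∀ x, MeasurableSet (L x) := fun x => k8f_asg_meas hok c.χ D F hmd hmp x
  have h1 : E ⊆ ⋃ x ∈ S, E ∩ Prod.fst ⁻¹' L x := by
    intro z hz
    simp only [Set.mem_iUnion]
    refine ⟨(H.grp c.χ D z.1, F.pr z.1), ?_, hz, hcov z hz, rfl, rfl⟩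
    rw [hS]
    exact (Set.Finite.mem_toFinset _).2 ⟨z, hz, rfl⟩
  have h2 : ∀ x ∈ S, H.lam (E ∩ Prod.fst ⁻¹' L x) ≤ κ * H.lam (E' ∩ Prod.fst ⁻¹' L x) := by
    intro x hx
    rw [hS] at hx
    obtain ⟨z, _, rfl⟩ := (Set.Finite.mem_toFinset hSf).1 hx
    exact h z.1
  calc H.lam E ≤ H.lam (⋃ x ∈ S, E ∩ Prod.fst ⁻¹' L x) := measure_mono h1
    _ ≤ ∑ x ∈ S, H.lam (E ∩ Prod.fst ⁻¹' L x) := measure_biUnion_finset_le _ _
    _ ≤ ∑ x ∈ S, κ * H.lam (E' ∩ Prod.fst ⁻¹' L x) := Finset.sum_le_sum h2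
    _ = κ * H.lam (⋃ x ∈ S, E' ∩ Prod.fst ⁻¹' L x) := by
        rw [← Finset.mul_sum, measure_biUnion_finset _ (fun x _ => hmE'.inter (measurable_fst (hLm x)))]
        intro x _ y _ hxy
        refine Set.disjoint_left.2 fun z hz hz' => hxy ?_
        exact Prod.ext (hz.2.2.1.symm.trans hz'.2.2.1) (hz.2.2.2.symm.trans hz'.2.2.2)
    _ ≤ κ * H.lam E' := by
        refine mul_le_mul' le_rfl (measure_mono ?_)
        intro z hz
        simp only [Set.mem_iUnion] at hz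
        obtain ⟨_, _, hz, _⟩ := hz
        exact hz

theorem k8w_bin_near {D p : ℝ} (hD : 0 < D) : |p - (k7bBin D p : ℝ) * D| ≤ D := by
  unfold k7bBin
  have h1 : (⌊p / D⌋ : ℝ) * D ≤ p := by
    have := Int.floor_le (p / D)
    rwa [le_div_iff₀ hD] at this
  have h2 : p < ((⌊p / D⌋ : ℝ) + 1) * D := by
    have := Int.lt_floor_add_one (p / D)
    rwa [div_lt_iff₀ hD] at this
  rw [abs_le]
  constructor <;> nlinarith

/-- the label data survive a selection which keeps a fixed fraction of every chart -/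
theorem k8w_ok_keep {H : K7bHor} {c : K7bPar} {K κ s D : ℝ} {E E' : Set (H.Lam × ℝ)} {F : K8Lab H} (hc : c.WF) (hK : 1 ≤ K) (hκ : 1 ≤ κ)
    (hF : F.Ok c K s D E) (hE' : E' ⊆ E)
    (hkeep : ∀ l₀, H.lam (E ∩ F.inc c.χ D l₀) ≤ ENNReal.ofReal κ * H.lam (E' ∩ F.inc c.χ D l₀)) : F.Ok c (K * κ) s D E' := by
  have hle : K ≤ K * κ := le_mul_of_one_le_right (by linarith) hκ
  have h1 := hF.mono hc hle
  have e : ∀ l₀, ENNReal.ofReal K * H.lam (E ∩ F.inc c.χ D l₀) ≤ ENNReal.ofReal (K * κ) * H.lam (E' ∩ F.inc c.χ D l₀) := by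
    intro l₀
    rw [ENNReal.ofReal_mul (by linarith), mul_assoc]
    exact mul_le_mul' le_rfl (hkeep l₀)
  exact
  { mdom := h1.mdom, mpr := h1.mpr, fin := h1.fin
    cover := fun z hz => h1.cover z (hE' hz)
    fit := h1.fit, norm := h1.norm
    floor := fun z hz => (hF.floor z (hE' hz)).trans (e z.1)
    prior := fun z hz => (hF.prior z (hE' hz)).trans (e z.1) }

/-- **L-252-S8w-MSUB** (`2k < 1`; 08 l.836-945).   `A = a_{s0}`.   `E1 ⊇ E` = the older selection in which the floors of `F0` were measured.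
0. `F = ⟨F0.dom ∩ k8wGood H c K, F0.pr⟩` : `F.Ok c K s0 D E1` (the lines of `E1 ⊆ Sp` are good, so `E1 ∩ inc` does not change and `asg` shrinks), `F.Cmp c K s0 D E`.
1. `k8w_sel` with `Cmp.list` on `E` : `E2`, `lam E ≤ K lam E2`, `shared` on `E2`.
2. re-floor `k8_multi_one` (`T = {s0}`, `Es = E1`) : `E3 ⊆ E2` dense, `F.Ok c K3 s0 D E3`.
3. signals on `E3` : `G z = D / A * k8wSig H F s0 z`, `gq l = D / A • (Δp0, Δp1 + 2 Δq0, 2 Δq1)`, `Δ = Fb.pr l - F.pr l`, so that `k8wQ (gq l) t = D / A * ((Fb.pr l).dW t - (F.pr l).dW t)`.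
   `|G z| ≤ 3K` : `k8w_grad_close` with `Cmp.close` of `F` (`t = z.2 ∈ blk`, centre `(p, q0)` of the line, half side `D`, `B = K A`).
   `|G z - k8wQ (gq z.1) z.2| ≤ η := D / A * ((1+K) K A / h_{sb} + 3 K a_{sb} / Db)` : `k8w_pair_slope` (`s0 ≤ sb`) and `k8w_grad_close` with `Cmp.close` of `Fb`.      `η ≤ 1` by the margins (`T` nonempty, `a_s ≤ A`).
   shared: same chart and same time ⟹ same block of depth `s0` (`Ok.blkdisj`, `Ok.labmem`) ⟹ same entry (`shared`), same `F.pr`.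
4. `k8w_corr_all` on `E3` : `β`, `E4`, every chart keeps the fraction `1/(4 K3²)` of its mass: floors and `prior` of `F` survive on `E4`; `lam E3 ≤ 4 K3² lam E4` (sum over the finitely many charts, `k8f_lab_finite`).
5. `a = ⟨E₀, F, fun l => k8wH1 (F.pr l) (β (grp l, F.pr l)) A D (grp l)⟩`.   `fit1`, `norm1` : `k8w_H1_bd` with `ρ = 1`, `ρ = 2` (`p - g.2.1 D ∈ [0, D)`), `A ≤ 1`.
   `coll` : `k8w_H1_dW` : `|k8wDL L_s - pr1.dW| D ≤ |k8wDL L_s - k8wDL L_{s0}| D + A |G - k8wQ β| ≤ (1+K) K A D / h_s + A η ≤ 3 · 4K² a_s / Λ ≤ a_s`. -/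
theorem k8w_chart_sub : ∃ C : ℕ, 1 ≤ C ∧ ∀ (H : K7bHor) (c : K7bPar) (K Λ s0 sb D Db : ℝ) (T : Finset ℝ) (E₀ E1 E : Set (H.Lam × ℝ)) (F0 Fb : K8Lab H),
    c.WF → K8Inp H c K E → K8Prep H c K E₀ E → s0 ∈ c.G → sb ∈ c.G → s0 ≤ sb → T.Nonempty → (∀ s ∈ T, s ∈ c.G ∧ s0 ≤ s) → 0 < D → 0 < Db →
    E ⊆ E1 → E1 ⊆ H.Sp → F0.Ok c K s0 D E1 → F0.Cmp c K s0 D E → Fb.Ok c K sb Db E → Fb.Cmp c K sb Db E →
    (C : ℝ) * K ^ C ≤ Λ → (∀ s ∈ T, Λ * (c.a s0 * D / c.h s) ≤ c.a s) → (∀ s ∈ T, Λ * (c.a s0 * D / c.h sb) ≤ c.a s) →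
    (∀ s ∈ T, Λ * (D * c.a sb / Db) ≤ c.a s) →
    ∃ E' ⊆ E, H.Res E' (1 / ((C : ℝ) * K ^ C)) ∧ ∃ a : K8wCh H, a.Ok c ((C : ℝ) * K ^ C) s0 D T E' := by
  obtain ⟨C, hCd⟩ : ∃ C : ℕ, C = 1000000000000 := ⟨_, rfl⟩
  refine ⟨C, by omega, ?_⟩
  intro H c K Λ s0 sb D Db T E₀ E1 E F0 Fb hc hI hP hs0 hsb hsb0 hTne hT hD hDb hEE1 hE1 hF0 hC0 hFb hCb hΛ hm1 hm2 hm3
  obtain ⟨Kf, hKf⟩ : ∃ Kf : ℝ, Kf = (C : ℝ) * K ^ C := ⟨_, rfl⟩
  rw [← hKf] at hΛ ⊢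
  have hK := hI.K1
  have hK0 : 0 < K := by linarith
  have hok := hI.ok
  have hpoly : ∀ a b : ℕ, a ≤ 1000000000000 → b ≤ 1000000000000 → (a : ℝ) * K ^ b ≤ Kf := fun a b h1 h2 => by
    rw [hKf]
    exact k8w_poly_le hK (hCd ▸ h1) (hCd ▸ h2)
  have hN : 0 < c.N := lt_of_lt_of_le one_pos hc.N1
  have ha : ∀ s, 0 < c.a s := fun s => Real.rpow_pos_of_pos hN _
  have hh : ∀ s, 0 < c.h s := fun s => Real.rpow_pos_of_pos hN _
  obtain ⟨A, hA⟩ : ∃ A : ℝ, A = c.a s0 := ⟨_, rfl⟩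
  rw [← hA] at hm1 hm2
  have hA0 : 0 < A := hA ▸ ha s0
  have hA1 : A ≤ 1 := by
    rw [hA]
    exact Real.rpow_le_one_of_one_le_of_nonpos hc.N1 (neg_nonpos.2 (hc.G0 s0 hs0))
  have hamono : ∀ s, s0 ≤ s → c.a s ≤ A := fun s hs => by
    rw [hA]
    exact Real.rpow_le_rpow_of_exponent_le hc.N1 (neg_le_neg hs)
  have hESp : E ⊆ H.Sp := hI.res.sub
  -- 0
  obtain ⟨F, hFd⟩ : ∃ F : K8Lab H, F = ⟨F0.dom ∩ k8wGood H c K, F0.pr⟩ := ⟨_, rfl⟩
  have hF1 : F.Ok c K s0 D E1 := hFd ▸ k8w_trim hok hE1 hF0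
  have hCF : F.Cmp c K s0 D E := hFd ▸ k8w_trim_cmp _ hC0
  have hFgood : F.dom ⊆ k8wGood H c K := by rw [hFd]; exact Set.inter_subset_right
  -- 1
  obtain ⟨E2, hE2, hmE2, hl2, hsh⟩ := k8w_sel F hc hK hok hs0 hD hESp hI.res.meas hF1.mdom hF1.mpr hF1.fin
    (fun z hz => hF1.cover z (hEE1 hz)) (K' := K) hCF.list
  -- 2
  have hKK2 : K ≤ K ^ 2 := by nlinarith
  have hK21 : 1 ≤ K ^ 2 := hK.trans hKK2
  have hR2 : H.Res E2 (1 / K ^ 2) := by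
    refine k8_res_mono (k8w_res_div hK0 hI.res hE2 hmE2 hl2) (le_of_eq ?_)
    rw [div_div, sq]
  obtain ⟨E3, hE3, hR3, hF3⟩ := k8_multi_one H c hc hK21 (k8_ok_mono hc hK0 hKK2 hok) {s0} (fun _ => D) (fun _ _ => hD) (fun _ => F)
    (fun _ => E1) hR2 (fun s hs => by
      rw [Finset.mem_singleton.1 hs]
      exact ⟨hE2.trans hEE1, hF1.mono hc hKK2⟩)
  obtain ⟨K3, hK3d⟩ : ∃ K3 : ℝ, K3 = 8 * K ^ 6 := ⟨_, rfl⟩
  have hK6 : K ≤ K ^ 6 := by
    have := pow_le_pow_right₀ hK (show 1 ≤ 6 by norm_num)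
    rwa [pow_one] at this
  have hKK3 : K ≤ K3 := by rw [hK3d]; linarith
  have hK31 : 1 ≤ K3 := hK.trans hKK3
  have hK30 : 0 < K3 := by linarith
  have hF3' : F.Ok c K3 s0 D E3 := by
    refine (hF3 s0 (Finset.mem_singleton_self s0)).mono hc (le_of_eq ?_)
    rw [Finset.card_singleton, hK3d]
    push_cast
    ring
  have hok3 : H.Ok c K3 := k8_ok_mono hc hK0 hKK3 hok
  have hE3E : E3 ⊆ E := hE3.trans hE2
  -- margins
  have h7 : 7 * K ^ 2 ≤ Λ := by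
    refine le_trans ?_ hΛ
    have := hpoly 7 2 (by norm_num) (by norm_num)
    exact_mod_cast this
  have hmar : ∀ X y : ℝ, 0 ≤ X → Λ * X ≤ y → 7 * K ^ 2 * X ≤ y := fun X y hX h => (mul_le_mul_of_nonneg_right h7 hX).trans h
  have hX2 : 0 ≤ A * D / c.h sb := by have := hh sb; positivity
  have hX3 : 0 ≤ D * c.a sb / Db := by have := ha sb; positivity
  obtain ⟨η, hηd⟩ : ∃ η : ℝ, η = D / A * ((1 + K) * (K * A / c.h sb) + 3 * (K * c.a sb) / Db) := ⟨_, rfl⟩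
  have hη0 : 0 ≤ η := by
    rw [hηd]
    have := hh sb
    have := ha sb
    positivity
  have hAη : A * η = (1 + K) * K * (A * D / c.h sb) + 3 * K * (D * c.a sb / Db) := by
    rw [hηd]
    field_simp
  have hKsq : K ≤ K ^ 2 := hKK2
  have hAηs : ∀ s ∈ T, A * η ≤ 5 / 7 * c.a s := by
    intro s hs
    have b2 := hmar _ _ hX2 (hm2 s hs)
    have b3 := hmar _ _ hX3 (hm3 s hs)
    rw [hAη]
    have c2 : (1 + K) * K * (A * D / c.h sb) ≤ 2 * K ^ 2 * (A * D / c.h sb) :=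
      mul_le_mul_of_nonneg_right (by nlinarith) hX2
    have c3 : 3 * K * (D * c.a sb / Db) ≤ 3 * K ^ 2 * (D * c.a sb / Db) :=
      mul_le_mul_of_nonneg_right (by nlinarith) hX3
    linarith
  have hη1 : η ≤ 1 := by
    obtain ⟨s, hs⟩ := hTne
    have h1 := hAηs s hs
    have h2 := hamono s (hT s hs).2
    have h3 : A * η ≤ A * 1 := by linarith [ha s]
    exact le_of_mul_le_mul_left h3 hA0
  -- 3
  obtain ⟨G, hGd⟩ : ∃ G : H.Lam × ℝ → ℝ, G = fun z => D / A * k8wSig H F s0 z := ⟨_, rfl⟩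
  obtain ⟨gq, hgqd⟩ : ∃ gq : H.Lam → ℝ × ℝ × ℝ, gq = fun l => (D / A * ((Fb.pr l).p0 - (F.pr l).p0),
      D / A * ((Fb.pr l).p1 - (F.pr l).p1 + 2 * ((Fb.pr l).q0 - (F.pr l).q0)), D / A * (2 * ((Fb.pr l).q1 - (F.pr l).q1))) := ⟨_, rfl⟩
  have hgq : ∀ l t, k8wQ (gq l) t = D / A * ((Fb.pr l).dW t - (F.pr l).dW t) := by
    intro l t
    rw [hgqd]
    simp only [k8wQ, K8Pr.dW]
    ring
  have hDA : 0 < D / A := div_pos hD hA0
  have hG : ∀ z ∈ E3, |G z| ≤ 3 * K := by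
    intro z hz
    have hzE := hE3E hz
    have hzS := hESp hzE
    have g1 := k8w_grad_close (H.entOf s0 z) ((H.grp c.χ D z.1).1 * c.χ) (F.pr z.1) (hok.time z hzS) hD
      (fun p q hp hq => hCF.close z hzE z.2 (hok.labmem s0 hs0 z hzS).2.1 p q hp hq)
    rw [hGd]
    show |D / A * k8wSig H F s0 z| ≤ 3 * K
    rw [abs_mul, abs_of_pos hDA]
    calc D / A * |k8wSig H F s0 z| ≤ D / A * (3 * (K * c.a s0) / D) := mul_le_mul_of_nonneg_left g1 hDA.le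
      _ = 3 * K := by rw [← hA]; field_simp
  have hcl : ∀ z ∈ E3, |G z - k8wQ (gq z.1) z.2| ≤ η := by
    intro z hz
    have hzE := hE3E hz
    have hzS := hESp hzE
    have g2 := k8w_pair_slope hc hK hok hESp hP.pfit hs0 hsb hsb0 hzE
    have g3 := k8w_grad_close (H.entOf sb z) ((H.grp c.χ Db z.1).1 * c.χ) (Fb.pr z.1) (hok.time z hzS) hDb
      (fun p q hp hq => hCb.close z hzE z.2 (hok.labmem sb hsb z hzS).2.1 p q hp hq)
    have e : G z - k8wQ (gq z.1) z.2 = D / A * (-(k8wDL (H.entOf sb z) z.2 - k8wDL (H.entOf s0 z) z.2)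
        + (k8wDL (H.entOf sb z) z.2 - (Fb.pr z.1).dW z.2)) := by
      rw [hgq, hGd]
      simp only [k8wSig]
      ring
    rw [e, abs_mul, abs_of_pos hDA, hηd]
    refine mul_le_mul_of_nonneg_left ?_ hDA.le
    refine (abs_add_le _ _).trans (add_le_add ?_ g3)
    rw [abs_neg, hA]
    exact g2
  have hshG : ∀ z ∈ E3, ∀ z' ∈ E3, z'.1 ∈ F.asg c.χ D z.1 → z.2 = z'.2 → G z = G z' := by
    intro z hz z' hz' hasg ht
    have hzS := hESp (hE3E hz)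
    have hzS' := hESp (hE3E hz')
    have l1 := hok.labmem s0 hs0 z hzS
    have l2 := hok.labmem s0 hs0 z' hzS'
    have hb : H.blk (H.lab s0 z') = H.blk (H.lab s0 z) := by
      rcases hok.blkdisj s0 hs0 _ l2.1 _ l1.1 with h | h
      · exact h
      · exact absurd l1.2.1 (Set.disjoint_left.1 h (ht ▸ l2.2.1))
    have hent := (hsh z (hE3 hz) z' (hE3 hz') hasg hb).2
    rw [hGd]
    simp only [k8wSig]
    rw [hent, hasg.2.2, ht]
  -- 4
  obtain ⟨β, E4, hE4, hmE4, hβ, hkeep, hfit⟩ := k8w_corr_all F hc hK31 hok3 hD hR3.sub hR3.meas hF3' G gq (B := 3 * K) (η := η)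
    (by positivity) hη0 hshG hG hcl
  have hκ1 : (1 : ℝ) ≤ 4 * K3 ^ 2 := by nlinarith
  have hF4 : F.Ok c (K3 * (4 * K3 ^ 2)) s0 D E4 := k8w_ok_keep hc hK31 hκ1 hF3' hE4 hkeep
  have hl4 : H.lam E3 ≤ ENNReal.ofReal (4 * K3 ^ 2) * H.lam E4 :=
    k8w_sum_charts F hc hok hD hR3.sub hmE4 hF3'.mdom hF3'.mpr hF3'.fin hF3'.cover _ hkeep
  have hR4 : H.Res E4 (1 / (2 * K ^ 2) / (4 * K3 ^ 2)) := k8w_res_div (by positivity) hR3 hE4 hmE4 hl4
  obtain ⟨Bβ, hBβd⟩ : ∃ Bβ : ℝ, Bβ = 463856467968 * K ^ 49 := ⟨_, rfl⟩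
  have hBβ0 : 0 ≤ Bβ := by rw [hBβd]; positivity
  have hβ' : ∀ x, |(β x).1| + |(β x).2.1| + |(β x).2.2| ≤ Bβ := by
    intro x
    refine (hβ x).trans ?_
    rw [hBβd, hK3d]
    calc 6912 * (8 * K ^ 6) ^ 8 * (3 * K + η) ≤ 6912 * (8 * K ^ 6) ^ 8 * (4 * K) :=
          mul_le_mul_of_nonneg_left (by linarith) (by positivity)
      _ = 463856467968 * K ^ 49 := by ring
  have hK49 : K ^ 6 ≤ K ^ 49 := pow_le_pow_right₀ hK (by norm_num)
  have hKf1 : K3 + 2 * Bβ ≤ Kf := by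
    have := hpoly 927712935944 49 (by norm_num) (by norm_num)
    rw [hK3d, hBβd]
    push_cast at this
    linarith
  have hKf2 : K3 * (4 * K3 ^ 2) ≤ Kf := by
    have := hpoly 2048 18 (by norm_num) (by norm_num)
    rw [hK3d]
    push_cast at this
    calc 8 * K ^ 6 * (4 * (8 * K ^ 6) ^ 2) = 2048 * K ^ 18 := by ring
      _ ≤ Kf := this
  have hKf3 : 2 * K ^ 2 * (4 * K3 ^ 2) ≤ Kf := by
    have := hpoly 512 14 (by norm_num) (by norm_num)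
    rw [hK3d]
    push_cast at this
    calc 2 * K ^ 2 * (4 * (8 * K ^ 6) ^ 2) = 512 * K ^ 14 := by ring
      _ ≤ Kf := this
  have hK3Kf : K3 ≤ Kf := by linarith
  have hKKf : K ≤ Kf := hKK3.trans hK3Kf
  have hKf11 : 1 ≤ Kf := hK.trans hKKf
  have hE4E : E4 ⊆ E := hE4.trans hE3E
  refine ⟨E4, hE4E, k8_res_mono hR4 ?_, ⟨E₀, F, fun l => k8wH1 (F.pr l) (β (H.grp c.χ D l, F.pr l)) A D (H.grp c.χ D l)⟩, ?_⟩
  · rw [div_div]
    exact one_div_le_one_div_of_le (by positivity) hKf3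
  exact
  { sAG := hs0
    TG := hT
    prep := hP.mono hc hKKf hE4E
    lab := hF4.mono hc hKf2
    good := hFgood.trans (k8w_good_up hKKf)
    same := fun l _ l' _ h1 h2 => by
      show k8wH1 (F.pr l) (β (H.grp c.χ D l, F.pr l)) A D (H.grp c.χ D l) = k8wH1 (F.pr l') (β (H.grp c.χ D l', F.pr l')) A D (H.grp c.χ D l')
      rw [h1, h2]
    fit1 := fun l hl t ht => by
      show |H.Xt l t - (k8wH1 (F.pr l) (β (H.grp c.χ D l, F.pr l)) A D (H.grp c.χ D l)).ev t (H.p l) (H.q0 l)| ≤ Kf * c.a s0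
      have b1 := hF3'.fit l hl t ht
      have b2 := k8w_H1_bd (F.pr l) (β (H.grp c.χ D l, F.pr l)) hA0.le hD (H.grp c.χ D l) (ρ := 1) ht
        (p := H.p l) (q := H.q0 l) (by rw [one_mul]; exact k8w_bin_near hD) (by rw [one_mul]; exact k8w_bin_near hD)
      have b3 : 1 * A * (|(β (H.grp c.χ D l, F.pr l)).1| + |(β (H.grp c.χ D l, F.pr l)).2.1| + |(β (H.grp c.χ D l, F.pr l)).2.2|) ≤ Bβ * A := by
        rw [one_mul, mul_comm]
        exact mul_le_mul_of_nonneg_right (hβ' _) hA0.le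
      rw [← hA] at b1 ⊢
      have b4 : (K3 + Bβ) * A ≤ Kf * A := mul_le_mul_of_nonneg_right (by linarith) hA0.le
      have b5 := abs_sub_le (H.Xt l t) ((F.pr l).ev t (H.p l) (H.q0 l))
        ((k8wH1 (F.pr l) (β (H.grp c.χ D l, F.pr l)) A D (H.grp c.χ D l)).ev t (H.p l) (H.q0 l))
      rw [abs_sub_comm ((F.pr l).ev t (H.p l) (H.q0 l))] at b5
      linarith
    norm1 := fun l hl t ht p q hp hq => by
      show |(k8wH1 (F.pr l) (β (H.grp c.χ D l, F.pr l)) A D (H.grp c.χ D l)).ev t p q| ≤ Kf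
      have b1 := hF3'.norm l hl t ht p q hp hq
      have n1 : |p - ((H.grp c.χ D l).2.1 : ℝ) * D| ≤ 2 * D := by
        have := abs_sub_le p (H.p l) (((H.grp c.χ D l).2.1 : ℝ) * D)
        have h2 : |H.p l - ((H.grp c.χ D l).2.1 : ℝ) * D| ≤ D := k8w_bin_near hD
        linarith
      have n2 : |q - ((H.grp c.χ D l).2.2 : ℝ) * D| ≤ 2 * D := by
        have := abs_sub_le q (H.q0 l) (((H.grp c.χ D l).2.2 : ℝ) * D)
        have h2 : |H.q0 l - ((H.grp c.χ D l).2.2 : ℝ) * D| ≤ D := k8w_bin_near hD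
        linarith
      have b2 := k8w_H1_bd (F.pr l) (β (H.grp c.χ D l, F.pr l)) hA0.le hD (H.grp c.χ D l) (ρ := 2) ht n1 n2
      have b3 : 2 * A * (|(β (H.grp c.χ D l, F.pr l)).1| + |(β (H.grp c.χ D l, F.pr l)).2.1| + |(β (H.grp c.χ D l, F.pr l)).2.2|) ≤ 2 * Bβ := by
        calc _ ≤ 2 * 1 * Bβ := mul_le_mul (by linarith) (hβ' _) (by positivity) (by norm_num)
          _ = 2 * Bβ := by ring
      have b5 := abs_sub_abs_le_abs_sub ((k8wH1 (F.pr l) (β (H.grp c.χ D l, F.pr l)) A D (H.grp c.χ D l)).ev t p q) ((F.pr l).ev t p q)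
      linarith
    shared := fun z hz z' hz' => hsh z (hE3 (hE4 hz)) z' (hE3 (hE4 hz'))
    coll := fun s hs z hz => by
      show |k8wDL (H.entOf s z) z.2 - (k8wH1 (F.pr z.1) (β (H.grp c.χ D z.1, F.pr z.1)) A D (H.grp c.χ D z.1)).dW z.2| * D ≤ Kf * c.a s
      have hzE := hE4E hz
      have g2 := k8w_pair_slope hc hK hok hESp hP.pfit hs0 (hT s hs).1 (hT s hs).2 hzE
      have g4 := hfit z hz
      have hX1 : 0 ≤ A * D / c.h s := by have := hh s; positivity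
      have b1 := hmar _ _ hX1 (hm1 s hs)
      have e : (k8wDL (H.entOf s z) z.2 - (k8wH1 (F.pr z.1) (β (H.grp c.χ D z.1, F.pr z.1)) A D (H.grp c.χ D z.1)).dW z.2) * D
          = (k8wDL (H.entOf s z) z.2 - k8wDL (H.entOf s0 z) z.2) * D + A * (G z - k8wQ (β (H.grp c.χ D z.1, F.pr z.1)) z.2) := by
        rw [k8w_H1_dW _ _ _ hD.ne', hGd]
        simp only [k8wSig]
        field_simp
        ring
      have e0 : ∀ y : ℝ, |y| * D = |y * D| := fun y => by rw [abs_mul, abs_of_pos hD]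
      rw [e0, e]
      have t1 : |(k8wDL (H.entOf s z) z.2 - k8wDL (H.entOf s0 z) z.2) * D| ≤ 2 * K ^ 2 * (A * D / c.h s) := by
        rw [abs_mul, abs_of_pos hD]
        calc |k8wDL (H.entOf s z) z.2 - k8wDL (H.entOf s0 z) z.2| * D ≤ (1 + K) * (K * c.a s0 / c.h s) * D :=
              mul_le_mul_of_nonneg_right g2 hD.le
          _ = (1 + K) * K * (A * D / c.h s) := by rw [← hA]; ring
          _ ≤ 2 * K ^ 2 * (A * D / c.h s) := mul_le_mul_of_nonneg_right (by nlinarith) hX1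
      have t2 : |A * (G z - k8wQ (β (H.grp c.χ D z.1, F.pr z.1)) z.2)| ≤ A * η := by
        rw [abs_mul, abs_of_pos hA0]
        exact mul_le_mul_of_nonneg_left g4 hA0.le
      have t3 := hAηs s hs
      have t4 : c.a s ≤ Kf * c.a s := le_mul_of_one_le_left (ha s).le hKf11
      have t5 := abs_add_le ((k8wDL (H.entOf s z) z.2 - k8wDL (H.entOf s0 z) z.2) * D) (A * (G z - k8wQ (β (H.grp c.χ D z.1, F.pr z.1)) z.2))
      linarith }

end Claimed.Agent.R252
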