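-- KEEP
import Claimed.Agent.R252.S8w.Defs
import Claimed.Agent.R252.State.KsLoc

/-!
# Row 252, Sec. 8, P8.6: THE ASSEMBLY `K8wHChart → K8wHProj → K8wHLay → K8wHFin → K8HWide`      (helper182; prefix `k8w`)      CONTRACT: ONE leaf `k8w_ok_coarse` (L-252-S8w-COARSE); the glue is proved

* `k8_hub_push`      one step of a chain of hubs: keep the data `b`, apply a hub to a projection `f b` of it, append the new data, carry a persistent property of `b`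
* `K8wProj.Ok.mono`, `K8wLay.Ok.mono`
* `k8w_ok_coarse`    `H.Ok c K → H.Ok (k8wCo c Mχ) K` : coarser nested dyadic velocity bins
* `K8HubAt.coarse`   a hub may be applied to the record with the coarser group mesh
* `k8w_wide`         the assembly
-/

set_option autoImplicit false

namespace Claimed.Agent.R252

open MeasureTheory
open scoped ENNReal BigOperators

/-- **one step of a chain of hubs** -/
theorem k8_hub_push {x : K8Exp} {M0 : ℝ} {B A2 B2 : K7bHor → Type}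
    {St P : ∀ H : K7bHor, B H → K7bPar → ℝ → Set (H.Lam × ℝ) → Prop}
    {Hyp2 : ∀ H : K7bHor, A2 H → K7bPar → ℝ → Set (H.Lam × ℝ) → Prop}
    {Mid2 : ∀ H : K7bHor, A2 H → B2 H → K7bPar → ℝ → Set (H.Lam × ℝ) → Prop}
    (f : ∀ H : K7bHor, B H → A2 H)
    (h1 : K8Hub0 x M0 fun H c K E => ∃ E' ⊆ E, H.Res E' (1 / K) ∧ ∃ b : B H, St H b c K E')
    (h2 : K8HubAt x M0 Hyp2 (fun H a c K E => ∃ E' ⊆ E, H.Res E' (1 / K) ∧ ∃ b2 : B2 H, Mid2 H a b2 c K E'))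
    (himp : ∀ (H : K7bHor) (b : B H) (c : K7bPar) (K : ℝ) (E : Set (H.Lam × ℝ)), St H b c K E → Hyp2 H (f H b) c K E ∧ P H b c K E)
    (hP : ∀ (H : K7bHor) (b : B H) (c : K7bPar) (K K' : ℝ) (E E' : Set (H.Lam × ℝ)), c.WF → 1 ≤ K → K ≤ K' → E' ⊆ E →
      P H b c K E → P H b c K' E') :
    K8Hub0 x M0 fun H c K E => ∃ E' ⊆ E, H.Res E' (1 / K) ∧ ∃ bb : B H × B2 H, Mid2 H (f H bb.1) bb.2 c K E' ∧ P H bb.1 c K E' := by
  have h2' : K8HubAt x M0 (A := B) (fun H b c K E => Hyp2 H (f H b) c K E)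
      (fun H b c K E => ∃ E' ⊆ E, H.Res E' (1 / K) ∧ ∃ b2 : B2 H, Mid2 H (f H b) b2 c K E') :=
    K8HubAt.imp h2 f (fun _ _ _ _ _ h => h) (fun _ _ _ _ _ _ h => h)
  have h3 := k8_hub_frame (P := P) (Mid := fun H b (b2 : B2 H) c K E => Mid2 H (f H b) b2 c K E) hP h2'
  refine k8_hub_trans (B := B) (Mid := fun H b c K E => Hyp2 H (f H b) c K E ∧ P H b c K E) ?_ h3 ?_
  · exact K8HubAt.imp h1 (fun _ a => a) (fun _ _ _ _ _ h => h)
      (fun H _ c K E _ ⟨E', e1, e2, b, e3⟩ => ⟨E', e1, e2, b, himp H b c K E' e3⟩)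
  · rintro H _ b c K E E' hE ⟨E'', e1, e2, b2, e3, e4⟩
    exact ⟨E'', e1.trans hE, e2, (b, b2), e3, e4⟩

theorem k8w_good_mono {H : K7bHor} {c : K7bPar} {K K' : ℝ} (hK : K ≤ K') : k8wGood H c K ⊆ k8wGood H c K' :=
  fun _ ⟨a, b, d, e, f, g, h⟩ => ⟨a.trans hK, b.trans hK, d.trans hK, e.trans hK, f.trans hK, g.trans hK, h⟩

theorem K8wProj.Ok.mono {H : K7bHor} {Φ : K8wProj H} {c : K7bPar} {K K' sA D s : ℝ} (hc : c.WF) (hK : K ≤ K')
    (h : Φ.Ok c K sA D s) : Φ.Ok c K' sA D s := by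
  have hN : 0 < c.N := lt_of_lt_of_le one_pos hc.N1
  have ha : 0 < c.a s := Real.rpow_pos_of_pos hN _
  exact
  { meas := h.meas
    good := fun l φ hl => ⟨k8w_good_mono hK (h.good l φ hl).1, (h.good l φ hl).2⟩
    quad := h.quad
    cen := fun φ => ⟨(h.cen φ).1.trans hK, (h.cen φ).2.trans hK⟩
    norm := fun φ t ht r hr => (h.norm φ t ht r hr).trans hK
    hnorm := fun φ t ht p q h1 h2 => (h.hnorm φ t ht p q h1 h2).trans hK
    fit := fun l φ hl t ht => ⟨(h.fit l φ hl t ht).1.trans hK, (h.fit l φ hl t ht).2.trans (mul_le_mul_of_nonneg_right hK ha.le)⟩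
    floor := fun φ => (h.floor φ).trans (mul_le_mul' (ENNReal.ofReal_le_ofReal hK) le_rfl) }

theorem K8wLay.Ok.mono {H : K7bHor} {P : K8wLay H} {c : K7bPar} {K K' th β : ℝ} (hth : 0 ≤ th) (hβ : 0 ≤ β) (hK : K ≤ K')
    (h : P.Ok c K th β) : P.Ok c K' th β :=
  { meas := h.meas
    grp := fun l φ hl => ⟨k8w_good_mono hK (h.grp l φ hl).1, (h.grp l φ hl).2⟩
    quad := h.quad
    norm := fun φ t ht r hr => (h.norm φ t ht r hr).trans hK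
    fit := fun l φ hl t ht => ⟨(h.fit l φ hl t ht).1.trans (mul_le_mul_of_nonneg_right hK hβ),
      (h.fit l φ hl t ht).2.trans (mul_le_mul_of_nonneg_right hK hth)⟩
    floor := fun φ => (h.floor φ).trans (mul_le_mul' (ENNReal.ofReal_le_ofReal hK) le_rfl) }

/-! ## The coarser group mesh -/

theorem k8w_co_iv {χ x : ℝ} (hχ : 0 < χ) (b : ℤ) : x ∈ k7bIv χ b ↔ k7bBin χ x = b := by
  unfold k7bIv k7bBin
  rw [Int.floor_eq_iff, le_div_iff₀ hχ, div_lt_iff₀ hχ]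
  rfl

theorem k8w_co_bin {χ χ' v : ℝ} {j : ℕ} (hχ : 0 < χ) (hj : χ' = j * χ) (hj0 : 0 < j) {b : ℤ} (hb : k7bBin χ' v = b) :
    k7bBin χ v ∈ Finset.Ico (b * j) ((b + 1) * j) := by
  have hjr : (0 : ℝ) < j := Nat.cast_pos.2 hj0
  have hχ' : 0 < χ' := by rw [hj]; positivity
  have h1 := (k8w_co_iv hχ' b).2 hb
  unfold k7bIv at h1
  rw [Finset.mem_Ico]
  unfold k7bBin
  constructor
  · rw [Int.le_floor, le_div_iff₀ hχ]
    push_cast
    calc (b : ℝ) * j * χ = b * χ' := by rw [hj]; ring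
      _ ≤ v := h1.1
  · rw [Int.floor_lt, div_lt_iff₀ hχ]
    push_cast
    calc v < ((b : ℝ) + 1) * χ' := h1.2
      _ = ((b : ℝ) + 1) * j * χ := by rw [hj]; ring

theorem k8w_co_pal (pal : Measure ℝ) {χ χ' : ℝ} {j : ℕ} (hχ : 0 < χ) (hj : χ' = j * χ) (b : ℤ) :
    ∑ b' ∈ Finset.Ico (b * j) ((b + 1) * j), pal (k7bIv χ b') ≤ pal (k7bIv χ' b) := by
  have h1 : pal (⋃ b' ∈ Finset.Ico (b * j) ((b + 1) * j), k7bIv χ b') = ∑ b' ∈ Finset.Ico (b * j) ((b + 1) * j), pal (k7bIv χ b') := by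
    refine measure_biUnion_finset ?_ fun b' _ => measurableSet_Ico
    intro b1 _ b2 _ hne
    refine Set.disjoint_left.2 fun x hx1 hx2 => hne ?_
    rw [← (k8w_co_iv hχ b1).1 hx1, ← (k8w_co_iv hχ b2).1 hx2]
  rw [← h1]
  refine measure_mono ?_
  intro x hx
  simp only [Set.mem_iUnion] at hx
  obtain ⟨b', hb', hx⟩ := hx
  rw [Finset.mem_Ico] at hb'
  unfold k7bIv at hx ⊢
  have e1 : ((b * j : ℤ) : ℝ) ≤ (b' : ℝ) := Int.cast_le.2 hb'.1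
  have e2 : ((b' + 1 : ℤ) : ℝ) ≤ (((b + 1) * j : ℤ) : ℝ) := Int.cast_le.2 (Int.add_one_le_iff.2 hb'.2)
  push_cast at e1 e2
  constructor
  · calc (b : ℝ) * χ' = (b * j) * χ := by rw [hj]; ring
      _ ≤ b' * χ := mul_le_mul_of_nonneg_right e1 hχ.le
      _ ≤ x := hx.1
  · calc x < ((b' : ℝ) + 1) * χ := hx.2
      _ ≤ (((b : ℝ) + 1) * j) * χ := mul_le_mul_of_nonneg_right e2 hχ.le
      _ = ((b : ℝ) + 1) * χ' := by rw [hj]; ring

theorem k8w_co_sum {Ω : Type} [MeasurableSpace Ω] (μ : Measure Ω) (pal : Measure ℝ) {χ χ' : ℝ} {j : ℕ} (hχ : 0 < χ) (hj : χ' = j * χ) (hj0 : 0 < j)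
    (A : Set Ω) (v : Ω → ℝ) (C1 C2 : ℝ≥0∞) (hfine : ∀ b', μ (A ∩ {z | k7bBin χ (v z) = b'}) ≤ C1 * pal (k7bIv χ b') * C2) (b : ℤ) :
    μ (A ∩ {z | k7bBin χ' (v z) = b}) ≤ C1 * pal (k7bIv χ' b) * C2 := by
  calc μ (A ∩ {z | k7bBin χ' (v z) = b}) ≤ μ (⋃ b' ∈ Finset.Ico (b * j) ((b + 1) * j), A ∩ {z | k7bBin χ (v z) = b'}) := by
        refine measure_mono ?_
        rintro z ⟨hzA, hzb⟩
        simp only [Set.mem_iUnion]
        exact ⟨k7bBin χ (v z), k8w_co_bin hχ hj hj0 hzb, hzA, rfl⟩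
    _ ≤ ∑ b' ∈ Finset.Ico (b * j) ((b + 1) * j), μ (A ∩ {z | k7bBin χ (v z) = b'}) := measure_biUnion_finset_le _ _
    _ ≤ ∑ b' ∈ Finset.Ico (b * j) ((b + 1) * j), C1 * pal (k7bIv χ b') * C2 := Finset.sum_le_sum fun b' _ => hfine b'
    _ = C1 * (∑ b' ∈ Finset.Ico (b * j) ((b + 1) * j), pal (k7bIv χ b')) * C2 := by rw [Finset.mul_sum, Finset.sum_mul]
    _ ≤ C1 * pal (k7bIv χ' b) * C2 := mul_le_mul_left (mul_le_mul_right (k8w_co_pal pal hχ hj b) _) _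

/-- **L-252-S8w-COARSE**: the standing hypotheses pass to a coarser NESTED dyadic velocity mesh `χ' = 2^m' ≥ χ = 2^m`.
PLAN.  Only three fields mention `c.χ` : `palcap` (weaker: `χ ≤ χ' ≤ r`), `ehdom`, `capJ`; copy all the others (`{ h with .. }` does not work across different `c`: write the structure field by field as in `k8_ok_mono`, `S8/Glue.lean`).
With `j = 2^(m'-m) ∈ ℕ` : `k7bBin χ' v = b ↔ k7bBin χ v ∈ Finset.Ico (b j) ((b+1) j)` (`⌊v/χ'⌋ = ⌊⌊v/χ⌋ / j⌋`, `Int.floor_div_natCast` / direct) and `k7bIv χ' b = ⋃ b' ∈ Ico .., k7bIv χ b'` (disjoint union of intervals), so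
`pal (k7bIv χ' b) = ∑ b', pal (k7bIv χ b')` (`measure_biUnion_finset`); the event of the coarse bin is the finite union of the events of the fine bins: `measure_biUnion_finset_le`, then sum the fine bounds (`Finset.mul_sum`, `Finset.sum_mul`). -/
theorem k8w_ok_coarse {H : K7bHor} {c : K7bPar} {K χ' : ℝ} {m m' : ℤ} (hχ : c.χ = (2 : ℝ) ^ m) (hχ' : χ' = (2 : ℝ) ^ m') (hm : m ≤ m')
    (h : H.Ok c K) : H.Ok { c with χ := χ' } K := by
  have hχ0 : 0 < c.χ := by rw [hχ]; positivity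
  have hle : c.χ ≤ χ' := by
    rw [hχ, hχ']
    exact zpow_le_zpow_right₀ (by norm_num) hm
  obtain ⟨n, hn⟩ : ∃ n : ℕ, (n : ℤ) = m' - m := ⟨(m' - m).toNat, Int.toNat_of_nonneg (by omega)⟩
  have hj : χ' = ((2 ^ n : ℕ) : ℝ) * c.χ := by
    have e1 : m' = n + m := by omega
    rw [hχ, hχ', e1, zpow_add₀ (by norm_num), zpow_natCast]
    push_cast
    rfl
  have hj0 : 0 < 2 ^ n := by positivity
  exact
  { mp := h.mp, mv := h.mv, mq0 := h.mq0, my1 := h.my1, mx0 := h.mx0, mx1 := h.mx1, mSp := h.mSp, meh := h.meh, mlab := h.mlab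
    ment := h.ment, masg := h.masg, νle := h.νle, νprob := h.νprob, palle := h.palle, lamres := h.lamres, dyad := h.dyad, anc := h.anc
    refQ := h.refQ
    dom := h.dom
    time := h.time
    bdd := h.bdd
    bddx := h.bddx
    heq := h.heq
    palcap := fun x r h1 h2 => h.palcap x r (hle.trans h1) h2
    ehdom := fun e b => k8w_co_sum (H.lam.restrict H.Sp) H.pal hχ0 hj hj0 (H.eh ⁻¹' {e}) (fun z => H.v z.1) (ENNReal.ofReal K) (H.Ref e)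
      (fun b' => h.ehdom e b') b
    refsum := h.refsum
    capJ := fun C x r b h1 h2 => by
      have key := k8w_co_sum H.lam H.pal hχ0 hj hj0 (H.Sp ∩ {z | k7bCell c.ξ (H.base z) = C ∧ |H.X z - x| ≤ r}) (fun z => H.v z.1)
        (ENNReal.ofReal (K * c.ξ ^ 3 * r ^ c.d)) 1 (fun b' => by
          rw [mul_one]
          refine le_trans (measure_mono ?_) (h.capJ C x r b' h1 h2)
          rintro z ⟨⟨hz1, hz2, hz3⟩, hz4⟩
          exact ⟨hz1, hz2, hz3, hz4⟩) b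
      rw [mul_one] at key
      refine le_trans (measure_mono ?_) key
      rintro z ⟨hz1, hz2, hz3, hz4⟩
      exact ⟨⟨hz1, hz2, hz3⟩, hz4⟩
    capP := h.capP
    capQ := h.capQ
    ehlab := h.ehlab
    ehpt := h.ehpt
    labmem := h.labmem
    bllen := h.bllen
    blkdisj := h.blkdisj
    asgdisj := h.asgdisj
    νQ := h.νQ
    budget := h.budget
    box := h.box
    nest := h.nest
    entcard := h.entcard
    entmem := h.entmem
    entfit := h.entfit }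

theorem k8w_dy_le {y : ℝ} (hy : 0 < y) : y ≤ kbDy y := by
  unfold kbDy
  have h1 : Real.logb 2 y ≤ (⌈Real.logb 2 y⌉ : ℝ) := Int.le_ceil _
  have h2 : (2 : ℝ) ^ Real.logb 2 y = y := Real.rpow_logb (by norm_num) (by norm_num) hy
  calc y = (2 : ℝ) ^ Real.logb 2 y := h2.symm
    _ ≤ (2 : ℝ) ^ ((⌈Real.logb 2 y⌉ : ℤ) : ℝ) := Real.rpow_le_rpow_of_exponent_le (by norm_num) h1
    _ = (2 : ℝ) ^ (⌈Real.logb 2 y⌉ : ℤ) := Real.rpow_intCast _ _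

theorem k8w_dy_le_one {y : ℝ} (hy : 0 < y) (hy1 : y ≤ 1) : kbDy y ≤ 1 := by
  unfold kbDy
  have h1 : Real.logb 2 y ≤ 0 := Real.logb_nonpos (by norm_num) hy.le hy1
  have h2 : ⌈Real.logb 2 y⌉ ≤ 0 := Int.ceil_le.2 (by simpa using h1)
  exact zpow_le_one_of_nonpos₀ (by norm_num) h2

/-- admissibility of the coarse record -/
theorem k8w_adm_coarse {x : K8Exp} {M : ℝ × ℝ × ℝ} {G0 : Finset ℝ} {N1 Mχ : ℝ} {c : K7bPar} (h : K8Adm x M G0 N1 c) (hM : 0 ≤ Mχ) :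
    K8Adm x (M.1, Mχ, M.2.2) G0 N1 (k8wCo c Mχ) := by
  have hN0 : 0 < c.N := lt_of_lt_of_le one_pos h.wf.N1
  have hy : 0 < c.N ^ (-Mχ) := Real.rpow_pos_of_pos hN0 _
  have hy1 : c.N ^ (-Mχ) ≤ 1 := Real.rpow_le_one_of_one_le_of_nonpos h.wf.N1 (by linarith)
  obtain ⟨m, h1, -, h3⟩ := h.dy
  exact
  { wf := { h.wf with χ0 := ksl17_dy_pos _, χ1 := k8w_dy_le_one hy hy1 }
    hk := h.hk, hd := h.hd, hS := h.hS, he := h.he, hN := h.hN, hG := h.hG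
    hξ := h.hξ
    hχ := ⟨k8w_dy_le hy, ksl17_dy_lt hy⟩
    hϱ := h.hϱ
    dy := ⟨(m.1, ⌈Real.logb 2 (c.N ^ (-Mχ))⌉, m.2.2), h1, rfl, h3⟩ }

/-- dense inputs of the coarse record -/
theorem k8w_inp_coarse {x : K8Exp} {M : ℝ × ℝ × ℝ} {G0 : Finset ℝ} {N1 Mχ K : ℝ} {c : K7bPar} {H : K7bHor} {E : Set (H.Lam × ℝ)}
    (hA : K8Adm x M G0 N1 c) (hN : 2 ≤ c.N) (hM : Mχ + 1 ≤ M.2.1) (h : K8Inp H c K E) : K8Inp H (k8wCo c Mχ) K E := by
  have hN0 : 0 < c.N := by linarith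
  obtain ⟨m, -, h2, -⟩ := hA.dy
  have hy : 0 < c.N ^ (-Mχ) := Real.rpow_pos_of_pos hN0 _
  have hle : c.χ ≤ kbDy (c.N ^ (-Mχ)) := by
    have e1 : c.N ^ (-M.2.1) ≤ c.N ^ (-Mχ - 1) := Real.rpow_le_rpow_of_exponent_le (by linarith) (by linarith)
    have e2 : c.N ^ (-Mχ - 1) = c.N ^ (-Mχ) / c.N := by rw [Real.rpow_sub hN0, Real.rpow_one]
    have e3 : 2 * (c.N ^ (-Mχ) / c.N) ≤ c.N ^ (-Mχ) := by
      rw [mul_div_assoc', div_le_iff₀ hN0]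
      nlinarith
    have := hA.hχ.2
    exact (by linarith : c.χ ≤ c.N ^ (-Mχ)).trans (k8w_dy_le hy)
  have hmm : m.2.1 ≤ ⌈Real.logb 2 (c.N ^ (-Mχ))⌉ := by
    have : (2 : ℝ) ^ m.2.1 ≤ (2 : ℝ) ^ ⌈Real.logb 2 (c.N ^ (-Mχ))⌉ := by rw [← h2]; exact hle
    exact (zpow_le_zpow_iff_right₀ (by norm_num)).1 this
  exact ⟨h.K1, k8w_ok_coarse h2 rfl hmm h.ok, h.card, h.grid, h.res⟩

/-- **a hub may be applied to the record with the coarser group mesh** -/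
theorem K8HubAt.coarse {x : K8Exp} {M0 M1 Mχ : ℝ} {A : K7bHor → Type}
    {Hyp Concl : ∀ H : K7bHor, A H → K7bPar → ℝ → Set (H.Lam × ℝ) → Prop} (h : K8HubAt x M0 Hyp Concl)
    (h0 : 0 ≤ Mχ) (hM : M0 ≤ Mχ) (hM1 : Mχ + 1 ≤ M1) :
    K8HubAt x M1 (fun H a c K E => Hyp H a (k8wCo c Mχ) K E) (fun H a c K E => Concl H a (k8wCo c Mχ) K E) := by
  intro M m1 m2 m3 τ hτ
  obtain ⟨G0, τ', N1, hτ', hG, hh⟩ := h (M.1, Mχ, M.2.2) (by simpa using (by linarith : M0 ≤ M.1)) hM (by simpa using (by linarith : M0 ≤ M.2.2)) τ hτ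
  refine ⟨G0, τ', max N1 2, hτ', hG, fun H a c K E hA hI hK hy => ?_⟩
  have hA1 : K8Adm x M G0 N1 c := hA.mono subset_rfl (le_max_left _ _)
  have hN2 : 2 ≤ c.N := (le_max_right _ _).trans hA.hN
  exact hh H a (k8wCo c Mχ) K E (k8w_adm_coarse hA1 h0) (k8w_inp_coarse hA1 hN2 (hM1.trans m2) hI) hK hy

/-! ## The assembly -/

/-- a projected labelling of depth `s` defined on the whole selection (persistent) -/
def K8wPL (e : K8wE) (s : ℝ) (H : K7bHor) (Φ : K8wProj H) (c : K7bPar) (K : ℝ) (E : Set (H.Lam × ℝ)) : Prop :=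
  Φ.Ok c K e.sA (e.D c) s ∧ ∀ z ∈ E, Φ.lab z.1 ≠ none

/-- a layer of depth `s` defined on the whole selection (persistent) -/
def K8wLL (e : K8wE) (s : ℝ) (H : K7bHor) (P : K8wLay H) (c : K7bPar) (K : ℝ) (E : Set (H.Lam × ℝ)) : Prop :=
  P.Ok c K (c.a s) (e.D c) ∧ ∀ z ∈ E, P.lab z.1 ≠ none

theorem K8wPL.mono {e : K8wE} {s : ℝ} {H : K7bHor} {Φ : K8wProj H} {c : K7bPar} {K K' : ℝ} {E E' : Set (H.Lam × ℝ)} (hc : c.WF)
    (hK : K ≤ K') (hE : E' ⊆ E) (h : K8wPL e s H Φ c K E) : K8wPL e s H Φ c K' E' :=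
  ⟨h.1.mono hc hK, fun z hz => h.2 z (hE hz)⟩

theorem K8wLL.mono {e : K8wE} {s : ℝ} {H : K7bHor} {P : K8wLay H} {c : K7bPar} {K K' : ℝ} {E E' : Set (H.Lam × ℝ)} (hc : c.WF)
    (hK : K ≤ K') (hE : E' ⊆ E) (h : K8wLL e s H P c K E) : K8wLL e s H P c K' E' := by
  have hN : 0 < c.N := lt_of_lt_of_le one_pos hc.N1
  exact ⟨h.1.mono (Real.rpow_pos_of_pos hN _).le (Real.rpow_pos_of_pos (Real.rpow_pos_of_pos hN _) _).le hK, fun z hz => h.2 z (hE hz)⟩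

theorem k8w_main_eqns_cite : True := by
  have := @K8wPL.eq_1
  have := @K8wLL.eq_1
  trivial

/-- three layers on a dense part of every dense input (S1 + S2 + S3) -/
theorem k8w_layers (hPr : K8wHProj) (hLa : K8wHLay) (x : K8Exp) (hx : x.Ok) (e : K8wE) (he : e.Ok x) {MA : ℝ}
    (hA : K8Hub0 x MA fun H c K E => ∃ E' ⊆ E, H.Res E' (1 / K) ∧ ∃ a : K8wCh H, a.Ok c K e.sA (e.D c) e.T E') :
    ∃ Mc : ℝ, K8Hub0 x Mc fun H c K E => ∃ E' ⊆ E, H.Res E' (1 / K) ∧ ∃ P : Fin 3 → K8wLay H,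
      K8wLL e e.s H (P 0) c K E' ∧ K8wLL e (e.s + e.u) H (P 1) c K E' ∧ K8wLL e (e.s + e.c2) H (P 2) c K E' := by
  have t1 : e.s ∈ e.T := by simp [K8wE.T]
  have t2 : e.s + e.u ∈ e.T := by simp [K8wE.T]
  have t3 : e.s + e.c2 ∈ e.T := by simp [K8wE.T]
  obtain ⟨P1, p1⟩ := hPr x hx e he _ t1
  obtain ⟨P2, p2⟩ := hPr x hx e he _ t2
  obtain ⟨P3, p3⟩ := hPr x hx e he _ t3
  obtain ⟨L1, l1⟩ := hLa x hx e he _ t1
  obtain ⟨L2, l2⟩ := hLa x hx e he _ t2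
  obtain ⟨L3, l3⟩ := hLa x hx e he _ t3
  obtain ⟨Mc, hMc⟩ : ∃ Mc, Mc = max MA (max (max P1 (max P2 P3)) (max L1 (max L2 L3))) := ⟨_, rfl⟩
  have mA : MA ≤ Mc := by rw [hMc]; exact le_max_left _ _
  have mP1 : P1 ≤ Mc := by rw [hMc]; exact (le_max_left _ _).trans ((le_max_left _ _).trans (le_max_right _ _))
  have mP2 : P2 ≤ Mc := by
    rw [hMc]; exact (le_max_left _ _).trans ((le_max_right _ _).trans ((le_max_left _ _).trans (le_max_right _ _)))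
  have mP3 : P3 ≤ Mc := by
    rw [hMc]; exact (le_max_right _ _).trans ((le_max_right _ _).trans ((le_max_left _ _).trans (le_max_right _ _)))
  have mL1 : L1 ≤ Mc := by rw [hMc]; exact (le_max_left _ _).trans ((le_max_right _ _).trans (le_max_right _ _))
  have mL2 : L2 ≤ Mc := by
    rw [hMc]; exact (le_max_left _ _).trans ((le_max_right _ _).trans ((le_max_right _ _).trans (le_max_right _ _)))
  have mL3 : L3 ≤ Mc := by
    rw [hMc]; exact (le_max_right _ _).trans ((le_max_right _ _).trans ((le_max_right _ _).trans (le_max_right _ _)))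
  refine ⟨Mc, ?_⟩
  -- the hubs in the shape of `k8_hub_push`
  have pr : ∀ (s : ℝ) (Ps : ℝ), Ps ≤ Mc → K8HubAt x Ps (A := K8wCh) (fun _ a c K E => a.Ok c K e.sA (e.D c) e.T E)
      (fun H a c K E => ∃ E' ⊆ E, H.Res E' (1 / K) ∧ a.Ok c K e.sA (e.D c) e.T E' ∧
        ∃ Φ : K8wProj H, Φ.Ok c K e.sA (e.D c) s ∧ ∀ z ∈ E', Φ.lab z.1 ≠ none) →
      K8HubAt x Mc (A := K8wCh) (fun _ a c K E => a.Ok c K e.sA (e.D c) e.T E)
        (fun H a c K E => ∃ E' ⊆ E, H.Res E' (1 / K) ∧ ∃ Φ : K8wProj H, a.Ok c K e.sA (e.D c) e.T E' ∧ K8wPL e s H Φ c K E') :=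
    fun s Ps hPs h => K8HubAt.imp (h.mono hPs) (fun _ a => a) (fun _ _ _ _ _ h => h)
      (fun H a c K E _ ⟨E', e1, e2, e3, Φ, e4, e5⟩ => ⟨E', e1, e2, Φ, e3, e4, e5⟩)
  have la : ∀ (s : ℝ) (Ls : ℝ), Ls ≤ Mc → K8HubAt x Ls (A := K8wProj) (fun _ Φ c K E => Φ.Ok c K e.sA (e.D c) s ∧ ∀ z ∈ E, Φ.lab z.1 ≠ none)
      (fun H _ c K E => ∃ E' ⊆ E, H.Res E' (1 / K) ∧ ∃ P : K8wLay H, P.Ok c K (c.a s) (e.D c) ∧ ∀ z ∈ E', P.lab z.1 ≠ none) →
      K8HubAt x Mc (A := K8wProj) (K8wPL e s) (fun H _ c K E => ∃ E' ⊆ E, H.Res E' (1 / K) ∧ ∃ P : K8wLay H, K8wLL e s H P c K E') :=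
    fun s Ls hLs h => h.mono hLs
  have c0 := K8HubAt.mono hA mA
  have c1 := k8_hub_push (P := fun _ _ _ _ _ => True) (fun _ a => a) c0 (pr _ _ mP1 p1) (fun _ _ _ _ _ h => ⟨h, trivial⟩)
    (fun _ _ _ _ _ _ _ _ _ _ _ _ => trivial)
  have c2 := k8_hub_push (P := fun H (b : K8wCh H × K8wProj H) c K E => K8wPL e e.s H b.2 c K E) (fun _ b => b.1) c1 (pr _ _ mP2 p2)
    (fun _ _ _ _ _ h => ⟨h.1.1, h.1.2⟩) (fun _ _ _ _ _ _ _ hc _ hK hE h => h.mono hc hK hE)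
  have c3 := k8_hub_push (P := fun H (b : (K8wCh H × K8wProj H) × K8wProj H) c K E =>
      K8wPL e e.s H b.1.2 c K E ∧ K8wPL e (e.s + e.u) H b.2 c K E) (fun _ b => b.1.1) c2 (pr _ _ mP3 p3)
    (fun _ _ _ _ _ h => ⟨h.1.1, h.2, h.1.2⟩) (fun _ _ _ _ _ _ _ hc _ hK hE h => ⟨h.1.mono hc hK hE, h.2.mono hc hK hE⟩)
  have c4 := k8_hub_push (P := fun H (b : ((K8wCh H × K8wProj H) × K8wProj H) × K8wProj H) c K E =>
      K8wPL e (e.s + e.u) H b.1.2 c K E ∧ K8wPL e (e.s + e.c2) H b.2 c K E) (Mid2 := fun H _ P c K E => K8wLL e e.s H P c K E)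
    (fun _ b => b.1.1.2) c3 (la _ _ mL1 l1)
    (fun _ _ _ _ _ h => ⟨h.2.1, h.2.2, h.1.2⟩) (fun _ _ _ _ _ _ _ hc _ hK hE h => ⟨h.1.mono hc hK hE, h.2.mono hc hK hE⟩)
  have c5 := k8_hub_push (P := fun H (b : (((K8wCh H × K8wProj H) × K8wProj H) × K8wProj H) × K8wLay H) c K E =>
      K8wPL e (e.s + e.c2) H b.1.2 c K E ∧ K8wLL e e.s H b.2 c K E) (Mid2 := fun H _ P c K E => K8wLL e (e.s + e.u) H P c K E)
    (fun _ b => b.1.1.2) c4 (la _ _ mL2 l2)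
    (fun _ _ _ _ _ h => ⟨h.2.1, h.2.2, h.1⟩) (fun _ _ _ _ _ _ _ hc _ hK hE h => ⟨h.1.mono hc hK hE, h.2.mono hc hK hE⟩)
  have c6 := k8_hub_push (P := fun H (b : ((((K8wCh H × K8wProj H) × K8wProj H) × K8wProj H) × K8wLay H) × K8wLay H) c K E =>
      K8wLL e e.s H b.1.2 c K E ∧ K8wLL e (e.s + e.u) H b.2 c K E) (Mid2 := fun H _ P c K E => K8wLL e (e.s + e.c2) H P c K E)
    (fun _ b => b.1.1.2) c5 (la _ _ mL3 l3)
    (fun _ _ _ _ _ h => ⟨h.2.1, h.2.2, h.1⟩) (fun _ _ _ _ _ _ _ hc _ hK hE h => ⟨h.1.mono hc hK hE, h.2.mono hc hK hE⟩)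
  refine K8HubAt.imp c6 (fun _ a => a) (fun _ _ _ _ _ h => h) ?_
  rintro H _ c K E _ ⟨E', e1, e2, bb, e3, e4, e5⟩
  exact ⟨E', e1, e2, ![bb.1.1.2, bb.1.2, bb.2], e4, e5, e3⟩

/-- **P8.6** `prop:offcritical-wide` from its four hubs -/
theorem k8w_wide (hCh : K8wHChart) (hPr : K8wHProj) (hLa : K8wHLay) (hFin : K8wHFin) : K8HWide := by
  intro x hx hk
  obtain ⟨e, he, MA, hA⟩ := hCh x hx hk
  obtain ⟨Mc, hc⟩ := k8w_layers hPr hLa x hx e he hA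
  obtain ⟨Mχ0, hF⟩ := hFin x hx e he
  obtain ⟨M0, hM0, hF⟩ := hF (max (max Mχ0 Mc) 0) ((le_max_left _ _).trans (le_max_left _ _))
  refine ⟨e.s, e.c2, M0, he.s0.trans he.δ0, he.c20, ?_⟩
  have hc' := K8HubAt.coarse hc (le_max_right _ _) ((le_max_right _ _).trans (le_max_left _ _)) hM0
  refine k8_hub_trans (B := fun H => Fin 3 → K8wLay H) (Mid := K8wFinH e (max (max Mχ0 Mc) 0)) ?_ hF ?_
  · refine K8HubAt.imp hc' (fun _ a => a) (fun _ _ _ _ _ h => h) ?_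
    rintro H _ c K E _ ⟨E', e1, e2, P, e3, e4, e5⟩
    refine ⟨E', e1, e2, P, e3.1, e4.1, e5.1, fun z hz i => ?_⟩
    fin_cases i
    · exact e3.2 z hz
    · exact e4.2 z hz
    · exact e5.2 z hz
  · rintro H _ _ c K E E' hE ⟨q, P, Cn, h⟩
    exact ⟨q, P, Cn, { h with sub := h.sub.trans hE }⟩

end Claimed.Agent.R252
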