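-- KEEP
import Claimed.Agent.R252.S8w.Chart
import Claimed.Agent.R252.S8w.Main

/-!
# Row 252, Sec. 8, P8.6, stage S1: THE HUB `K8wHChart`      (helper182; prefix `k8w`)      no sorry in this file

* `k8_hub_one`     a one-scale statement "slack `K` ⟹ slack `C K^C`, provided `C K^C ≤ N^μ`" is a hub
* `k8w_hchart`     `K8HGOne → K8HCmp → K8HCore → K8wHChart`
-/

set_option autoImplicit false

namespace Claimed.Agent.R252

open MeasureTheory
open scoped ENNReal BigOperators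

/-- **from one scale to a hub** -/
theorem k8_hub_one {x : K8Exp} {M0 : ℝ} {A : K7bHor → Type}
    {Hyp Concl : ∀ H : K7bHor, A H → K7bPar → ℝ → Set (H.Lam × ℝ) → Prop} (G0 : Finset ℝ) (hG0 : ∀ s ∈ G0, 0 ≤ s ∧ s ≤ x.R)
    {μ : ℝ} (hμ : 0 < μ) (C : ℕ) (N0 : ℝ)
    (hmono : ∀ (H : K7bHor) (a : A H) (c : K7bPar) (K K' : ℝ) (E : Set (H.Lam × ℝ)), c.WF → 0 < K → K ≤ K' → Concl H a c K E → Concl H a c K' E)
    (h : ∀ M : ℝ × ℝ × ℝ, M0 ≤ M.1 → M0 ≤ M.2.1 → M0 ≤ M.2.2 → ∀ (H : K7bHor) (a : A H) (c : K7bPar) (K : ℝ) (E : Set (H.Lam × ℝ)),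
      K8Adm x M G0 N0 c → K8Inp H c K E → ((C : ℝ) + 1) * K ^ (C + 1) ≤ c.N ^ μ → Hyp H a c K E → Concl H a c (((C : ℝ) + 1) * K ^ (C + 1)) E) :
    K8HubAt x M0 Hyp Concl := by
  intro M m1 m2 m3 τ hτ
  obtain ⟨σ, hσd⟩ : ∃ σ, σ = min τ μ := ⟨_, rfl⟩
  have hσ : 0 < σ := by rw [hσd]; exact lt_min hτ hμ
  have hC1 : (1 : ℝ) ≤ (C : ℝ) + 1 := by
    have : (0 : ℝ) ≤ (C : ℝ) := Nat.cast_nonneg _
    linarith
  have hC0 : (0 : ℝ) < (C : ℝ) + 1 := by linarith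
  refine ⟨G0, σ / (2 * ((C : ℝ) + 1)), max N0 (max 1 (((C : ℝ) + 1) ^ (1 / (σ / 2)))), by positivity, hG0, fun H a c K E hA hI hK hy => ?_⟩
  have hc := hA.wf
  have hN1 : 1 ≤ c.N := hc.N1
  have hN0 : 0 < c.N := by linarith
  have hK0 : 0 < K := lt_of_lt_of_le one_pos hI.K1
  have h1 : (C : ℝ) + 1 ≤ c.N ^ (σ / 2) :=
    k8_const_le hC1 (by positivity) (((le_max_right _ _).trans (le_max_right _ _)).trans hA.hN)
  have h2 : K ^ (C + 1) ≤ c.N ^ (σ / 2) := by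
    calc K ^ (C + 1) ≤ (c.N ^ (σ / (2 * ((C : ℝ) + 1)))) ^ (C + 1) := pow_le_pow_left₀ hK0.le hK _
      _ = c.N ^ (σ / 2) := by
        rw [← Real.rpow_natCast, ← Real.rpow_mul hN0.le]
        congr 1
        push_cast
        field_simp
  have h3 : ((C : ℝ) + 1) * K ^ (C + 1) ≤ c.N ^ σ := by
    calc _ ≤ c.N ^ (σ / 2) * c.N ^ (σ / 2) := mul_le_mul h1 h2 (by positivity) (by positivity)
      _ = c.N ^ σ := by
        rw [← Real.rpow_add hN0]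
        congr 1
        ring
  have h4 : c.N ^ σ ≤ c.N ^ μ := Real.rpow_le_rpow_of_exponent_le hN1 (by rw [hσd]; exact min_le_right _ _)
  have h5 : c.N ^ σ ≤ c.N ^ τ := Real.rpow_le_rpow_of_exponent_le hN1 (by rw [hσd]; exact min_le_left _ _)
  exact hmono H a c _ _ E hc (by positivity) (h3.trans h5)
    (h M m1 m2 m3 H a c K E (hA.mono subset_rfl (le_max_left _ _)) hI (h3.trans h4) hy)

/-! ## Powers of `N` -/

theorem k8w_pw {N μ a b e d : ℝ} (hN : 1 ≤ N) (h : μ + a + b - e ≤ d) : N ^ μ * (N ^ a * N ^ b / N ^ e) ≤ N ^ d := by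
  have hN0 : 0 < N := by linarith
  rw [← Real.rpow_add hN0, ← Real.rpow_sub hN0, ← Real.rpow_add hN0]
  exact Real.rpow_le_rpow_of_exponent_le hN (by linarith)

theorem k8w_D_eq (e : K8wE) {c : K7bPar} (hc : c.WF) : e.D c = c.N ^ (-(2 * c.k * e.s0)) := by
  have hN0 : 0 < c.N := lt_of_lt_of_le one_pos hc.N1
  show (c.N ^ (-e.s0)) ^ (2 * c.k) = _
  rw [← Real.rpow_mul hN0.le]
  congr 1
  ring

theorem k8w_T_mem {e : K8wE} {x : K8Exp} (hx : x.Ok) (he : e.Ok x) {s : ℝ} (hs : s ∈ e.T) : e.s0 < s ∧ s ≤ e.s + e.u := by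
  have h1 := he.δ0
  have h2 := he.u0
  have h3 := he.c20
  have h4 : e.c2 < e.u := by
    have := he.c2u
    have hd := hx.d0
    nlinarith
  simp only [K8wE.T, Finset.mem_insert, Finset.mem_singleton] at hs
  rcases hs with rfl | rfl | rfl
  · exact ⟨h1, by linarith⟩
  · exact ⟨by linarith, le_rfl⟩
  · exact ⟨by linarith, by linarith⟩

/-- monotonicity of the conclusion of S1 -/
theorem k8w_chartC_mono (e : K8wE) (H : K7bHor) (c : K7bPar) (K K' : ℝ) (E : Set (H.Lam × ℝ)) (hc : c.WF) (hK0 : 0 < K) (hK : K ≤ K')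
    (h : ∃ E' ⊆ E, H.Res E' (1 / K) ∧ ∃ a : K8wCh H, a.Ok c K e.sA (e.D c) e.T E') :
    ∃ E' ⊆ E, H.Res E' (1 / K') ∧ ∃ a : K8wCh H, a.Ok c K' e.sA (e.D c) e.T E' := by
  obtain ⟨E', h1, h2, a, h3⟩ := h
  exact ⟨E', h1, k8_res_mono h2 (one_div_le_one_div_of_le hK0 hK), a, h3.mono hc hK⟩

/-- **S1 for `2k > 1`** -/
theorem k8w_hchart_sup (x : K8Exp) (hx : x.Ok) (hk : 1 < 2 * x.k) : ∃ e : K8wE, e.Ok x ∧ ∃ M0 : ℝ,
    K8Hub0 x M0 fun H c K E => ∃ E' ⊆ E, H.Res E' (1 / K) ∧ ∃ a : K8wCh H, a.Ok c K e.sA (e.D c) e.T E' := by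
  obtain ⟨e, he, -⟩ := k8w_exp_exists x hx hk.ne' one_pos
  refine ⟨e, he, 0, ?_⟩
  have hsA : e.sA = 0 := by
    rcases he.sA with h | h
    · linarith [h.1]
    · exact h.2
  obtain ⟨C, hC1, hC⟩ := k8w_chart_sup
  have hμ : 0 < (2 * x.k - 1) * e.s0 - (e.s + e.u - e.s0) := by linarith [he.sup hk]
  have hone : K8HubAt x 0 (A := fun H => Set (H.Lam × ℝ)) (fun H E₀ c K E => K8Prep H c K E₀ E)
      (fun H _ c K E => ∃ E' ⊆ E, H.Res E' (1 / K) ∧ ∃ a : K8wCh H, a.Ok c K e.sA (e.D c) e.T E') := by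
    classical
    refine k8_hub_one (insert 0 e.T) ?_ hμ C 1 (fun H _ c K K' E hc hK0 hK h => k8w_chartC_mono e H c K K' E hc hK0 hK h) ?_
    · intro s hs
      rcases Finset.mem_insert.1 hs with rfl | hs
      · exact ⟨le_rfl, hx.R0.le⟩
      · have := k8w_T_mem hx he hs
        exact ⟨by linarith [he.s0], by linarith [he.top, he.R, he.s0]⟩
    · intro M _ _ _ H E₀ c K E hA hI hΛ hP
      have hc := hA.wf
      have hN1 := hc.N1
      have hN0 : 0 < c.N := by linarith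
      have hK1 := hI.K1
      have hD := k8w_D_eq e hc
      have hCK : (C : ℝ) * K ^ C ≤ ((C : ℝ) + 1) * K ^ (C + 1) := by
        have h1 : K ^ C ≤ K ^ (C + 1) := pow_le_pow_right₀ hK1 (Nat.le_succ C)
        have h2 : (0 : ℝ) ≤ K ^ C := by positivity
        have h3 : (0 : ℝ) ≤ (C : ℝ) := Nat.cast_nonneg _
        nlinarith
      obtain ⟨E', h1, h2, a, h3⟩ := hC H c K _ (e.D c) e.T E₀ E hc hI hP (hA.hG (Finset.mem_insert_self _ _))
        (fun s hs => hA.hG (Finset.mem_insert_of_mem hs)) (by rw [hD]; exact Real.rpow_pos_of_pos hN0 _)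
        (by
          rw [hD]
          refine Real.rpow_le_one_of_one_le_of_nonpos hN1 ?_
          have := mul_pos hc.k0 he.s0
          linarith) (hCK.trans hΛ) (fun s hs => by
          rw [hD, ← Real.rpow_add hN0]
          refine Real.rpow_le_rpow_of_exponent_le hN1 ?_
          have := (k8w_T_mem hx he hs).2
          rw [hA.hk]
          linarith)
      have hpos : 0 < (C : ℝ) * K ^ C := by
        have : (0 : ℝ) < (C : ℝ) := by exact_mod_cast hC1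
        positivity
      rw [hsA]
      exact ⟨E', h1, k8_res_mono h2 (one_div_le_one_div_of_le hpos hCK), a, h3.mono hc hCK⟩
  refine k8_hub_trans (B := fun H => Set (H.Lam × ℝ)) (k8_prep x 0) hone ?_
  rintro H _ _ c K E E' hE ⟨E'', h1, h2, h3⟩
  exact ⟨E'', h1.trans hE, h2, h3⟩

/-- the persistent part of the state after the comparison at `s0` : `b = (E₀, F0, E1)` -/
def K8wStC (s0 u : ℝ) (H : K7bHor) (b : Set (H.Lam × ℝ) × K8Lab H × Set (H.Lam × ℝ)) (c : K7bPar) (K : ℝ) (E : Set (H.Lam × ℝ)) : Prop :=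
  K8Prep H c K b.1 E ∧ b.2.1.Cmp c K s0 (c.a s0 ^ u) E ∧ E ⊆ b.2.2 ∧ b.2.2 ⊆ H.Sp ∧ b.2.1.Ok c K s0 (c.a s0 ^ u) b.2.2

theorem K8wStC.mono {s0 u : ℝ} {H : K7bHor} {b : Set (H.Lam × ℝ) × K8Lab H × Set (H.Lam × ℝ)} {c : K7bPar} {K K' : ℝ} {E E' : Set (H.Lam × ℝ)}
    (hc : c.WF) (hK : K ≤ K') (hE : E' ⊆ E) (h : K8wStC s0 u H b c K E) : K8wStC s0 u H b c K' E' :=
  ⟨h.1.mono hc hK hE, h.2.1.mono hc hK hE, hE.trans h.2.2.1, h.2.2.2.1, h.2.2.2.2.mono hc hK⟩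

theorem k8w_hub_eqns_cite : True := by
  have := @K8wStC.eq_1
  trivial

/-- **S1 for `2k < 1`** -/
theorem k8w_hchart_sub (hOne : K8HGOne) (hCmp : K8HCmp) (hCore : K8HCore) (x : K8Exp) (hx : x.Ok) (hk : 2 * x.k < 1) : ∃ e : K8wE, e.Ok x ∧ ∃ M0 : ℝ,
    K8Hub0 x M0 fun H c K E => ∃ E' ⊆ E, H.Res E' (1 / K) ∧ ∃ a : K8wCh H, a.Ok c K e.sA (e.D c) e.T E' := by
  obtain ⟨sG, MG, hsG, hG⟩ := k8_boot hOne hCmp hCore x hx hk
  obtain ⟨sC, MC, hsC, hC⟩ := hCmp x hx hk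
  obtain ⟨e, he, hes⟩ := k8w_exp_exists x hx hk.ne (lt_min hsG hsC)
  refine ⟨e, he, max MG MC, ?_⟩
  have hs0 := he.s0
  have hsA : e.sA = e.s0 := by
    rcases he.sA with h | h
    · exact h.2
    · linarith [h.1]
  obtain ⟨sb, hsb⟩ : ∃ sb, sb = 3 / 2 * e.s0 := ⟨_, rfl⟩
  obtain ⟨u, hu⟩ : ∃ u, u = 2 * x.k := ⟨_, rfl⟩
  have hsb0 : 0 < sb := by rw [hsb]; positivity
  have hsbG : sb < sG := by rw [hsb]; exact hes.trans_le (min_le_left _ _)
  have hsbC : sb < sC := by rw [hsb]; exact hes.trans_le (min_le_right _ _)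
  have hs0b : e.s0 < sb := by rw [hsb]; linarith
  rw [← hu] at hG
  have gA := K8HubAt.mono (hG e.s0 hs0 (hs0b.trans hsbG)) (le_max_left MG MC)
  have gB := K8HubAt.mono (hG sb hsb0 hsbG) (le_max_left MG MC)
  have cmp : ∀ s : ℝ, 0 < s → s < sC → K8HubAt x (max MG MC) (A := fun H => Set (H.Lam × ℝ) × K8Lab H) (K8CmpH s u)
      (fun H a c K E => ∃ E' ⊆ E, H.Res E' (1 / K) ∧ ∃ _ : Unit, K8CmpC s u H a c K E') := fun s h0 h1 =>
    K8HubAt.imp (K8HubAt.mono (hC u hu.ge (by rw [hu]; exact hk.le) s h0 h1) (le_max_right MG MC)) (fun _ a => a) (fun _ _ _ _ _ h => h)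
      (fun H a c K E _ ⟨E', e1, e2, e3⟩ => ⟨E', e1, e2, (), e3⟩)
  have c0 := k8_prep x (max MG MC)
  have c1 := k8_hub_push (B := fun H => Set (H.Lam × ℝ)) (A2 := fun _ => Unit) (B2 := K8Lab)
    (P := fun H E₀ c K E => K8Prep H c K E₀ E) (Mid2 := fun H _ F c K E => F.Ok c K e.s0 (c.a e.s0 ^ u) E) (fun _ _ => ()) c0 gA
    (fun _ _ _ _ _ h => ⟨trivial, h⟩) (fun _ _ _ _ _ _ _ hc _ hK hE h => h.mono hc hK hE)
  have c2 := k8_hub_push (B := fun H => Set (H.Lam × ℝ) × K8Lab H) (P := fun _ _ _ _ _ => True)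
    (Mid2 := fun H a (_ : Unit) c K E => K8CmpC e.s0 u H a c K E) (fun _ b => b) c1 (cmp e.s0 hs0 (hs0b.trans hsbC))
    (fun _ _ _ _ _ h => ⟨⟨h.2, h.1⟩, trivial⟩) (fun _ _ _ _ _ _ _ _ _ _ _ _ => trivial)
  have c2' : K8Hub0 x (max MG MC) fun H c K E => ∃ E' ⊆ E, H.Res E' (1 / K) ∧
      ∃ b : Set (H.Lam × ℝ) × K8Lab H × Set (H.Lam × ℝ), K8wStC e.s0 u H b c K E' := by
    refine K8HubAt.imp c2 (fun _ a => a) (fun _ _ _ _ _ h => h) ?_
    rintro H _ c K E _ ⟨E', e1, e2, bb, ⟨e3, e4, e5⟩, -⟩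
    exact ⟨E', e1, e2, (bb.1.1, bb.1.2, E'), e3, e5, subset_rfl, e2.sub, e4⟩
  have c3 := k8_hub_push (B := fun H => Set (H.Lam × ℝ) × K8Lab H × Set (H.Lam × ℝ)) (A2 := fun _ => Unit) (B2 := K8Lab)
    (P := K8wStC e.s0 u) (Mid2 := fun H _ F c K E => F.Ok c K sb (c.a sb ^ u) E) (fun _ _ => ()) c2' gB
    (fun _ _ _ _ _ h => ⟨trivial, h⟩) (fun _ _ _ _ _ _ _ hc _ hK hE h => h.mono hc hK hE)
  have c4 := k8_hub_push (B := fun H => (Set (H.Lam × ℝ) × K8Lab H × Set (H.Lam × ℝ)) × K8Lab H)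
    (P := fun H b c K E => K8wStC e.s0 u H b.1 c K E)
    (Mid2 := fun H a (_ : Unit) c K E => K8CmpC sb u H a c K E) (fun _ b => (b.1.1, b.2)) c3 (cmp sb hsb0 hsbC)
    (fun _ _ _ _ _ h => ⟨⟨h.2.1, h.1⟩, h.2⟩) (fun _ _ _ _ _ _ _ hc _ hK hE h => h.mono hc hK hE)
  -- the one-scale assembly as a hub
  obtain ⟨C, hC1, hCs⟩ := k8w_chart_sub
  obtain ⟨Δ, hΔ⟩ : ∃ Δ, Δ = e.s + e.u - e.s0 := ⟨_, rfl⟩
  have hk0 := hx.k0
  have m1 : 0 < x.k * e.s0 - (x.k + 1) * Δ := by rw [hΔ]; linarith [he.sub1 hk]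
  have hmin := he.sub2 hk
  have m2 : 0 < x.k * e.s0 / 2 - Δ := by
    have : e.s0 / 4 * min x.k (1 - 2 * x.k) ≤ e.s0 / 4 * x.k := mul_le_mul_of_nonneg_left (min_le_left _ _) (by positivity)
    have h3 : 0 < x.k * e.s0 := mul_pos hk0 hs0
    rw [hΔ]
    nlinarith
  have m3 : 0 < (1 - 2 * x.k) * e.s0 / 2 - Δ := by
    have : e.s0 / 4 * min x.k (1 - 2 * x.k) ≤ e.s0 / 4 * (1 - 2 * x.k) := mul_le_mul_of_nonneg_left (min_le_right _ _) (by positivity)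
    have h3 : 0 < (1 - 2 * x.k) * e.s0 := mul_pos (by linarith) hs0
    rw [hΔ]
    nlinarith
  obtain ⟨μ, hμd⟩ : ∃ μ, μ = min (x.k * e.s0 - (x.k + 1) * Δ) (min (x.k * e.s0 / 2 - Δ) ((1 - 2 * x.k) * e.s0 / 2 - Δ)) := ⟨_, rfl⟩
  have hμ : 0 < μ := by rw [hμd]; exact lt_min m1 (lt_min m2 m3)
  have μ1 : μ ≤ x.k * e.s0 - (x.k + 1) * Δ := by rw [hμd]; exact min_le_left _ _
  have μ2 : μ ≤ x.k * e.s0 / 2 - Δ := by rw [hμd]; exact (min_le_right _ _).trans (min_le_left _ _)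
  have μ3 : μ ≤ (1 - 2 * x.k) * e.s0 / 2 - Δ := by rw [hμd]; exact (min_le_right _ _).trans (min_le_right _ _)
  have hone : K8HubAt x (max MG MC) (A := fun H => ((Set (H.Lam × ℝ) × K8Lab H × Set (H.Lam × ℝ)) × K8Lab H) × Unit)
      (fun H bb c K E => K8CmpC sb u H (bb.1.1.1, bb.1.2) c K E ∧ K8wStC e.s0 u H bb.1.1 c K E)
      (fun H _ c K E => ∃ E' ⊆ E, H.Res E' (1 / K) ∧ ∃ a : K8wCh H, a.Ok c K e.sA (e.D c) e.T E') := by
    classical
    refine k8_hub_one (insert e.s0 (insert sb e.T)) ?_ hμ C 1 (fun H _ c K K' E hc hK0 hK h => k8w_chartC_mono e H c K K' E hc hK0 hK h) ?_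
    · intro s hs
      rcases Finset.mem_insert.1 hs with rfl | hs
      · exact ⟨hs0.le, by linarith [he.R]⟩
      rcases Finset.mem_insert.1 hs with rfl | hs
      · exact ⟨hsb0.le, by rw [hsb]; linarith [he.R]⟩
      · have := k8w_T_mem hx he hs
        exact ⟨by linarith, by linarith [he.top, he.R]⟩
    · rintro M - - - H bb c K E hA hI hΛ ⟨⟨-, hFb, hFbC⟩, hP, hF0C, hEE1, hE1, hF0⟩
      have hc := hA.wf
      have hN1 := hc.N1
      have hN0 : 0 < c.N := by linarith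
      have hK1 := hI.K1
      have hD := k8w_D_eq e hc
      have hDu : c.a e.s0 ^ u = e.D c := by rw [hu, ← hA.hk]; rfl
      have hDb : c.a sb ^ u = c.N ^ (-(2 * x.k * sb)) := by
        show (c.N ^ (-sb)) ^ u = _
        rw [← Real.rpow_mul hN0.le, hu]
        congr 1
        ring
      rw [hDu] at hF0C hF0
      have hCK : (C : ℝ) * K ^ C ≤ ((C : ℝ) + 1) * K ^ (C + 1) := by
        have h1 : K ^ C ≤ K ^ (C + 1) := pow_le_pow_right₀ hK1 (Nat.le_succ C)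
        have h2 : (0 : ℝ) ≤ K ^ C := by positivity
        have h3 : (0 : ℝ) ≤ (C : ℝ) := Nat.cast_nonneg _
        nlinarith
      have hpos : 0 < (C : ℝ) * K ^ C := by
        have : (0 : ℝ) < (C : ℝ) := by exact_mod_cast hC1
        positivity
      have hTle : ∀ s ∈ e.T, s - e.s0 ≤ Δ := fun s hs => by rw [hΔ]; linarith [(k8w_T_mem hx he hs).2]
      have hT0 : ∀ s ∈ e.T, 0 < s - e.s0 := fun s hs => by linarith [(k8w_T_mem hx he hs).1]
      obtain ⟨E', h1, h2, a, h3⟩ := hCs H c K (c.N ^ μ) e.s0 sb (e.D c) (c.a sb ^ u) e.T bb.1.1.1 bb.1.1.2.2 E bb.1.1.2.1 bb.1.2 hc hI hP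
        (hA.hG (Finset.mem_insert_self _ _)) (hA.hG (Finset.mem_insert_of_mem (Finset.mem_insert_self _ _))) hs0b.le
        ⟨e.s, by simp [K8wE.T]⟩
        (fun s hs => ⟨hA.hG (Finset.mem_insert_of_mem (Finset.mem_insert_of_mem hs)), (k8w_T_mem hx he hs).1.le⟩)
        (by rw [hD]; exact Real.rpow_pos_of_pos hN0 _) (by rw [hDb]; exact Real.rpow_pos_of_pos hN0 _)
        hEE1 hE1 hF0 hF0C hFb hFbC (hCK.trans hΛ)
        (fun s hs => by
          rw [hD, hA.hk]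
          refine k8w_pw hN1 ?_
          have := hTle s hs
          have h5 : (x.k + 1) * (s - e.s0) ≤ (x.k + 1) * Δ := mul_le_mul_of_nonneg_left this (by linarith)
          rw [hA.hk]
          nlinarith)
        (fun s hs => by
          rw [hD, hA.hk]
          refine k8w_pw hN1 ?_
          have := hTle s hs
          rw [hA.hk, hsb]
          nlinarith)
        (fun s hs => by
          rw [hD, hDb, hA.hk]
          refine k8w_pw hN1 ?_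
          have := hTle s hs
          rw [hsb]
          nlinarith)
      rw [hsA]
      exact ⟨E', h1, k8_res_mono h2 (one_div_le_one_div_of_le hpos hCK), a, h3.mono hc hCK⟩
  refine k8_hub_trans c4 hone ?_
  rintro H _ _ c K E E' hE ⟨E'', h1, h2, h3⟩
  exact ⟨E'', h1.trans hE, h2, h3⟩

/-- **S1** : the hub of the charts -/
theorem k8w_hchart (hOne : K8HGOne) (hCmp : K8HCmp) (hCore : K8HCore) : K8wHChart := by
  intro x hx hk
  rcases lt_or_gt_of_ne hk with h | h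
  · exact k8w_hchart_sub hOne hCmp hCore x hx h
  · exact k8w_hchart_sup x hx h

end Claimed.Agent.R252
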