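-- KEEP
import Claimed.Agent.R252.S8w.ListsCode
import Claimed.Agent.R252.S7b.HorGrp
import Claimed.Agent.R252.S7p.Contract

/-!
# ROW 252 (S0492), unit S8-LISTS (post BP-252-S8-LISTS = gap C3 of report 922, helper17; prefix `k8l_` / `K8l`), file 2: THE PRODUCER OF `K7aLists` FOR P8.6.      No `sorry`.

P7.3 (`k7a_P73`) has the comparison lists `K7aLists W (P 0) E ..` as a hypothesis.   In P8.6 (08 l.1060-1075) the true labels of the horizontal problem carry `≤ K` AFFINE entries `L_s` predicting the observable `x` to `K a_s`.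
NO re-run of L7.2 is needed: helper97's exit `k7p_L72 Sh` (S7p/Defs) lives on the abstract record `K7aW` with graph entries `K7pGr W` of an arbitrary class `Sh`.   Here:
* `K8lAff W`, `A.Ok K a h g`    affine entries of the true labels of ANY `K7aW`: `≤ K` per label, fit `K a` at the prepared incidences, slopes `≤ K` in the packet coordinates of the label.
* `A.gr : K7pGr W`, `k8l_gr_ok` they are graph entries of the class `k7pQuad`, stable radius `ρ = 1`, the same slack.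
* `K8lStmt`, `k8l_main : k7p_L72B k7pQuad → K8lStmt`, `k8l_lists : k7a_Match → K8lStmt`         **EXIT**: for every `K7aW` with affine entries and every layer `P` of interval scale `h g ≤ β ≤ g N^τ`: ONE exceptional set `Zx`, `lam0 Zx ≤ N^{-κ}`, with
                                `K7aLists W P (Ev0 \ Zx) (N^τ') (N^{-Mχ}) W.q (N^{-eg}) (W.q N^{-eg})` = verbatim the hypothesis of `k7a_P73` (use `k7w_lists_mono` to pass to `E ⊆ Ev0 \ Zx`).
* `k8l_slopes`                  the slopes in packet coordinates from `K7bHor.Slopes` (horizontal plane `r1 = -cZ`, `r2 = ct`).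
-/

set_option autoImplicit false

namespace Claimed.Agent.R252

open MeasureTheory
open scoped ENNReal BigOperators

noncomputable section

/-! ## 1. Monotonicity of the lists -/

theorem k8l_lists_mono {W : K7aW} {P : K7aLayer W.toK7aLn} {E E' : Set (W.L × ℝ)} {K K' χ qd g m : ℝ} (h : K7aLists W P E K χ qd g m)
    (hE : E' ⊆ E) (hK : K ≤ K') : K7aLists W P E' K' χ qd g m where
  fwd := fun Q mv z D => by
    obtain ⟨S, h1, h2⟩ := h.fwd Q mv z D
    exact ⟨S, h1.trans hK, fun p hp => h2 p (hE hp)⟩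
  bwd := fun φ D => by
    obtain ⟨S, h1, h2⟩ := h.bwd φ D
    exact ⟨S, h1.trans hK, fun p hp => h2 p (hE hp)⟩

/-! ## 2. Affine entries are graph entries of the class of quadratic polynomials -/

/-- **affine entries of the true labels** (data): an entry `(c, α₁, α₂, γ)` is the function `k7bAff : (t, Z, Y) ↦ c + α₁ t + α₂ Z + γ Y` -/
structure K8lAff (W : K7aW) where
  ent : W.Q → Finset (ℝ × ℝ × ℝ × ℝ)
  entOf : W.L × ℝ → ℝ × ℝ × ℝ × ℝ

namespace K8lAff

variable {W : K7aW} (A : K8lAff W)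

/-- slack `K`: fewer than `K` entries per label, fit `K a` at the prepared incidences, total slope `≤ K` in the packet coordinates `((t - t_Q)/h, (Z - Zc)/h, (Y - Y_Q(t,Z))/(h g))` -/
structure Ok (K a h g : ℝ) : Prop where
  one_le : 1 ≤ K
  meas : KsLab A.entOf
  card : ∀ Q, ((A.ent Q).card : ℝ) + 1 ≤ K
  mem : ∀ p ∈ W.Ev0, A.entOf p ∈ A.ent (W.labQ p)
  fit : ∀ p ∈ W.Ev0, |W.X p.1 p.2 - k7bAff (A.entOf p) (W.base p)| ≤ K * a
  slope : ∀ p ∈ W.Ev0, h * |(A.entOf p).2.1 + (A.entOf p).2.2.2 * W.r1 (W.labQ p)| + h * |(A.entOf p).2.2.1 + (A.entOf p).2.2.2 * W.r2 (W.labQ p)|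
    + h * g * |(A.entOf p).2.2.2| ≤ K

open Classical in
/-- the graph entries -/
def gr : K7pGr W where
  Ent := Σ Q : W.Q, Option {L // L ∈ A.ent Q}
  fEnt := inferInstance
  eQ := fun e => e.1
  ent := fun p => ⟨W.labQ p, if h : A.entOf p ∈ A.ent (W.labQ p) then some ⟨_, h⟩ else none⟩
  eF := fun e z => match e.2 with
    | some L => k7bAff L.1 z
    | none => 0

end K8lAff

theorem k8l_aff_meas (L : ℝ × ℝ × ℝ × ℝ) : Measurable (k7bAff L) := by
  unfold k7bAff
  fun_prop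

/-- difference of an affine function in packet coordinates -/
theorem k8l_aff_sub (W : K7aW) (h g : ℝ) (hh : 0 < h) (hg : 0 < g) (Q : W.Q) (L : ℝ × ℝ × ℝ × ℝ) (z z' : ℝ × ℝ × ℝ) :
    k7bAff L z - k7bAff L z' = h * (L.2.1 + L.2.2.2 * W.r1 Q) * ((k7pPk W h g Q z).1 - (k7pPk W h g Q z').1)
      + h * (L.2.2.1 + L.2.2.2 * W.r2 Q) * ((k7pPk W h g Q z).2.1 - (k7pPk W h g Q z').2.1)
      + h * g * L.2.2.2 * ((k7pPk W h g Q z).2.2 - (k7pPk W h g Q z').2.2) := by
  simp only [k7bAff, k7pPk, K7aW.YQ]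
  field_simp
  ring

theorem k8l_aff_lip (W : K7aW) (h g K : ℝ) (hh : 0 < h) (hg : 0 < g) (Q : W.Q) (L : ℝ × ℝ × ℝ × ℝ)
    (hL : h * |L.2.1 + L.2.2.2 * W.r1 Q| + h * |L.2.2.1 + L.2.2.2 * W.r2 Q| + h * g * |L.2.2.2| ≤ K) (z z' : ℝ × ℝ × ℝ) :
    |k7bAff L z - k7bAff L z'| ≤ K * dist (k7pPk W h g Q z) (k7pPk W h g Q z') := by
  rw [k8l_aff_sub W h g hh hg Q L z z']
  obtain ⟨u, hu⟩ : ∃ u, u = k7pPk W h g Q z := ⟨_, rfl⟩
  obtain ⟨u', hu'⟩ : ∃ u', u' = k7pPk W h g Q z' := ⟨_, rfl⟩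
  rw [← hu, ← hu']
  obtain ⟨D, hD⟩ : ∃ D, D = dist u u' := ⟨_, rfl⟩
  rw [← hD]
  have d1 : |u.1 - u'.1| ≤ D := by
    rw [hD, ← Real.dist_eq]
    exact (le_max_left _ _).trans (le_of_eq (Prod.dist_eq).symm)
  have d23 : dist u.2 u'.2 ≤ D := by
    rw [hD]
    exact (le_max_right _ _).trans (le_of_eq (Prod.dist_eq).symm)
  have d2 : |u.2.1 - u'.2.1| ≤ D := by
    rw [← Real.dist_eq]
    exact ((le_max_left _ _).trans (le_of_eq (Prod.dist_eq).symm)).trans d23
  have d3 : |u.2.2 - u'.2.2| ≤ D := by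
    rw [← Real.dist_eq]
    exact ((le_max_right _ _).trans (le_of_eq (Prod.dist_eq).symm)).trans d23
  have hD0 : 0 ≤ D := (abs_nonneg _).trans d1
  have t1 : |h * (L.2.1 + L.2.2.2 * W.r1 Q) * (u.1 - u'.1)| ≤ h * |L.2.1 + L.2.2.2 * W.r1 Q| * D := by
    rw [abs_mul, abs_mul, abs_of_pos hh]
    exact mul_le_mul_of_nonneg_left d1 (by positivity)
  have t2 : |h * (L.2.2.1 + L.2.2.2 * W.r2 Q) * (u.2.1 - u'.2.1)| ≤ h * |L.2.2.1 + L.2.2.2 * W.r2 Q| * D := by
    rw [abs_mul, abs_mul, abs_of_pos hh]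
    exact mul_le_mul_of_nonneg_left d2 (by positivity)
  have t3 : |h * g * L.2.2.2 * (u.2.2 - u'.2.2)| ≤ h * g * |L.2.2.2| * D := by
    rw [abs_mul, abs_mul, abs_mul, abs_of_pos hh, abs_of_pos hg]
    exact mul_le_mul_of_nonneg_left d3 (by positivity)
  calc _ ≤ |h * (L.2.1 + L.2.2.2 * W.r1 Q) * (u.1 - u'.1)| + |h * (L.2.2.1 + L.2.2.2 * W.r2 Q) * (u.2.1 - u'.2.1)|
        + |h * g * L.2.2.2 * (u.2.2 - u'.2.2)| := abs_add_three _ _ _
    _ ≤ (h * |L.2.1 + L.2.2.2 * W.r1 Q| + h * |L.2.2.1 + L.2.2.2 * W.r2 Q| + h * g * |L.2.2.2|) * D := by linarith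
    _ ≤ K * D := mul_le_mul_of_nonneg_right hL hD0

/-- plane sections of an affine function are quadratic polynomials -/
theorem k8l_aff_sheet (L : ℝ × ℝ × ℝ × ℝ) (c A B : ℝ × ℝ × ℝ) : K7aQuad fun t y => k7bAff L (k7pAff c A B t y) := by
  refine ⟨k7bAff L c, L.2.1 * A.1 + L.2.2.1 * A.2.1 + L.2.2.2 * A.2.2, L.2.1 * B.1 + L.2.2.1 * B.2.1 + L.2.2.2 * B.2.2, 0, 0, 0, fun t y => ?_⟩
  simp only [k7bAff, k7pAff, Prod.fst_add, Prod.snd_add, Prod.smul_fst, Prod.smul_snd, smul_eq_mul]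
  ring

/-- the entry of a prepared incidence -/
theorem k8l_gr_ent {W : K7aW} (A : K8lAff W) {p : W.L × ℝ} (h : A.entOf p ∈ A.ent (W.labQ p)) :
    A.gr.ent p = ⟨W.labQ p, some ⟨A.entOf p, h⟩⟩ := by
  simp only [K8lAff.gr, dif_pos h]

theorem k8l_gr_ent_none {W : K7aW} (A : K8lAff W) {p : W.L × ℝ} (h : A.entOf p ∉ A.ent (W.labQ p)) :
    A.gr.ent p = ⟨W.labQ p, none⟩ := by
  simp only [K8lAff.gr, dif_neg h]

/-- the fibre of a sigma type -/
theorem k8l_card_sigma {ι : Type} (β : ι → Type) [∀ i, Fintype (β i)] (i : ι) :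
    Set.ncard {e : Σ i, β i | e.1 = i} = Fintype.card (β i) := by
  have e : {e : Σ i, β i | e.1 = i} = Sigma.mk i '' Set.univ := by
    ext ⟨j, o⟩
    constructor
    · intro h
      have h' : j = i := h
      subst h'
      exact ⟨o, trivial, rfl⟩
    · rintro ⟨o', -, ho⟩
      exact (congrArg Sigma.fst ho).symm
  rw [e, Set.ncard_image_of_injective _ sigma_mk_injective, Set.ncard_univ, Nat.card_eq_fintype_card]

theorem k8l_gr_eF {W : K7aW} (A : K8lAff W) {p : W.L × ℝ} (h : A.entOf p ∈ A.ent (W.labQ p)) :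
    A.gr.eF (A.gr.ent p) = k7bAff (A.entOf p) := by
  rw [k8l_gr_ent A h]
  rfl

/-- **affine entries are graph entries** of the class of quadratic polynomials, with stable radius `1` and the same slack -/
theorem k8l_gr_ok {W : K7aW} (A : K8lAff W) {K a h g : ℝ} (hA : A.Ok K a h g) (hlab : KsLab W.labQ) (hh : 0 < h) (hg : 0 < g) :
    A.gr.Ok k7pQuad K a h g 1 where
  m_ent := by
    classical
    rintro ⟨Q, o⟩
    cases o with
    | some L =>
      have e : A.gr.ent ⁻¹' {⟨Q, some L⟩} = W.labQ ⁻¹' {Q} ∩ A.entOf ⁻¹' {L.1} := by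
        ext p
        simp only [Set.mem_preimage, Set.mem_singleton_iff, Set.mem_inter_iff]
        constructor
        · intro hp
          have h1 : W.labQ p = Q := congrArg Sigma.fst hp
          subst h1
          refine ⟨rfl, ?_⟩
          by_cases hm : A.entOf p ∈ A.ent (W.labQ p)
          · rw [k8l_gr_ent A hm] at hp
            have := eq_of_heq (Sigma.mk.inj hp).2
            have h2 := Option.some.inj this
            exact congrArg Subtype.val h2
          · rw [k8l_gr_ent_none A hm] at hp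
            have := eq_of_heq (Sigma.mk.inj hp).2
            exact absurd this (by simp)
        · rintro ⟨h1, h2⟩
          subst h1
          have hm : A.entOf p ∈ A.ent (W.labQ p) := h2 ▸ L.2
          rw [k8l_gr_ent A hm]
          congr 2
          exact Subtype.ext h2
      rw [e]
      exact (hlab Q).inter (hA.meas _)
    | none =>
      have e : A.gr.ent ⁻¹' {⟨Q, none⟩} = W.labQ ⁻¹' {Q} ∩ (⋃ L ∈ A.ent Q, A.entOf ⁻¹' {L})ᶜ := by
        ext p
        simp only [Set.mem_preimage, Set.mem_singleton_iff, Set.mem_inter_iff, Set.mem_compl_iff, Set.mem_iUnion, exists_prop, not_exists, not_and]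
        constructor
        · intro hp
          have h1 : W.labQ p = Q := congrArg Sigma.fst hp
          subst h1
          refine ⟨rfl, fun L hL hpL => ?_⟩
          have hm : A.entOf p ∈ A.ent (W.labQ p) := hpL ▸ hL
          rw [k8l_gr_ent A hm] at hp
          have := eq_of_heq (Sigma.mk.inj hp).2
          exact absurd this (by simp)
        · rintro ⟨h1, h2⟩
          subst h1
          have hm : A.entOf p ∉ A.ent (W.labQ p) := fun hm => h2 _ hm rfl
          exact k8l_gr_ent_none A hm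
      rw [e]
      exact (hlab Q).inter (Finset.measurableSet_biUnion _ fun L _ => hA.meas L).compl
  m_eF := by
    rintro ⟨Q, o⟩
    cases o with
    | some L => exact k8l_aff_meas L.1
    | none => exact measurable_const
  ρ_pos := one_pos
  ρ_le := le_rfl
  ρ_lo := by
    rw [mul_one]
    exact hA.one_le
  lab := fun p _ => rfl
  card := fun Q => by
    have h := k8l_card_sigma (fun Q : W.Q => Option {L // L ∈ A.ent Q}) Q
    rw [Fintype.card_option, Fintype.card_coe] at h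
    have h2 : Set.ncard {e : A.gr.Ent | A.gr.eQ e = Q} = (A.ent Q).card + 1 := h
    rw [h2]
    push_cast
    exact hA.card Q
  fit := fun p hp => by
    rw [k8l_gr_eF A (hA.mem p hp)]
    exact hA.fit p hp
  lip := fun p hp z _ z' _ => by
    rw [k8l_gr_eF A (hA.mem p hp)]
    exact k8l_aff_lip W h g K hh hg _ _ (hA.slope p hp) z z'
  sheet := fun p hp c Av B _ => by
    rw [k8l_gr_eF A (hA.mem p hp)]
    exact k8l_aff_sheet _ c Av B

/-! ## 3. The exit -/

/-- **EXIT of the unit S8-LISTS: the comparison lists of P7.3 for a record with affine entries.**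
Exponents as in `k7a_P73` / `k7p_L72`: `a = N^{-s}`, `h = N^{-eh}`, `g = N^{-eg}`, `χ = N^{-Mχ}`; UNIFORM in the interval scale `h g ≤ β ≤ g N^τ`.   The interval scale is not smaller than `b = h g` (in P7.3: `b/β_min ≤ N^{-(C_d+3)u}`), so the domains of L7.2 are the true blocks.
Output: ONE exceptional set of prepared mass `≤ N^{-κ}`; off it the lists have size `≤ N^{τ'}`. -/
def K8lStmt : Prop :=
  ∀ (d S s eh eg : ℝ), 0 ≤ d → d < 1 → 0 < S → 0 < s → 0 < eh → 0 < eg →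
    ∃ Mχ0 : ℝ, ∀ Mχ : ℝ, Mχ0 ≤ Mχ → ∃ M0 : ℝ, ∀ τ' : ℝ, 0 < τ' → ∃ (κ τ N1 : ℝ) (Ms Ws : Finset ℝ), 0 < κ ∧ 0 < τ ∧
      (∀ M' ∈ Ms, 0 ≤ M' ∧ M' ≤ M0) ∧ (∀ r ∈ Ws, 0 ≤ r ∧ r ≤ M0) ∧ ∀ N : ℝ, N1 ≤ N →
      ∀ (W : K7aW) (A : K8lAff W) (P : K7aLayer W.toK7aLn) (β : ℝ),
        W.Ok N (N ^ τ) d S (N ^ (-s)) (N ^ (-eh)) (N ^ (-eg)) Ms Ws → W.χ0 ≤ N ^ (-Mχ) →
        A.Ok (N ^ τ) (N ^ (-s)) (N ^ (-eh)) (N ^ (-eg)) →
        P.Ok (N ^ τ) (N ^ (-Mχ)) (N ^ (-s)) β d → N ^ (-eh) * N ^ (-eg) ≤ β → β ≤ N ^ (-eg + τ) →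
        ∃ Zx : Set (W.L × ℝ), MeasurableSet Zx ∧ W.lam0 Zx ≤ ENNReal.ofReal (N ^ (-κ)) ∧
          K7aLists W P (W.Ev0 \ Zx) (N ^ τ') (N ^ (-Mχ)) W.q (N ^ (-eg)) (W.q * N ^ (-eg))

/-- **Lemma 7.2 for the class of quadratic polynomials gives the lists of P8.6** -/
theorem k8l_main (h72 : k7p_L72B k7pQuad) : K8lStmt := by
  intro d S s eh eg hd0 hd1 hS hs heh heg
  obtain ⟨Mχ0, h1⟩ := h72 d S s eh eg (eh + eg) hd0 hd1 hS hs heh heg (by linarith)
  refine ⟨Mχ0, fun Mχ hMχ => ?_⟩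
  obtain ⟨M0, h1⟩ := h1 Mχ hMχ
  refine ⟨M0, fun τ' hτ' => ?_⟩
  obtain ⟨κ, τ, N1, Ms, Ws, hκ, hτ, hMs, hWs, h2⟩ := h1 τ' hτ'
  refine ⟨κ, τ, max N1 1, Ms, Ws, hκ, hτ, hMs, hWs, fun N hN W A P β hW hχ0 hA hP hb hβ2 => ?_⟩
  have hN1 : N1 ≤ N := (le_max_left _ _).trans hN
  have hN' : (1 : ℝ) ≤ N := (le_max_right _ _).trans hN
  have hN0 : (0 : ℝ) < N := by linarith
  have hh : 0 < N ^ (-eh) := Real.rpow_pos_of_pos hN0 _
  have hg : 0 < N ^ (-eg) := Real.rpow_pos_of_pos hN0 _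
  have hq : (1 / 2 : ℝ) ^ W.lev = W.q := rfl
  have hmin : min (N ^ (-eh)) (β / N ^ (-eg)) = N ^ (-eh) := by
    apply min_eq_left
    rw [le_div_iff₀ hg]
    exact hb
  have hβ1 : N ^ (-(eh + eg)) ≤ β := by
    rw [neg_add, Real.rpow_add hN0]
    exact hb
  obtain ⟨Zx, hZ1, hZ2, hZ3⟩ := h2 N hN1 W A.gr 1 P β W.lev hW hχ0 (k8l_gr_ok A hA hW.m_labQ hh hg) hP hβ1 hβ2 le_rfl
    (by
      rw [hmin, hq, Real.rpow_neg hN0.le, inv_mul_le_iff₀ (Real.rpow_pos_of_pos hN0 _)]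
      exact hW.q_lo)
    (by
      rw [hmin, hq]
      exact hW.q_hi)
  rw [hq] at hZ3
  exact ⟨Zx, hZ1, hZ2, hZ3⟩

/-- **the lists of P8.6 from Cor 3.4 for quadratic polynomials** (through `k7p_L72B_of`, unit S7p) -/
theorem k8l_lists (hM : k7a_Match) : K8lStmt :=
  k8l_main (k7p_L72B_of k7pQuad 6 37 (k7p_match_quad.1 hM) k8l_code_quad)

/-! ## 4. The slopes of the affine entries of the horizontal problem in packet coordinates -/

/-- **from `K7bHor.Slopes` to the field `K8lAff.Ok.slope`** (08 l.1063-1069).   The plane of a true label of the horizontal problem is the horizontal plane at its centre: `r1 = -cZ`, `r2 = ct`; `g = h`.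
`(α₁, α₂, γ)` = slopes of the entry, `(t, Z)` = an occurrence in the box: `|t - ct| ≤ K h`, `|Z - cZ| ≤ K h`; `σ = 1 + a/h`, `σ₂ = 1 + a/h²` are the bounds of (a06:affine-slope-bounds). -/
theorem k8l_slopes {K a h α1 α2 γ t Z ct cZ : ℝ} (hK : 1 ≤ K) (ha : 0 ≤ a) (ha1 : a ≤ 1) (hh : 0 < h) (hh1 : h ≤ 1)
    (ht : |t - ct| ≤ K * h) (hZ : |Z - cZ| ≤ K * h)
    (h1 : |α1 + γ * (-Z)| ≤ K * (1 + a / h)) (h2 : |α2 + γ * t| ≤ K * (1 + a / h)) (h3 : |γ| ≤ K * (1 + a / h ^ 2)) :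
    h * |α1 + γ * (-cZ)| + h * |α2 + γ * ct| + h * h * |γ| ≤ 10 * K ^ 2 := by
  have hK2 : K ≤ K ^ 2 := by nlinarith
  have e1 : h * (K * (1 + a / h)) = K * (h + a) := by
    field_simp
  have e3 : h * h * (K * (1 + a / h ^ 2)) = K * (h ^ 2 + a) := by
    field_simp
  have hh2 : h ^ 2 ≤ 1 := pow_le_one₀ hh.le hh1
  -- `h² |γ| ≤ 2K`
  have g3 : h * h * |γ| ≤ 2 * K := by
    calc h * h * |γ| ≤ h * h * (K * (1 + a / h ^ 2)) := mul_le_mul_of_nonneg_left h3 (by positivity)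
      _ = K * (h ^ 2 + a) := e3
      _ ≤ K * 2 := mul_le_mul_of_nonneg_left (by linarith) (by linarith)
      _ = 2 * K := by ring
  have g1 : h * |α1 + γ * (-cZ)| ≤ 2 * K + 2 * K ^ 2 := by
    have : α1 + γ * (-cZ) = (α1 + γ * (-Z)) + γ * (Z - cZ) := by ring
    rw [this]
    calc h * |(α1 + γ * (-Z)) + γ * (Z - cZ)| ≤ h * (|α1 + γ * (-Z)| + |γ| * |Z - cZ|) := by
          apply mul_le_mul_of_nonneg_left _ hh.le
          rw [← abs_mul]
          exact abs_add_le _ _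
      _ ≤ h * (K * (1 + a / h)) + h * (|γ| * (K * h)) := by
          rw [mul_add]
          exact add_le_add (mul_le_mul_of_nonneg_left h1 hh.le)
            (mul_le_mul_of_nonneg_left (mul_le_mul_of_nonneg_left hZ (abs_nonneg _)) hh.le)
      _ = K * (h + a) + K * (h * h * |γ|) := by rw [e1]; ring
      _ ≤ K * 2 + K * (2 * K) := add_le_add (mul_le_mul_of_nonneg_left (by linarith) (by linarith))
            (mul_le_mul_of_nonneg_left g3 (by linarith))
      _ = 2 * K + 2 * K ^ 2 := by ring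
  have g2 : h * |α2 + γ * ct| ≤ 2 * K + 2 * K ^ 2 := by
    have : α2 + γ * ct = (α2 + γ * t) + γ * (-(t - ct)) := by ring
    rw [this]
    calc h * |(α2 + γ * t) + γ * (-(t - ct))| ≤ h * (|α2 + γ * t| + |γ| * |t - ct|) := by
          apply mul_le_mul_of_nonneg_left _ hh.le
          rw [← abs_neg (t - ct), ← abs_mul]
          exact abs_add_le _ _
      _ ≤ h * (K * (1 + a / h)) + h * (|γ| * (K * h)) := by
          rw [mul_add]
          exact add_le_add (mul_le_mul_of_nonneg_left h2 hh.le)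
            (mul_le_mul_of_nonneg_left (mul_le_mul_of_nonneg_left ht (abs_nonneg _)) hh.le)
      _ = K * (h + a) + K * (h * h * |γ|) := by rw [e1]; ring
      _ ≤ K * 2 + K * (2 * K) := add_le_add (mul_le_mul_of_nonneg_left (by linarith) (by linarith))
            (mul_le_mul_of_nonneg_left g3 (by linarith))
      _ = 2 * K + 2 * K ^ 2 := by ring
  nlinarith

end

end Claimed.Agent.R252
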