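-- KEEP
import Claimed.Agent.R252.S8w.Lists
import Claimed.Agent.R252.S8w.AdaptDefs

/-!
# ROW 252 (S0492), unit S8-LISTS (helper17; prefix `k8l_`), file 3: the affine entries of the horizontal problem on helper55's record `k8aW`.      No `sorry`.

`k8lAffH H c s Kb lev Ev0 : K8lAff (k8aW H c s Kb lev Ev0)` = the entries `H.ent`, `H.entOf s`;   `k8l_affH_ok` : `H.Ok c K`, `Ev0 ⊆ H.Sp`, `H.Slopes c K Ev0`  `⟹`  `.Ok K' (c.a s) (c.h s) (c.h s)` for every `K' ≥ 10 K²`.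
With `k8l_lists` (file 2) and `k8a_ok` (helper55) this gives the hypothesis `K7aLists` of `k7a_P73` in the proof of `K8wHFin`.
-/

set_option autoImplicit false

namespace Claimed.Agent.R252

open MeasureTheory
open scoped ENNReal BigOperators

noncomputable section

/-- the affine entries of depth `s` -/
def k8lAffH (H : K7bHor) (c : K7bPar) (s Kb : ℝ) (lev : ℕ) (Ev0 : Set (H.Lam × ℝ)) : K8lAff (k8aW H c s Kb lev Ev0) where
  ent := H.ent
  entOf := H.entOf s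

theorem k8l_affH_ok {H : K7bHor} {c : K7bPar} {K K' s Kb : ℝ} {lev : ℕ} {Ev0 : Set (H.Lam × ℝ)} (hH : H.Ok c K) (hK : 1 ≤ K)
    (hK' : 10 * K ^ 2 ≤ K') (hN : 1 ≤ c.N) (hk : 0 ≤ c.k) (hs0 : 0 ≤ s) (hs : s ∈ c.G) (hE : Ev0 ⊆ H.Sp) (hSl : H.Slopes c K Ev0) :
    (k8lAffH H c s Kb lev Ev0).Ok K' (c.a s) (c.h s) (c.h s) := by
  have hN0 : (0 : ℝ) < c.N := by linarith
  have hK2 : K ≤ K ^ 2 := by nlinarith
  have ha0 : 0 < c.a s := Real.rpow_pos_of_pos hN0 _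
  have ha1 : c.a s ≤ 1 := Real.rpow_le_one_of_one_le_of_nonpos hN (by linarith)
  have hh0 : 0 < c.h s := Real.rpow_pos_of_pos hN0 _
  have hh1 : c.h s ≤ 1 := Real.rpow_le_one_of_one_le_of_nonpos hN (by
    have : 0 ≤ c.k * s := mul_nonneg hk hs0
    linarith)
  refine ⟨by nlinarith, hH.ment s hs, fun Q => ?_, fun p hp => hH.entmem s hs p (hE hp), fun p hp => ?_, fun p hp => ?_⟩
  · have := hH.entcard Q
    show ((H.ent Q).card : ℝ) + 1 ≤ K'
    nlinarith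
  · have hl := hH.labmem s hs p (hE hp)
    have hf := hH.entfit s hs p (hE hp) p.2 hl.2.1
    show |(k8aLn H c Kb Ev0).X p.1 p.2 - k7bAff (H.entOf s p) ((k8aLn H c Kb Ev0).base p)| ≤ K' * c.a s
    rw [k8a_X, k8a_base]
    refine hf.trans (mul_le_mul_of_nonneg_right ?_ ha0.le)
    nlinarith
  · have hl := hH.labmem s hs p (hE hp)
    have hb := hH.box s hs _ hl.1 p.1 hl.2.2 p.2 hl.2.1
    obtain ⟨s1, s2, s3⟩ := hSl s hs p hp
    have := k8l_slopes (K := K) (a := c.a s) (h := c.h s) (α1 := (H.entOf s p).2.1) (α2 := (H.entOf s p).2.2.1)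
      (γ := (H.entOf s p).2.2.2) (t := p.2) (Z := H.Zt p.1 p.2) (ct := H.ct (H.lab s p)) (cZ := H.cZ (H.lab s p))
      hK ha0.le ha1 hh0 hh1 hb.1 hb.2.1 s1 s2 s3
    exact this.trans hK'

end

end Claimed.Agent.R252
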