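-- KEEP
import Claimed.Agent.R252.S8w.Main
import Claimed.Agent.R252.S8w.ListsHor
import Claimed.Agent.R252.S8w.AdaptLay
import Claimed.Agent.R252.S7a.WideGlue
import Claimed.Agent.R252.S8.Prep

/-!
# Row 252, Sec. 8, P8.6, S4-S6 (08 l.1041-1095): THE HUB `K8wHFin`      (glue helper17; prefix `k8g_`)      no sorry

`k8g_fin : k7a_P73 → K8lStmt → K8wHFin`.
1. `k8_prep` (S7b slopes in hub form) on the current selection, the three layers are carried by the frame rule.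
2. `Ev0 :=` prepared part of the CURRENT selection (`k8a_pre_exists`), `W := k8aW H c s K lev Ev0`, `W.Ok` by `k8a_ok`.
3. the floors stored in `H.Sp` give only the BUDGET `∑_φ w_φ ≤ K lam (Sp) ≤ K²`; the labels which are light in `Ev0` are pruned (`k8g_refloor`).
4. lists: `K8lStmt` for the affine entries `k8lAffH` (`k8l_affH_ok`), exceptional set of mass `≤ N^(-κ)`.
5. `k7a_P73`, `k8a_return`.
Exponents of P7.3: `s = e.s`, `u = e.u`, `c₂ = e.c2`, `eh = eg = k s`, `B_i = 2 k s₀`.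
-/

set_option autoImplicit false

namespace Claimed.Agent.R252

open MeasureTheory
open scoped ENNReal BigOperators

/-- the exponent inequalities of P7.3 -/
theorem k8g_exp {x : K8Exp} {e : K8wE} (hx : x.Ok) (he : e.Ok x) :
    0 < e.s ∧ 0 < x.k * e.s ∧ x.k * e.s ≤ 2 * x.k * e.s0 ∧
      (10 / (1 - x.d) + 3) * e.u ≤ x.k * e.s + x.k * e.s - 2 * x.k * e.s0 ∧
      (10 / (1 - x.d) + 3) * e.u ≤ x.k * e.s + 2 * x.k * e.s0 - 2 * x.k * e.s0 ∧ e.s ≤ x.R := by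
  have hk := hx.k0
  have h0 := he.s0
  have h1 := he.δ0
  have h2 := he.u0
  have h3 := he.top
  have h4 := he.wide
  have h5 := he.R
  have hs : 0 < e.s := h0.trans h1
  have p1 : 0 < x.k * (e.s - e.s0) := mul_pos hk (by linarith)
  have p2 : 0 < x.k * e.s0 := mul_pos hk h0
  have p3 : 0 < x.k * (2 * e.s0 - e.s) := mul_pos hk (by linarith)
  refine ⟨hs, mul_pos hk hs, by nlinarith, by nlinarith, by nlinarith, by linarith⟩

theorem K8Cand.mono {H : K7bHor} {c : K7bPar} {K K' s g : ℝ} {E E' : Set (H.Lam × ℝ)} {q : H.Q} {P : MvPolynomial (Fin 3) ℝ}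
    {Cn : Set (H.Lam × ℝ)} (hc : c.WF) (h : K8Cand H c K s g E q P Cn) (hK : K ≤ K') (hE : E ⊆ E') : K8Cand H c K' s g E' q P Cn :=
  { h with
    sub := h.sub.trans hE
    fit := fun z hz t ht => (h.fit z hz t ht).trans (mul_le_mul_of_nonneg_right hK
      (Real.rpow_nonneg (le_trans zero_le_one hc.N1) _))
    mass := h.mass.trans (mul_le_mul' (ENNReal.ofReal_le_ofReal hK) le_rfl) }

/-- **pruning of the labels which are light in the prepared selection** (`k8a_refloor`, `k8a_lay_ok` of helper55).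
The floors stored in `H.Sp` are used only as a budget; the good labels have the floor `12 K³` inside `Ev0`. -/
theorem k8g_refloor {H : K7bHor} {c : K7bPar} {K s : ℝ} {lev : ℕ} {Ev0 : Set (H.Lam × ℝ)} (hI : K8aIn H c K s) (hP : K8aPre H c K s lev Ev0)
    (hm : ENNReal.ofReal (1 / (2 * K)) ≤ H.lam Ev0) {Mχ β : ℝ} (hβ : 0 ≤ β) {th : Fin 3 → ℝ} (hth : ∀ i, 0 ≤ th i) (P : Fin 3 → K8wLay H)
    (hL : ∀ i, (P i).Ok (k8wCo c Mχ) K (th i) β) (hdef : ∀ z ∈ Ev0, ∀ i, (P i).lab z.1 ≠ none) :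
    ∃ (P' : Fin 3 → K7aLayer (k8aLn H c K Ev0)) (E2 : Set (H.Lam × ℝ)), E2 ⊆ Ev0 ∧ MeasurableSet E2 ∧
      ENNReal.ofReal (1 / (4 * K)) ≤ H.lam E2 ∧ (∀ i, (P' i).Ok (12 * K ^ 3) (c.N ^ (-Mχ)) (th i) β c.d) ∧
      ∀ z ∈ E2, ∀ i, (P' i).lab z.1 ≠ none := by
  have hK1 := hI.K1
  obtain ⟨G, E2, h1, h2, h3, h4, h5⟩ := k8a_refloor hI hP hm P (fun i => (hL i).meas)
    (fun i φ => ENNReal.ofReal ((k8wCo c Mχ).χ * th i ^ c.d * β) * H.pal (k7bIv (k8wCo c Mχ).χ ((P i).vi φ)))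
    (fun i φ => (hL i).floor φ)
  refine ⟨fun i => k8aLay c K Ev0 (P i) (G i), E2, h1, h2, h3, fun i => ?_, fun z hz i => ?_⟩
  · refine k8a_lay_ok hI hP (P i) (G i) le_rfl ?_ (hth i) hβ ⟨(hL i).meas, (hL i).grp, (hL i).quad, (hL i).norm, (hL i).fit⟩ (h4 i)
    have : K ≤ K ^ 3 := by
      calc K = K ^ 1 := (pow_one K).symm
        _ ≤ K ^ 3 := pow_le_pow_right₀ hK1 (by norm_num)
    have h0 : 0 ≤ K ^ 3 := by positivity
    linarith
  · obtain ⟨φ, hφ⟩ := Option.ne_none_iff_exists'.1 (hdef z (h1 hz) i)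
    exact k8a_lay_ne K (P i) (G i) z.1 hφ (h5 z hz i φ hφ)

/-- the finest meshes are below every required mesh -/
theorem k8g_mesh {N m M M0 M' : ℝ} (hN : 2 ≤ N) (hm : m < 2 * N ^ (-M)) (hM : M0 + 1 ≤ M) (hM' : M' ≤ M0) : m ≤ N ^ (-M') := by
  have hN0 : 0 < N := by linarith
  have h1 : N ^ (-M) ≤ N ^ (-M' - 1) := Real.rpow_le_rpow_of_exponent_le (by linarith) (by linarith)
  have h2 : N ^ (-M' - 1) = N ^ (-M') / N := by rw [Real.rpow_sub hN0, Real.rpow_one]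
  have h3 : 0 < N ^ (-M') := Real.rpow_pos_of_pos hN0 _
  have h4 : 2 * (N ^ (-M') / N) ≤ N ^ (-M') := by
    rw [← mul_div_assoc, div_le_iff₀ hN0]
    nlinarith
  linarith

/-- all constants are absorbed -/
theorem k8g_big {N K σ : ℝ} (hσ : 0 < σ) (hN : 1 ≤ N) (hN' : (1000 : ℝ) ^ (2 / σ) ≤ N) (hK1 : 1 ≤ K) (hK : K ≤ N ^ (σ / 40)) :
    1000 * K ^ 20 ≤ N ^ σ := by
  have hN0 : 0 < N := by linarith
  have hC : (1000 : ℝ) ≤ N ^ (σ / 2) := by
    calc (1000 : ℝ) = ((1000 : ℝ) ^ (2 / σ)) ^ (σ / 2) := by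
          rw [← Real.rpow_mul (by norm_num)]
          have : 2 / σ * (σ / 2) = 1 := by field_simp
          rw [this, Real.rpow_one]
      _ ≤ N ^ (σ / 2) := Real.rpow_le_rpow (by positivity) hN' (by positivity)
  have hK20 : K ^ 20 ≤ N ^ (σ / 2) := by
    calc K ^ 20 ≤ (N ^ (σ / 40)) ^ 20 := pow_le_pow_left₀ (by linarith) hK 20
      _ = N ^ (σ / 2) := by
        rw [← Real.rpow_natCast, ← Real.rpow_mul hN0.le]
        congr 1
        push_cast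
        ring
  calc _ ≤ N ^ (σ / 2) * N ^ (σ / 2) := mul_le_mul hC hK20 (by positivity) (by positivity)
    _ = N ^ σ := by
      rw [← Real.rpow_add hN0]
      congr 1
      ring

/-- **the hub with the slopes as a hypothesis** -/
theorem k8g_core (h73 : k7a_P73) (hL : K8lStmt) (x : K8Exp) (hx : x.Ok) (e : K8wE) (he : e.Ok x) :
    ∃ Mχ0 : ℝ, ∀ Mχ : ℝ, Mχ0 ≤ Mχ → ∃ M0 : ℝ, Mχ + 1 ≤ M0 ∧
      K8HubAt x M0 (A := fun H => Fin 3 → K8wLay H) (fun H P c K E => K8wFinH e Mχ H P c K E ∧ H.Slopes c K E)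
        (fun H _ c K E => ∃ q P Cn, K8Cand H c K e.s e.c2 E q P Cn) := by
  obtain ⟨hs0, hks, hB1, hB2, hB3, hsR⟩ := k8g_exp hx he
  have hks0 : x.k * e.s0 ≤ x.k * e.s := mul_le_mul_of_nonneg_left he.δ0.le hx.k0.le
  obtain ⟨Mχa, A⟩ := h73 x.d x.S e.s e.u e.c2 (x.k * e.s) (x.k * e.s) (fun _ => 2 * x.k * e.s0) hx.d0 hx.d1 hx.S0 hs0 he.u0 he.c20
    he.c2u hks hks (fun _ => hB1) (fun _ => hB2) (fun _ _ => hB3)
  obtain ⟨Mχb, B⟩ := hL x.d x.S e.s (x.k * e.s) (x.k * e.s) hx.d0 hx.d1 hx.S0 hs0 hks hks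
  refine ⟨max Mχa Mχb, fun Mχ hMχ => ?_⟩
  obtain ⟨M0a, A⟩ := A Mχ ((le_max_left _ _).trans hMχ)
  obtain ⟨M0b, B⟩ := B Mχ ((le_max_right _ _).trans hMχ)
  refine ⟨max (max M0a M0b) Mχ + 1, by linarith [le_max_right (max M0a M0b) Mχ], ?_⟩
  intro M m1 m2 m3 τ hτ
  obtain ⟨τa, N1a, Msa, Wsa, hτa, hMsa, hWsa, A⟩ := A (τ / 2) (by positivity)
  obtain ⟨κ, τb, N1b, Msb, Wsb, hκ, hτb, hMsb, hWsb, B⟩ := B τa hτa
  obtain ⟨σ, hσ⟩ : ∃ σ, σ = min (min τa τb) (min κ (τ / 2)) := ⟨_, rfl⟩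
  have hσ0 : 0 < σ := by
    rw [hσ]
    exact lt_min (lt_min hτa hτb) (lt_min hκ (by positivity))
  have hσa : σ ≤ τa := by rw [hσ]; exact (min_le_left _ _).trans (min_le_left _ _)
  have hσb : σ ≤ τb := by rw [hσ]; exact (min_le_left _ _).trans (min_le_right _ _)
  have hσκ : σ ≤ κ := by rw [hσ]; exact (min_le_right _ _).trans (min_le_left _ _)
  have hστ : σ ≤ τ / 2 := by rw [hσ]; exact (min_le_right _ _).trans (min_le_right _ _)
  refine ⟨{e.s}, σ / 40, max (max N1a N1b) (max 2 ((1000 : ℝ) ^ (2 / σ))), by positivity, ?_, ?_⟩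
  · intro s hs
    rw [Finset.mem_singleton] at hs
    subst hs
    exact ⟨hs0.le, hsR⟩
  rintro H P c K E hA hI hK ⟨hF, hSl⟩
  have hc := hA.wf
  have hK1 := hI.K1
  have hK0 : 0 < K := by linarith
  have hNa : N1a ≤ c.N := ((le_max_left _ _).trans (le_max_left _ _)).trans hA.hN
  have hNb : N1b ≤ c.N := ((le_max_right _ _).trans (le_max_left _ _)).trans hA.hN
  have hN2 : 2 ≤ c.N := ((le_max_left _ _).trans (le_max_right _ _)).trans hA.hN
  have hNC : (1000 : ℝ) ^ (2 / σ) ≤ c.N := ((le_max_right _ _).trans (le_max_right _ _)).trans hA.hN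
  have hN1 : 1 ≤ c.N := by linarith
  have hN0 : 0 < c.N := by linarith
  have hbig := k8g_big hσ0 hN1 hNC hK1 hK
  have hpw : ∀ (C : ℝ) (n : ℕ), 0 ≤ C → C ≤ 1000 → n ≤ 20 → C * K ^ n ≤ c.N ^ σ := by
    intro C n hC0 hC hn
    refine le_trans ?_ hbig
    exact mul_le_mul hC (pow_le_pow_right₀ hK1 hn) (by positivity) (by norm_num)
  have hup : ∀ {σ' : ℝ}, σ ≤ σ' → c.N ^ σ ≤ c.N ^ σ' := fun h => Real.rpow_le_rpow_of_exponent_le hN1 h
  have hsG : e.s ∈ c.G := hA.hG (Finset.mem_singleton_self _)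
  have hIn : K8aIn H c K e.s := ⟨hc, hA.dy, hK1, hI.ok, hsG⟩
  obtain ⟨lev, Ev0, hEv0E, hRes0, hPre, _⟩ := k8a_pre_exists hIn hI.res
  have hne : Ev0.Nonempty := by
    by_contra hcon
    rw [Set.not_nonempty_iff_eq_empty] at hcon
    have h1 := hRes0.mass
    rw [hcon, measure_empty, nonpos_iff_eq_zero, ENNReal.ofReal_eq_zero] at h1
    have : 0 < 1 / (2 * K) := by positivity
    linarith
  -- the meshes
  have hMM : max M0a M0b + 1 ≤ max (max M0a M0b) Mχ + 1 := by linarith [le_max_left (max M0a M0b) Mχ]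
  have hξ : ∀ M' : ℝ, M' ≤ max M0a M0b → c.ξ ≤ c.N ^ (-M') := fun M' h => k8g_mesh hN2 hA.hξ.2 (hMM.trans m1) h
  have hχ : ∀ M' : ℝ, M' ≤ max (max M0a M0b) Mχ → c.χ ≤ c.N ^ (-M') := fun M' h => k8g_mesh hN2 hA.hχ.2 m2 h
  have hϱ : ∀ M' : ℝ, M' ≤ max M0a M0b → c.ϱ ≤ c.N ^ (-M') := fun M' h => k8g_mesh hN2 hA.hϱ.2 (hMM.trans m3) h
  -- the scales
  have ea : c.a e.s = c.N ^ (-e.s) := rfl
  have eh : c.h e.s = c.N ^ (-(x.k * e.s)) := by unfold K7bPar.h; rw [hA.hk]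
  have ea1 : c.a (e.s + e.u) = c.N ^ (-e.s - e.u) := by unfold K7bPar.a; rw [neg_add']
  have ea2 : c.a (e.s + e.c2) = c.N ^ (-e.s - e.c2) := by unfold K7bPar.a; rw [neg_add']
  have eD : e.D c = c.N ^ (-(2 * x.k * e.s0)) := by
    unfold K8wE.D K7bPar.a
    rw [← Real.rpow_mul hN0.le, hA.hk]
    congr 1
    ring
  have hD0 : 0 < e.D c := by rw [eD]; exact Real.rpow_pos_of_pos hN0 _
  -- the record
  have hWa := k7w_w_mono (k8a_ok hIn hPre hne Msa Wsa (fun M' h => hξ M' ((hMsa M' h).2.trans (le_max_left _ _)))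
    (fun r h => ⟨(hWsa r h).1, hϱ r ((hWsa r h).2.trans (le_max_left _ _))⟩)) hN0.le ((hpw 100 8 (by norm_num) (by norm_num) (by norm_num)).trans (hup hσa))
    (Real.rpow_nonneg hN0.le _) (Real.rpow_nonneg hN0.le _) (Real.rpow_nonneg hN0.le _) subset_rfl subset_rfl
  have hWb := k7w_w_mono (k8a_ok hIn hPre hne Msb Wsb (fun M' h => hξ M' ((hMsb M' h).2.trans (le_max_right _ _)))
    (fun r h => ⟨(hWsb r h).1, hϱ r ((hWsb r h).2.trans (le_max_right _ _))⟩)) hN0.le ((hpw 100 8 (by norm_num) (by norm_num) (by norm_num)).trans (hup hσb))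
    (Real.rpow_nonneg hN0.le _) (Real.rpow_nonneg hN0.le _) (Real.rpow_nonneg hN0.le _) subset_rfl subset_rfl
  rw [ea, eh, hA.hd, hA.hS] at hWa hWb
  -- the layers
  obtain ⟨hF0, hF1, hF2, hFd⟩ := hF
  have hth : ∀ i, 0 ≤ (![c.a e.s, c.a (e.s + e.u), c.a (e.s + e.c2)] : Fin 3 → ℝ) i := by
    intro i
    fin_cases i
    · exact Real.rpow_nonneg hN0.le _
    · exact Real.rpow_nonneg hN0.le _
    · exact Real.rpow_nonneg hN0.le _
  obtain ⟨P', E2, hE2s, hE2m, hE2l, hP'ok, hP'd⟩ := k8g_refloor hIn hPre hRes0.mass (Mχ := Mχ) hD0.le hth P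
    (by
      intro i
      fin_cases i
      · exact hF0
      · exact hF1
      · exact hF2)
    (fun z hz i => hFd z (hEv0E hz) i)
  have h12 : 12 * K ^ 3 ≤ c.N ^ σ := hpw 12 3 (by norm_num) (by norm_num) (by norm_num)
  have hP0 := hP'ok 0
  have hP1 := hP'ok 1
  have hP2 := hP'ok 2
  simp only [Matrix.cons_val_zero, Matrix.cons_val_one, Matrix.cons_val] at hP0 hP1 hP2
  rw [ea, hA.hd] at hP0
  rw [ea1, hA.hd] at hP1
  rw [ea2, hA.hd] at hP2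
  -- the lists
  have hAff := k8l_affH_ok (K' := c.N ^ τb) (Kb := K) (lev := lev) hI.ok hK1
    ((hpw 10 2 (by norm_num) (by norm_num) (by norm_num)).trans (hup hσb)) hN1 hc.k0.le hs0.le hsG hPre.sub
    (fun s hs z hz => hSl s hs z (hEv0E hz))
  rw [ea, eh] at hAff
  obtain ⟨Zx, hZm, hZl, hLs⟩ := B c.N hNb (k8aW H c e.s K lev Ev0) (k8lAffH H c e.s K lev Ev0) (P' 0) (e.D c) hWb
    (hχ Mχ (le_max_right _ _)) hAff (k7w_layer_mono hP0 (h12.trans (hup hσb)) (Real.rpow_nonneg hN0.le _) hD0.le)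
    (by
      rw [eD, ← Real.rpow_add hN0]
      exact Real.rpow_le_rpow_of_exponent_le hN1 (by linarith))
    (by
      rw [eD]
      exact Real.rpow_le_rpow_of_exponent_le hN1 (by linarith))
  -- the current selection
  have hE3s : E2 \ Zx ⊆ Ev0 := Set.sdiff_subset.trans hE2s
  have hE3m : MeasurableSet (E2 \ Zx) := hE2m.diff hZm
  have hE3l : ENNReal.ofReal (1 / (8 * K)) ≤ H.lam (E2 \ Zx) := by
    have h1 : H.lam E2 ≤ H.lam (E2 \ Zx) + H.lam (Zx ∩ Ev0) := by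
      refine (measure_mono ?_).trans (measure_union_le _ _)
      intro z hz
      by_cases hz' : z ∈ Zx
      · exact Or.inr ⟨hz', hE2s hz⟩
      · exact Or.inl ⟨hz, hz'⟩
    have h2 : H.lam (Zx ∩ Ev0) ≤ ENNReal.ofReal (1 / (8 * K)) := by
      refine ((k8a_lam0_le hIn hPre Zx).1.trans hZl).trans (ENNReal.ofReal_le_ofReal ?_)
      rw [Real.rpow_neg hN0.le, ← one_div]
      refine one_div_le_one_div_of_le (by positivity) ?_
      have := (hpw 8 1 (by norm_num) (by norm_num) (by norm_num)).trans (hup hσκ)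
      rwa [pow_one] at this
    have h3 : ENNReal.ofReal (1 / (8 * K)) + ENNReal.ofReal (1 / (8 * K)) ≤ H.lam (E2 \ Zx) + ENNReal.ofReal (1 / (8 * K)) := by
      rw [← ENNReal.ofReal_add (by positivity) (by positivity)]
      have e8 : 1 / (8 * K) + 1 / (8 * K) = 1 / (4 * K) := by field_simp; norm_num
      rw [e8]
      exact hE2l.trans (h1.trans (add_le_add le_rfl h2))
    exact (ENNReal.add_le_add_iff_right ENNReal.ofReal_ne_top).1 h3
  have hE3p : 1 ≤ ENNReal.ofReal (c.N ^ τa) * (k8aW H c e.s K lev Ev0).prior (E2 \ Zx) := by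
    have h1 : ENNReal.ofReal (1 / (8 * K)) ≤ (k8aLn H c K Ev0).prior (E2 \ Zx) := hE3l.trans (k8a_prior_le hIn hPre hE3s).1
    have h2 : (8 * K) ≤ c.N ^ τa := by
      have := (hpw 8 1 (by norm_num) (by norm_num) (by norm_num)).trans (hup hσa)
      rwa [pow_one] at this
    calc (1 : ℝ≥0∞) = ENNReal.ofReal ((8 * K) * (1 / (8 * K))) := by
          rw [mul_one_div_cancel (by positivity), ENNReal.ofReal_one]
      _ = ENNReal.ofReal (8 * K) * ENNReal.ofReal (1 / (8 * K)) := ENNReal.ofReal_mul (by positivity)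
      _ ≤ _ := mul_le_mul' (ENNReal.ofReal_le_ofReal h2) h1
  -- P7.3
  obtain ⟨Q, F, Cn, hQ, hFq, hCm, hCs, hfit, hmass⟩ := A c.N hNa (k8aW H c e.s K lev Ev0) P' (fun _ => e.D c) (E2 \ Zx) hWa
    (hχ M0a ((le_max_left _ _).trans (le_max_left _ _)))
    (fun _ => by
      rw [eD]
      exact ⟨Real.rpow_le_rpow_of_exponent_le hN1 (by linarith), Real.rpow_le_rpow_of_exponent_le hN1 (by linarith)⟩)
    (k7w_layer_mono hP0 (h12.trans (hup hσa)) (Real.rpow_nonneg hN0.le _) hD0.le)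
    (k7w_layer_mono hP1 (h12.trans (hup hσa)) (Real.rpow_nonneg hN0.le _) hD0.le)
    (k7w_layer_mono hP2 (h12.trans (hup hσa)) (Real.rpow_nonneg hN0.le _) hD0.le)
    hE3m hE3s (fun p hp i => hP'd p hp.1 i) hE3p
    (k7w_lists_mono hLs le_rfl (fun z hz => ⟨hE2s hz.1, hz.2⟩))
  rw [← hA.hd] at hmass
  obtain ⟨Pol, hC⟩ := k8a_return hIn hPre hE3s (T := c.N ^ (τ / 2)) (g := e.c2) (Real.one_le_rpow hN1 (by positivity))
    hQ hFq hCm hCs hfit hmass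
  refine ⟨Q, Pol, Cn, hC.mono hc ?_ (Set.sdiff_subset.trans (hE2s.trans hEv0E))⟩
  calc 2 * K ^ 4 * c.N ^ (τ / 2) ≤ c.N ^ (τ / 2) * c.N ^ (τ / 2) :=
        mul_le_mul_of_nonneg_right ((hpw 2 4 (by norm_num) (by norm_num) (by norm_num)).trans (hup hστ)) (Real.rpow_nonneg hN0.le _)
    _ = c.N ^ τ := by
      rw [← Real.rpow_add hN0]
      congr 1
      ring

theorem K8wFinH.mono {e : K8wE} {Mχ : ℝ} {H : K7bHor} {P : Fin 3 → K8wLay H} {c : K7bPar} {K K' : ℝ} {E E' : Set (H.Lam × ℝ)} (hc : c.WF)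
    (hK : K ≤ K') (hE : E' ⊆ E) (h : K8wFinH e Mχ H P c K E) : K8wFinH e Mχ H P c K' E' := by
  have hN0 : 0 ≤ c.N := le_trans zero_le_one hc.N1
  have ha : ∀ s, 0 ≤ c.a s := fun s => Real.rpow_nonneg hN0 _
  have hD : 0 ≤ e.D c := Real.rpow_nonneg (ha _) _
  exact ⟨h.1.mono (ha _) hD hK, h.2.1.mono (ha _) hD hK, h.2.2.1.mono (ha _) hD hK, fun z hz => h.2.2.2 z (hE hz)⟩

/-- **S4-S6 of P8.6**: three wide layers give a candidate -/
theorem k8g_fin (h73 : k7a_P73) (hL : K8lStmt) : K8wHFin := by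
  intro x hx e he
  obtain ⟨Mχ0, h⟩ := k8g_core h73 hL x hx e he
  refine ⟨Mχ0, fun Mχ hM => ?_⟩
  obtain ⟨M0, hM0, hub⟩ := h Mχ hM
  refine ⟨M0, hM0, ?_⟩
  have h1' : K8HubAt x M0 (A := fun H => Fin 3 → K8wLay H) (fun _ _ _ _ _ => True)
      (fun H _ c K E => ∃ E' ⊆ E, H.Res E' (1 / K) ∧ ∃ E₀ : Set (H.Lam × ℝ), K8Prep H c K E₀ E') :=
    K8HubAt.imp (k8_prep x M0) (fun _ _ => ()) (fun _ _ _ _ _ h => h) (fun _ _ _ _ _ _ h => h)
  have h2 := k8_hub_frame (P := fun H P c K E => K8wFinH e Mχ H P c K E)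
    (Mid := fun H _ (E₀ : Set (H.Lam × ℝ)) c K E => K8Prep H c K E₀ E)
    (fun _ _ _ _ _ _ _ hc _ hK hE h => h.mono hc hK hE) h1'
  refine k8_hub_trans (B := fun H => Fin 3 → K8wLay H) (Mid := fun H P c K E => K8wFinH e Mχ H P c K E ∧ H.Slopes c K E) ?_ hub ?_
  · exact K8HubAt.imp h2 (fun _ a => a) (fun _ _ _ _ _ h => ⟨trivial, h⟩)
      (fun H P c K E _ ⟨E', e1, e2, E₀, e3, e4⟩ => ⟨E', e1, e2, P, e4, e3.slopes⟩)
  · rintro H _ _ c K E E' hE ⟨q, P, Cn, h⟩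
    exact ⟨q, P, Cn, { h with sub := h.sub.trans hE }⟩

/-- **S4-S6 of P8.6** from P7.3 and Cor 3.4 for quadratic polynomials -/
theorem k8g_hfin (h73 : k7a_P73) (hM : k7a_Match) : K8wHFin := k8g_fin h73 (k8l_lists hM)

end Claimed.Agent.R252
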