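import Claimed.Agent.R252.S8w.Defs

/-!
# Row 252, Sec. 8, P8.6, step S3 (08 l.1016-1040): SLICES `[p]_χ` AND RETURN TO THE TRUE BASE `(t, Y)`      (helper262; prefix `k8y` / `K8y`)      no sorry

`k8y_lay : K8wHLay`.
A projected label `φ` (group `g = (d₀, P_D)`, baseline predictor `h1`, quadratic `G.F (t, R)`) is cut into the slices `[p]_χ = zi`; representative `p_α = zi χ`, `P^# = (p_α, Y + t p_α)`.
New predictor `F (t, Y) = h1 (t, P^#) + A₀ G.F (t, R^#)`, `R^# = k8wR D g P^# t` (affine in `(t, Y)`).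
New moving centre `cen' t = q_c - t p_α + D G.cen t + 2 t (p_α - p_c)`, chosen so that `R^# (t, cen' t + D r) = G.cen t + r` EXACTLY (no extrapolation of the quadratic is needed for the norm).
Explicit slack: `K ↦ 9 K³` (`k8y_core`).   Light slices (stored mass in `H.Sp` below `χ D a_s^d π(d₀) / (6 K³)`) are deleted: `≤ 3 D / χ` slices per label, `Σ_φ T_φ ≤ K λ(Sp) ≤ K²`, loss `≤ 1 / (2K)`.
-/

set_option autoImplicit false

namespace Claimed.Agent.R252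

open MeasureTheory
open scoped ENNReal BigOperators

noncomputable section

/-! ## 1. Algebra -/

/-- a quadratic polynomial bounded by `K` on `[-1, 1]` is `K (1 + 4ρ)`-Lipschitz on `[-ρ, ρ]` -/
theorem k8y_poly_lip {a0 a1 a2 K ρ : ℝ} (h : ∀ r ∈ Set.Icc (-1 : ℝ) 1, |a0 + a1 * r + a2 * r ^ 2| ≤ K) {r1 r2 : ℝ} (h1 : |r1| ≤ ρ) (h2 : |r2| ≤ ρ) :
    |(a0 + a1 * r1 + a2 * r1 ^ 2) - (a0 + a1 * r2 + a2 * r2 ^ 2)| ≤ K * (1 + 4 * ρ) * |r1 - r2| := by
  have e1 := abs_le.1 (h 1 ⟨by norm_num, le_rfl⟩)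
  have e2 := abs_le.1 (h (-1) ⟨le_rfl, by norm_num⟩)
  have e3 := abs_le.1 (h 0 ⟨by norm_num, by norm_num⟩)
  have hρ : 0 ≤ ρ := (abs_nonneg _).trans h1
  have hK : 0 ≤ K := (abs_nonneg _).trans (h 0 ⟨by norm_num, by norm_num⟩)
  have b1 : |a1| ≤ K := abs_le.2 ⟨by linarith [e1.1, e1.2, e2.1, e2.2], by linarith [e1.1, e1.2, e2.1, e2.2]⟩
  have b2 : |a2| ≤ 2 * K := abs_le.2 ⟨by linarith [e1.1, e1.2, e2.1, e2.2, e3.1, e3.2], by linarith [e1.1, e1.2, e2.1, e2.2, e3.1, e3.2]⟩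
  have e : (a0 + a1 * r1 + a2 * r1 ^ 2) - (a0 + a1 * r2 + a2 * r2 ^ 2) = (a1 + a2 * (r1 + r2)) * (r1 - r2) := by ring
  rw [e, abs_mul]
  refine mul_le_mul_of_nonneg_right ?_ (abs_nonneg _)
  have b3 : |r1 + r2| ≤ 2 * ρ := (abs_add_le _ _).trans (by linarith)
  calc |a1 + a2 * (r1 + r2)| ≤ |a1| + |a2| * |r1 + r2| := by rw [← abs_mul]; exact abs_add_le _ _
    _ ≤ K + 2 * K * (2 * ρ) := add_le_add b1 (mul_le_mul b2 b3 (abs_nonneg _) (by linarith))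
    _ = K * (1 + 4 * ρ) := by ring

/-- the same for a section `y ↦ F t y` of a quadratic -/
theorem k8y_quad_var {F : ℝ → ℝ → ℝ} (hF : K7aQuad F) {t cn K ρ : ℝ} (h : ∀ r ∈ Set.Icc (-1 : ℝ) 1, |F t (cn + r)| ≤ K) {y1 y2 : ℝ}
    (h1 : |y1 - cn| ≤ ρ) (h2 : |y2 - cn| ≤ ρ) : |F t y1 - F t y2| ≤ K * (1 + 4 * ρ) * |y1 - y2| := by
  obtain ⟨e0, e1, e2, e3, e4, e5, hE⟩ := hF
  have key : ∀ r, F t (cn + r) = (e0 + e1 * t + e2 * cn + e3 * t ^ 2 + e4 * t * cn + e5 * cn ^ 2) + (e2 + e4 * t + 2 * e5 * cn) * r + e5 * r ^ 2 := by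
    intro r
    rw [hE]
    ring
  have h' : ∀ r ∈ Set.Icc (-1 : ℝ) 1, |(e0 + e1 * t + e2 * cn + e3 * t ^ 2 + e4 * t * cn + e5 * cn ^ 2) + (e2 + e4 * t + 2 * e5 * cn) * r + e5 * r ^ 2| ≤ K := by
    intro r hr
    rw [← key]
    exact h r hr
  have := k8y_poly_lip h' h1 h2
  rw [← key, ← key] at this
  have a1 : cn + (y1 - cn) = y1 := by ring
  have a2 : cn + (y2 - cn) = y2 := by ring
  have a3 : y1 - cn - (y2 - cn) = y1 - y2 := by ring
  rwa [a1, a2, a3] at this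

theorem k8y_pr_diff (h : K8Pr) (t p q p' q' : ℝ) :
    h.ev t p q - h.ev t p' q' = (h.p0 + h.p1 * t) * (p - p') + (h.q0 + h.q1 * t) * (q - q') := by
  unfold K8Pr.ev
  ring

/-- slopes of a predictor bounded on the doubled box -/
theorem k8y_pr_slopes {h : K8Pr} {t pc qc D K : ℝ} (hD : 0 < D) (hn : ∀ p q : ℝ, |p - pc| ≤ 2 * D → |q - qc| ≤ 2 * D → |h.ev t p q| ≤ K) :
    |h.p0 + h.p1 * t| * D ≤ K ∧ |h.q0 + h.q1 * t| * D ≤ K := by
  have z0 : |pc - pc| ≤ 2 * D := by simp; linarith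
  have z1 : |qc - qc| ≤ 2 * D := by simp; linarith
  have z2 : |pc + 2 * D - pc| ≤ 2 * D := by rw [add_sub_cancel_left, abs_of_pos (by linarith)]
  have z3 : |qc + 2 * D - qc| ≤ 2 * D := by rw [add_sub_cancel_left, abs_of_pos (by linarith)]
  have a0 := abs_le.1 (hn pc qc z0 z1)
  have a1 := abs_le.1 (hn (pc + 2 * D) qc z2 z1)
  have a2 := abs_le.1 (hn pc (qc + 2 * D) z0 z3)
  have d1 := k8y_pr_diff h t (pc + 2 * D) qc pc qc
  have d2 := k8y_pr_diff h t pc (qc + 2 * D) pc qc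
  constructor
  · have : |(h.p0 + h.p1 * t) * D| ≤ K := abs_le.2 ⟨by nlinarith [a0.1, a0.2, a1.1, a1.2], by nlinarith [a0.1, a0.2, a1.1, a1.2]⟩
    rwa [abs_mul, abs_of_pos hD] at this
  · have : |(h.q0 + h.q1 * t) * D| ≤ K := abs_le.2 ⟨by nlinarith [a0.1, a0.2, a2.1, a2.2], by nlinarith [a0.1, a0.2, a2.1, a2.2]⟩
    rwa [abs_mul, abs_of_pos hD] at this

/-! ## 2. The returned label -/

/-- **the returned label** of the slice `zi` of a projected label `(g, h, G)` -/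
def k8yLab (D χ A0 : ℝ) (g : ℤ × ℤ × ℤ) (h : K8Pr) (G : K7aLab) (zi : ℤ) : K7aLab where
  c0 := g.2.2 * D + D * G.c0
  c1 := -(zi * χ) + D * G.c1 + 2 * (zi * χ - g.2.1 * D)
  F := fun t Y => h.ev t (zi * χ) (Y + t * (zi * χ)) + A0 * G.F t (k8wR D g (zi * χ) (Y + t * (zi * χ)) t)

theorem k8y_lab_quad (D χ A0 : ℝ) (g : ℤ × ℤ × ℤ) (h : K8Pr) (G : K7aLab) (zi : ℤ) (hG : K7aQuad G.F) : K7aQuad (k8yLab D χ A0 g h G zi).F := by
  obtain ⟨e0, e1, e2, e3, e4, e5, hE⟩ := hG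
  set pa : ℝ := zi * χ with hpa
  set r0 : ℝ := -(g.2.2 * D) / D with hr0
  set r1 : ℝ := (pa - 2 * (pa - g.2.1 * D)) / D with hr1
  set r2 : ℝ := 1 / D with hr2
  have hR : ∀ t Y : ℝ, k8wR D g pa (Y + t * pa) t = r0 + r1 * t + r2 * Y := by
    intro t Y
    unfold k8wR
    rw [hr0, hr1, hr2]
    ring
  refine ⟨h.c0 + h.p0 * pa + A0 * (e0 + e2 * r0 + e5 * r0 ^ 2), h.c1 + h.p1 * pa + h.q0 * pa + A0 * (e1 + e2 * r1 + e4 * r0 + 2 * e5 * r0 * r1),
    h.q0 + A0 * (e2 * r2 + 2 * e5 * r0 * r2), h.q1 * pa + A0 * (e3 + e4 * r1 + e5 * r1 ^ 2), h.q1 + A0 * (e4 * r2 + 2 * e5 * r1 * r2), A0 * (e5 * r2 ^ 2), ?_⟩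
  intro t Y
  show h.ev t pa (Y + t * pa) + A0 * G.F t (k8wR D g pa (Y + t * pa) t) = _
  rw [hR, hE]
  unfold K8Pr.ev
  ring

/-- in the new coordinates the scalar parameter is `G.cen t + r` exactly -/
theorem k8y_lab_R {D : ℝ} (hD : D ≠ 0) (χ A0 : ℝ) (g : ℤ × ℤ × ℤ) (h : K8Pr) (G : K7aLab) (zi : ℤ) (t r : ℝ) :
    k8wR D g (zi * χ) ((k8yLab D χ A0 g h G zi).cen t + D * r + t * (zi * χ)) t = G.cen t + r := by
  unfold k8wR K7aLab.cen k8yLab
  field_simp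
  ring

/-- **norm** of the returned label on its moving interval of width `D` -/
theorem k8y_lab_norm {D χ A0 K : ℝ} (hD : 0 < D) (hK : 1 ≤ K) (hA0 : 0 ≤ A0) (hA1 : A0 ≤ 1) {g : ℤ × ℤ × ℤ} {h : K8Pr} {G : K7aLab} {zi : ℤ}
    (hz : |(zi : ℝ) * χ - g.2.1 * D| ≤ D) (hcen : |G.c0| ≤ K ∧ |G.c1| ≤ K)
    (hnorm : ∀ t ∈ Set.Icc (0 : ℝ) 1, ∀ r ∈ Set.Icc (-1 : ℝ) 1, |G.F t (G.cen t + r)| ≤ K)
    (hh : ∀ t ∈ Set.Icc (0 : ℝ) 1, ∀ p q : ℝ, |p - g.2.1 * D| ≤ 2 * D → |q - g.2.2 * D| ≤ 2 * D → |h.ev t p q| ≤ K) :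
    ∀ t ∈ Set.Icc (0 : ℝ) 1, ∀ r ∈ Set.Icc (-1 : ℝ) 1, |(k8yLab D χ A0 g h G zi).F t ((k8yLab D χ A0 g h G zi).cen t + D * r)| ≤ 7 * K ^ 2 := by
  intro t ht r hr
  set L := k8yLab D χ A0 g h G zi with hL
  have e1 : L.F t (L.cen t + D * r) = h.ev t (zi * χ) (L.cen t + D * r + t * (zi * χ)) + A0 * G.F t (G.cen t + r) := by
    have := k8y_lab_R hD.ne' χ A0 g h G zi t r
    rw [← hL] at this
    show h.ev t (zi * χ) (L.cen t + D * r + t * (zi * χ)) + A0 * G.F t (k8wR D g (zi * χ) (L.cen t + D * r + t * (zi * χ)) t) = _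
    rw [this]
  have b2 : |A0 * G.F t (G.cen t + r)| ≤ K := by
    rw [abs_mul, abs_of_nonneg hA0]
    calc A0 * |G.F t (G.cen t + r)| ≤ 1 * K := mul_le_mul hA1 (hnorm t ht r hr) (abs_nonneg _) zero_le_one
      _ = K := one_mul K
  obtain ⟨-, sq⟩ := k8y_pr_slopes hD (hh t ht)
  have hq : L.cen t + D * r + t * (zi * χ) - g.2.2 * D = D * (G.cen t + r) + 2 * t * (zi * χ - g.2.1 * D) := by
    rw [hL]
    unfold K7aLab.cen k8yLab
    ring
  have hcn : |G.cen t| ≤ 2 * K := by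
    unfold K7aLab.cen
    have : |G.c1 * t| ≤ K := by
      rw [abs_mul, abs_of_nonneg ht.1]
      calc |G.c1| * t ≤ K * 1 := mul_le_mul hcen.2 ht.2 ht.1 (by linarith)
        _ = K := mul_one K
    exact (abs_add_le _ _).trans (by linarith [hcen.1])
  have hr' : |r| ≤ 1 := abs_le.2 ⟨hr.1, hr.2⟩
  have hqb : |L.cen t + D * r + t * (zi * χ) - g.2.2 * D| ≤ D * (2 * K + 3) := by
    rw [hq]
    have c1 : |D * (G.cen t + r)| ≤ D * (2 * K + 1) := by
      rw [abs_mul, abs_of_pos hD]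
      exact mul_le_mul_of_nonneg_left ((abs_add_le _ _).trans (by linarith)) hD.le
    have c2 : |2 * t * (zi * χ - g.2.1 * D)| ≤ 2 * D := by
      rw [abs_mul, abs_of_nonneg (by linarith [ht.1] : (0 : ℝ) ≤ 2 * t)]
      calc 2 * t * |(zi : ℝ) * χ - g.2.1 * D| ≤ 2 * 1 * D := mul_le_mul (by linarith [ht.2]) hz (abs_nonneg _) (by norm_num)
        _ = 2 * D := by ring
    exact (abs_add_le _ _).trans (by linarith)
  have b0 : |h.ev t (zi * χ) (g.2.2 * D)| ≤ K := hh t ht _ _ (hz.trans (by linarith)) (by simp; linarith)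
  have d := k8y_pr_diff h t (zi * χ) (L.cen t + D * r + t * (zi * χ)) (zi * χ) (g.2.2 * D)
  have b1 : |h.ev t (zi * χ) (L.cen t + D * r + t * (zi * χ))| ≤ K + K * (2 * K + 3) := by
    have e : h.ev t (zi * χ) (L.cen t + D * r + t * (zi * χ)) = h.ev t (zi * χ) (g.2.2 * D) + (h.q0 + h.q1 * t) * (L.cen t + D * r + t * (zi * χ) - g.2.2 * D) := by
      linarith [d]
    rw [e]
    refine (abs_add_le _ _).trans (add_le_add b0 ?_)
    rw [abs_mul]
    calc |h.q0 + h.q1 * t| * |L.cen t + D * r + t * (zi * χ) - g.2.2 * D| ≤ |h.q0 + h.q1 * t| * (D * (2 * K + 3)) :=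
          mul_le_mul_of_nonneg_left hqb (abs_nonneg _)
      _ = |h.q0 + h.q1 * t| * D * (2 * K + 3) := by ring
      _ ≤ K * (2 * K + 3) := mul_le_mul_of_nonneg_right sq (by linarith)
  rw [e1]
  refine (abs_add_le _ _).trans ?_
  nlinarith [b1, b2, hK]

/-- **fit** of the returned label along a trajectory `(p, q0, y1)` of the slice -/
theorem k8y_lab_fit {D χ A0 K as ε0 : ℝ} (hD : 0 < D) (hK : 1 ≤ K) (hA0 : 0 ≤ A0) (hA1 : A0 ≤ 1) (hχ : 0 ≤ χ) (has1 : as ≤ 1)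
    (hsm : ε0 + 3 * χ ≤ as * D) {g : ℤ × ℤ × ℤ} {h : K8Pr} {G : K7aLab} {zi : ℤ} (hG : K7aQuad G.F)
    (hnorm : ∀ t ∈ Set.Icc (0 : ℝ) 1, ∀ r ∈ Set.Icc (-1 : ℝ) 1, |G.F t (G.cen t + r)| ≤ K)
    (hh : ∀ t ∈ Set.Icc (0 : ℝ) 1, ∀ p q : ℝ, |p - g.2.1 * D| ≤ 2 * D → |q - g.2.2 * D| ≤ 2 * D → |h.ev t p q| ≤ K)
    {p q0 y1 X t : ℝ} (ht : t ∈ Set.Icc (0 : ℝ) 1) (hp : |p - zi * χ| ≤ χ) (hy : |y1 + p| ≤ ε0)
    (hR : |k8wR D g p q0 t - G.cen t| ≤ K) (hX : |X - h.ev t p q0 - A0 * G.F t (k8wR D g p q0 t)| ≤ K * as) :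
    |q0 + t * y1 - (k8yLab D χ A0 g h G zi).cen t| ≤ (K + 1) * D ∧ |X - (k8yLab D χ A0 g h G zi).F t (q0 + t * y1)| ≤ 11 * K ^ 2 * as := by
  have hε0 : 0 ≤ ε0 := (abs_nonneg _).trans hy
  have has0 : 0 ≤ as := by
    by_contra hc
    have : as * D < 0 := mul_neg_of_neg_of_pos (not_le.1 hc) hD
    linarith
  have t1 : |t * (y1 + p)| ≤ ε0 := by
    rw [abs_mul, abs_of_nonneg ht.1]
    calc t * |y1 + p| ≤ 1 * ε0 := mul_le_mul ht.2 hy (abs_nonneg _) zero_le_one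
      _ = ε0 := one_mul _
  have t2 : |t * (p - zi * χ)| ≤ χ := by
    rw [abs_mul, abs_of_nonneg ht.1]
    calc t * |p - zi * χ| ≤ 1 * χ := mul_le_mul ht.2 hp (abs_nonneg _) zero_le_one
      _ = χ := one_mul _
  constructor
  · have e : q0 + t * y1 - (k8yLab D χ A0 g h G zi).cen t = D * (k8wR D g p q0 t - G.cen t) + t * (y1 + p) + t * (p - zi * χ) := by
      unfold k8wR K7aLab.cen k8yLab
      field_simp
      ring
    rw [e]
    have c1 : |D * (k8wR D g p q0 t - G.cen t)| ≤ D * K := by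
      rw [abs_mul, abs_of_pos hD]
      exact mul_le_mul_of_nonneg_left hR hD.le
    have c2 : as * D ≤ D := by nlinarith
    refine (abs_add_le _ _).trans ?_
    have := abs_add_le (D * (k8wR D g p q0 t - G.cen t)) (t * (y1 + p))
    linarith
  · set R := k8wR D g p q0 t with hRd
    set R' := k8wR D g (zi * χ) (q0 + t * y1 + t * (zi * χ)) t with hR'd
    have eR : (R' - R) * D = t * (y1 + p) + t * (p - zi * χ) := by
      rw [hRd, hR'd]
      unfold k8wR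
      field_simp
      ring
    have bR : |R' - R| ≤ as := by
      have : |R' - R| * D ≤ as * D := by
        rw [← abs_of_pos hD, ← abs_mul, eR, abs_of_pos hD]
        exact (abs_add_le _ _).trans (by linarith)
      exact le_of_mul_le_mul_right this hD
    have bR' : |R' - G.cen t| ≤ K + 1 := by
      have e : R' - G.cen t = (R' - R) + (R - G.cen t) := by ring
      rw [e]
      exact (abs_add_le _ _).trans (by linarith)
    have gv := k8y_quad_var hG (hnorm t ht) (hR.trans (by linarith : K ≤ K + 1)) bR'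
    have gv' : |A0 * (G.F t R - G.F t R')| ≤ 9 * K ^ 2 * as := by
      rw [abs_mul, abs_of_nonneg hA0]
      have c0 : |R - R'| ≤ as := by rw [abs_sub_comm]; exact bR
      have c1 : K * (1 + 4 * (K + 1)) * |R - R'| ≤ 9 * K ^ 2 * as := by
        have : K * (1 + 4 * (K + 1)) ≤ 9 * K ^ 2 := by nlinarith
        exact mul_le_mul this c0 (abs_nonneg _) (by positivity)
      calc A0 * |G.F t R - G.F t R'| ≤ 1 * (9 * K ^ 2 * as) := mul_le_mul hA1 (gv.trans c1) (abs_nonneg _) zero_le_one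
        _ = 9 * K ^ 2 * as := one_mul _
    obtain ⟨sp, sq⟩ := k8y_pr_slopes hD (hh t ht)
    have d := k8y_pr_diff h t p q0 (zi * χ) (q0 + t * y1 + t * (zi * χ))
    have hv : |h.ev t p q0 - h.ev t (zi * χ) (q0 + t * y1 + t * (zi * χ))| ≤ K * as := by
      rw [d]
      have e2 : q0 - (q0 + t * y1 + t * (zi * χ)) = -(t * (y1 + p)) + t * (p - zi * χ) := by ring
      have c2 : |q0 - (q0 + t * y1 + t * (zi * χ))| ≤ ε0 + χ := by
        rw [e2]
        refine (abs_add_le _ _).trans ?_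
        rw [abs_neg]
        linarith
      have m1 : |(h.p0 + h.p1 * t) * (p - zi * χ)| * D ≤ K * χ := by
        rw [abs_mul]
        calc |h.p0 + h.p1 * t| * |p - zi * χ| * D = |h.p0 + h.p1 * t| * D * |p - zi * χ| := by ring
          _ ≤ K * χ := mul_le_mul sp hp (abs_nonneg _) (by linarith)
      have m2 : |(h.q0 + h.q1 * t) * (q0 - (q0 + t * y1 + t * (zi * χ)))| * D ≤ K * (ε0 + χ) := by
        rw [abs_mul]
        calc |h.q0 + h.q1 * t| * |q0 - (q0 + t * y1 + t * (zi * χ))| * D = |h.q0 + h.q1 * t| * D * |q0 - (q0 + t * y1 + t * (zi * χ))| := by ring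
          _ ≤ K * (ε0 + χ) := mul_le_mul sq c2 (abs_nonneg _) (by linarith)
      have m3 : (|(h.p0 + h.p1 * t) * (p - zi * χ)| + |(h.q0 + h.q1 * t) * (q0 - (q0 + t * y1 + t * (zi * χ)))|) * D ≤ K * as * D := by
        have : K * (ε0 + 2 * χ) ≤ K * (as * D) := mul_le_mul_of_nonneg_left (by linarith) (by linarith)
        nlinarith
      exact (abs_add_le _ _).trans (le_of_mul_le_mul_right m3 hD)
    have e : X - (k8yLab D χ A0 g h G zi).F t (q0 + t * y1) =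
        (X - h.ev t p q0 - A0 * G.F t R) + (h.ev t p q0 - h.ev t (zi * χ) (q0 + t * y1 + t * (zi * χ))) + A0 * (G.F t R - G.F t R') := by
      show X - (h.ev t (zi * χ) (q0 + t * y1 + t * (zi * χ)) + A0 * G.F t R') = _
      ring
    rw [e]
    have a1 := abs_add_le ((X - h.ev t p q0 - A0 * G.F t R) + (h.ev t p q0 - h.ev t (zi * χ) (q0 + t * y1 + t * (zi * χ)))) (A0 * (G.F t R - G.F t R'))
    have a2 := abs_add_le (X - h.ev t p q0 - A0 * G.F t R) (h.ev t p q0 - h.ev t (zi * χ) (q0 + t * y1 + t * (zi * χ)))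
    have : K * as ≤ K ^ 2 * as := mul_le_mul_of_nonneg_right (by nlinarith) has0
    linarith

/-! ## 3. Slices -/

/-- the slices of mesh `χ` which meet the bin `[b D, (b + 1) D)` -/
def k8ySl (D χ : ℝ) (b : ℤ) : Finset ℤ := Finset.Icc ⌊(b : ℝ) * D / χ⌋ ⌊((b : ℝ) * D + D) / χ⌋

theorem k8y_bin_near {χ p : ℝ} (hχ : 0 < χ) {zi : ℤ} (h : k7bBin χ p = zi) : |p - zi * χ| ≤ χ := by
  unfold k7bBin at h
  obtain ⟨h1, h2⟩ := Int.floor_eq_iff.1 h
  rw [le_div_iff₀ hχ] at h1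
  rw [div_lt_iff₀ hχ] at h2
  exact abs_le.2 ⟨by linarith, by linarith⟩

theorem k8y_sl_mem {D χ p : ℝ} (hχ : 0 < χ) (hD : 0 < D) {b : ℤ} (hb : k7bBin D p = b) : k7bBin χ p ∈ k8ySl D χ b := by
  unfold k7bBin at hb
  obtain ⟨h1, h2⟩ := Int.floor_eq_iff.1 hb
  rw [le_div_iff₀ hD] at h1
  rw [div_lt_iff₀ hD] at h2
  exact Finset.mem_Icc.2 ⟨Int.floor_le_floor (div_le_div_of_nonneg_right h1 hχ.le), Int.floor_le_floor (div_le_div_of_nonneg_right (by linarith) hχ.le)⟩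

theorem k8y_sl_near {D χ : ℝ} (hχ : 0 < χ) (hχD : χ ≤ D) {b zi : ℤ} (h : zi ∈ k8ySl D χ b) : |(zi : ℝ) * χ - b * D| ≤ D := by
  obtain ⟨h1, h2⟩ := Finset.mem_Icc.1 h
  have a1 : ((⌊(b : ℝ) * D / χ⌋ : ℤ) : ℝ) ≤ zi := by exact_mod_cast h1
  have a2 : (zi : ℝ) ≤ ((⌊((b : ℝ) * D + D) / χ⌋ : ℤ) : ℝ) := by exact_mod_cast h2
  have a3 := Int.lt_floor_add_one ((b : ℝ) * D / χ)
  have a4 := Int.floor_le (((b : ℝ) * D + D) / χ)
  have a5 : (b : ℝ) * D / χ < zi + 1 := by linarith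
  have a6 : (zi : ℝ) ≤ ((b : ℝ) * D + D) / χ := by linarith
  rw [div_lt_iff₀ hχ] at a5
  rw [le_div_iff₀ hχ] at a6
  exact abs_le.2 ⟨by linarith, by linarith⟩

theorem k8y_sl_card {D χ : ℝ} (hχ : 0 < χ) (hχD : χ ≤ D) (b : ℤ) : ((k8ySl D χ b).card : ℝ) * χ ≤ 3 * D := by
  have hD : 0 < D := hχ.trans_le hχD
  unfold k8ySl
  rw [Int.card_Icc]
  have hle : ⌊(b : ℝ) * D / χ⌋ ≤ ⌊((b : ℝ) * D + D) / χ⌋ := Int.floor_le_floor (div_le_div_of_nonneg_right (by linarith) hχ.le)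
  have h0 : 0 ≤ ⌊((b : ℝ) * D + D) / χ⌋ + 1 - ⌊(b : ℝ) * D / χ⌋ := by linarith
  have e : (((⌊((b : ℝ) * D + D) / χ⌋ + 1 - ⌊(b : ℝ) * D / χ⌋).toNat : ℕ) : ℝ) = ((⌊((b : ℝ) * D + D) / χ⌋ : ℤ) : ℝ) + 1 - ((⌊(b : ℝ) * D / χ⌋ : ℤ) : ℝ) := by
    have := Int.toNat_of_nonneg h0
    have h2 : (((⌊((b : ℝ) * D + D) / χ⌋ + 1 - ⌊(b : ℝ) * D / χ⌋).toNat : ℤ) : ℝ) = ((⌊((b : ℝ) * D + D) / χ⌋ + 1 - ⌊(b : ℝ) * D / χ⌋ : ℤ) : ℝ) := by rw [this]
    rw [Int.cast_natCast] at h2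
    rw [h2]
    push_cast
    ring
  rw [e]
  have a3 := Int.lt_floor_add_one ((b : ℝ) * D / χ)
  have a4 := Int.floor_le (((b : ℝ) * D + D) / χ)
  have a5 : ((b : ℝ) * D + D) / χ - (b : ℝ) * D / χ = D / χ := by field_simp; ring
  have a6 : ((⌊((b : ℝ) * D + D) / χ⌋ : ℤ) : ℝ) + 1 - ((⌊(b : ℝ) * D / χ⌋ : ℤ) : ℝ) ≤ D / χ + 2 := by linarith
  calc _ ≤ (D / χ + 2) * χ := mul_le_mul_of_nonneg_right a6 hχ.le
    _ = D + 2 * χ := by field_simp
    _ ≤ 3 * D := by linarith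

/-! ## 4. Relabelling by a finite set -/

open Classical in
/-- labels in a finite set `S` are renamed by `Fin S.card`, the others are dropped -/
def k8yRe {Λ α : Type} (S : Finset α) (f : Λ → Option α) : Λ → Option (Fin S.card) :=
  fun l => (f l).bind fun a => if h : a ∈ S then some (S.equivFin ⟨a, h⟩) else none

theorem k8y_re_some {Λ α : Type} (S : Finset α) (f : Λ → Option α) (l : Λ) (i : Fin S.card) :
    k8yRe S f l = some i ↔ f l = some (S.equivFin.symm i).1 := by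
  unfold k8yRe
  cases hf : f l with
  | none => simp
  | some a =>
    simp only [Option.bind_some, Option.some.injEq]
    by_cases h : a ∈ S
    · rw [dif_pos h]
      simp only [Option.some.injEq]
      constructor
      · intro e
        rw [← e]
        simp
      · intro e
        have : (⟨a, h⟩ : S) = S.equivFin.symm i := Subtype.ext e
        rw [this]
        simp
    · rw [dif_neg h]
      simp only [reduceCtorEq, false_iff]
      intro e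
      exact h (e ▸ (S.equivFin.symm i).2)

theorem k8y_re_ne {Λ α : Type} (S : Finset α) (f : Λ → Option α) {l : Λ} {a : α} (h : f l = some a) (ha : a ∈ S) : k8yRe S f l ≠ none := by
  have : k8yRe S f l = some (S.equivFin ⟨a, ha⟩) := by
    rw [k8y_re_some, h]
    simp
  rw [this]
  exact Option.some_ne_none _

theorem k8y_re_meas {Λ α : Type} [MeasurableSpace Λ] (S : Finset α) (f : Λ → Option α) (hf : ∀ a ∈ S, MeasurableSet (f ⁻¹' {some a})) (o : Option (Fin S.card)) :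
    MeasurableSet (k8yRe S f ⁻¹' {o}) := by
  have h1 : ∀ i : Fin S.card, MeasurableSet (k8yRe S f ⁻¹' {some i}) := by
    intro i
    have : k8yRe S f ⁻¹' {some i} = f ⁻¹' {some (S.equivFin.symm i).1} := by
      ext l
      exact k8y_re_some S f l i
    rw [this]
    exact hf _ (S.equivFin.symm i).2
  cases o with
  | some i => exact h1 i
  | none =>
    have : k8yRe S f ⁻¹' {none} = (⋃ i, k8yRe S f ⁻¹' {some i})ᶜ := by
      ext l
      simp only [Set.mem_preimage, Set.mem_singleton_iff, Set.mem_compl_iff, Set.mem_iUnion, not_exists]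
      constructor
      · intro h i hi
        rw [h] at hi
        exact absurd hi (by simp)
      · intro h
        cases hl : k8yRe S f l with
        | none => rfl
        | some i => exact absurd hl (h i)
    rw [this]
    exact (MeasurableSet.iUnion h1).compl

/-! ## 5. The core with explicit slack -/

theorem k8y_good_mono {H : K7bHor} {c : K7bPar} {K K' : ℝ} (h : K ≤ K') : k8wGood H c K ⊆ k8wGood H c K' := by
  rintro l ⟨h1, h2, h3, h4, h5, h6, h7⟩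
  exact ⟨h1.trans h, h2.trans h, h3.trans h, h4.trans h, h5.trans h, h6.trans h, h7⟩

/-- **S3 with explicit slack** `K ↦ 11 K³` -/
theorem k8y_core {H : K7bHor} {c : K7bPar} {K sA D s : ℝ} {E : Set (H.Lam × ℝ)} {Φ : K8wProj H} (hc : c.WF) (hK : 1 ≤ K) (hH : H.Ok c K)
    (hE : H.Res E (1 / K)) (hΦ : Φ.Ok c K sA D s) (hlab : ∀ z ∈ E, Φ.lab z.1 ≠ none) (hχD : c.χ ≤ D) (hsA : 0 ≤ sA) (hs : 0 ≤ s)
    (hsm : c.N ^ (-c.e0) + 3 * c.χ ≤ c.a s * D) :
    ∃ E' ⊆ E, H.Res E' (1 / (2 * K)) ∧ ∃ P : K8wLay H, P.Ok c (11 * K ^ 3) (c.a s) D ∧ ∀ z ∈ E', P.lab z.1 ≠ none := by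
  classical
  have hχ := hc.χ0
  have hD : 0 < D := hχ.trans_le hχD
  have hN : 0 < c.N := lt_of_lt_of_le one_pos hc.N1
  have ha0 : 0 < c.a s := Real.rpow_pos_of_pos hN _
  have ha1 : c.a s ≤ 1 := Real.rpow_le_one_of_one_le_of_nonpos hc.N1 (by linarith)
  have hA0 : 0 < c.a sA := Real.rpow_pos_of_pos hN _
  have hA1 : c.a sA ≤ 1 := Real.rpow_le_one_of_one_le_of_nonpos hc.N1 (by linarith)
  have hK0 : 0 < K := by linarith
  have hK2 : K ^ 2 ≤ K ^ 3 := by nlinarith [sq_nonneg K]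
  have hK1 : K ≤ K ^ 2 := by nlinarith
  have had : 0 < c.a s ^ c.d := Real.rpow_pos_of_pos ha0 _
  -- the sliced labels
  let f : H.Lam → Option (Σ _ : Fin Φ.n, ℤ) := fun l => (Φ.lab l).map fun φ => ⟨φ, k7bBin c.χ (H.p l)⟩
  have hf : ∀ (l : H.Lam) (x : Σ _ : Fin Φ.n, ℤ), f l = some x ↔ Φ.lab l = some x.1 ∧ k7bBin c.χ (H.p l) = x.2 := by
    rintro l ⟨x1, x2⟩
    show (Φ.lab l).map _ = _ ↔ _
    cases Φ.lab l with
    | none => simp
    | some φ => simp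
  let A : (Σ _ : Fin Φ.n, ℤ) → Set (H.Lam × ℝ) := fun x => H.Sp ∩ {z | Φ.lab z.1 = some x.1 ∧ k7bBin c.χ (H.p z.1) = x.2}
  let θ : (Σ _ : Fin Φ.n, ℤ) → ℝ≥0∞ := fun x => ENNReal.ofReal (c.χ * c.a s ^ c.d * D) * H.pal (k7bIv c.χ (Φ.g x.1).1)
  let S0 : Finset (Σ _ : Fin Φ.n, ℤ) := Finset.univ.sigma fun φ => k8ySl D c.χ (Φ.g φ).2.1
  let S := S0.filter fun x => θ x ≤ ENNReal.ofReal (6 * K ^ 3) * H.lam (A x)
  let L := S0.filter fun x => ¬ θ x ≤ ENNReal.ofReal (6 * K ^ 3) * H.lam (A x)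
  have mB : ∀ zi : ℤ, MeasurableSet {l | k7bBin c.χ (H.p l) = zi} := fun zi => ((hH.mp.div_const _).floor) (measurableSet_singleton zi)
  have mfib : ∀ x : (Σ _ : Fin Φ.n, ℤ), MeasurableSet {l | Φ.lab l = some x.1 ∧ k7bBin c.χ (H.p l) = x.2} := fun x => (hΦ.meas (some x.1)).inter (mB x.2)
  have mA : ∀ x, MeasurableSet (A x) := fun x => hH.mSp.inter (measurable_fst (mfib x))
  have mBad : MeasurableSet (⋃ x ∈ L, A x) := Finset.measurableSet_biUnion _ fun x _ => mA x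
  -- the budget of the slices
  have hbud : ∑ x ∈ S0, θ x ≤ ENNReal.ofReal (3 * K ^ 2) := by
    rw [Finset.sum_sigma]
    have h1 : ∀ φ : Fin Φ.n, ∑ zi ∈ k8ySl D c.χ (Φ.g φ).2.1, θ ⟨φ, zi⟩ ≤ 3 * (ENNReal.ofReal K * H.lam (H.Sp ∩ {z | Φ.lab z.1 = some φ})) := by
      intro φ
      have e0 : ∑ zi ∈ k8ySl D c.χ (Φ.g φ).2.1, θ ⟨φ, zi⟩ =
          ∑ _zi ∈ k8ySl D c.χ (Φ.g φ).2.1, ENNReal.ofReal (c.χ * c.a s ^ c.d * D) * H.pal (k7bIv c.χ (Φ.g φ).1) := rfl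
      rw [e0, Finset.sum_const, nsmul_eq_mul]
      refine le_trans ?_ (mul_le_mul' le_rfl (hΦ.floor φ))
      show ((k8ySl D c.χ (Φ.g φ).2.1).card : ℝ≥0∞) * (ENNReal.ofReal (c.χ * c.a s ^ c.d * D) * H.pal (k7bIv c.χ (Φ.g φ).1))
        ≤ 3 * (H.pal (k7bIv c.χ (Φ.g φ).1) * ENNReal.ofReal (D ^ 2) * ENNReal.ofReal (c.a s ^ c.d))
      have e1 : ((k8ySl D c.χ (Φ.g φ).2.1).card : ℝ≥0∞) * ENNReal.ofReal (c.χ * c.a s ^ c.d * D) ≤ 3 * (ENNReal.ofReal (D ^ 2) * ENNReal.ofReal (c.a s ^ c.d)) := by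
        rw [← ENNReal.ofReal_natCast, ← ENNReal.ofReal_mul (Nat.cast_nonneg _), ← ENNReal.ofReal_mul (by positivity),
          show (3 : ℝ≥0∞) = ENNReal.ofReal 3 by simp, ← ENNReal.ofReal_mul (by norm_num)]
        refine ENNReal.ofReal_le_ofReal ?_
        have := k8y_sl_card hχ hχD (Φ.g φ).2.1
        calc ((k8ySl D c.χ (Φ.g φ).2.1).card : ℝ) * (c.χ * c.a s ^ c.d * D) = ((k8ySl D c.χ (Φ.g φ).2.1).card : ℝ) * c.χ * (c.a s ^ c.d * D) := by ring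
          _ ≤ 3 * D * (c.a s ^ c.d * D) := mul_le_mul_of_nonneg_right this (by positivity)
          _ = 3 * (D ^ 2 * c.a s ^ c.d) := by ring
      calc _ = ((k8ySl D c.χ (Φ.g φ).2.1).card : ℝ≥0∞) * ENNReal.ofReal (c.χ * c.a s ^ c.d * D) * H.pal (k7bIv c.χ (Φ.g φ).1) := by ring
        _ ≤ 3 * (ENNReal.ofReal (D ^ 2) * ENNReal.ofReal (c.a s ^ c.d)) * H.pal (k7bIv c.χ (Φ.g φ).1) := mul_le_mul' e1 le_rfl
        _ = _ := by ring
    refine (Finset.sum_le_sum fun φ _ => h1 φ).trans ?_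
    rw [← Finset.mul_sum, ← Finset.mul_sum]
    have h2 : ∑ φ : Fin Φ.n, H.lam (H.Sp ∩ {z | Φ.lab z.1 = some φ}) ≤ ENNReal.ofReal K := by
      rw [← measure_biUnion_finset (μ := H.lam) (s := Finset.univ) (f := fun φ : Fin Φ.n => H.Sp ∩ {z | Φ.lab z.1 = some φ})]
      · exact k8f_lam_le hH _
      · intro φ _ φ' _ hne
        refine Set.disjoint_left.2 fun z hz hz' => hne ?_
        have := hz.2.symm.trans hz'.2
        exact Option.some.inj this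
      · exact fun φ _ => hH.mSp.inter (measurable_fst (hΦ.meas (some φ)))
    calc 3 * (ENNReal.ofReal K * ∑ φ : Fin Φ.n, H.lam (H.Sp ∩ {z | Φ.lab z.1 = some φ})) ≤ 3 * (ENNReal.ofReal K * ENNReal.ofReal K) :=
          mul_le_mul' le_rfl (mul_le_mul' le_rfl h2)
      _ = ENNReal.ofReal (3 * K ^ 2) := by
          rw [← ENNReal.ofReal_mul hK0.le, show (3 : ℝ≥0∞) = ENNReal.ofReal 3 by simp, ← ENNReal.ofReal_mul (by norm_num), sq]
  -- the loss
  have hloss : H.lam (⋃ x ∈ L, A x) ≤ ENNReal.ofReal (1 / (2 * K)) := by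
    have h1 : ENNReal.ofReal (6 * K ^ 3) * H.lam (⋃ x ∈ L, A x) ≤ ENNReal.ofReal (6 * K ^ 3) * ENNReal.ofReal (1 / (2 * K)) := by
      calc ENNReal.ofReal (6 * K ^ 3) * H.lam (⋃ x ∈ L, A x) ≤ ENNReal.ofReal (6 * K ^ 3) * ∑ x ∈ L, H.lam (A x) :=
            mul_le_mul' le_rfl (measure_biUnion_finset_le _ _)
        _ = ∑ x ∈ L, ENNReal.ofReal (6 * K ^ 3) * H.lam (A x) := Finset.mul_sum _ _ _
        _ ≤ ∑ x ∈ L, θ x := Finset.sum_le_sum fun x hx => (not_le.1 (Finset.mem_filter.1 hx).2).le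
        _ ≤ ∑ x ∈ S0, θ x := Finset.sum_le_sum_of_subset (Finset.filter_subset _ _)
        _ ≤ ENNReal.ofReal (3 * K ^ 2) := hbud
        _ = ENNReal.ofReal (6 * K ^ 3) * ENNReal.ofReal (1 / (2 * K)) := by
            rw [← ENNReal.ofReal_mul (by positivity)]
            congr 1
            field_simp
            ring
    exact (ENNReal.mul_le_mul_iff_right (by simp; positivity) ENNReal.ofReal_ne_top).1 h1
  -- every point of `E` lies in a slice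
  have hcov : ∀ z ∈ E, ∃ x ∈ S0, z ∈ A x ∧ f z.1 = some x := by
    intro z hz
    obtain ⟨φ, hφ⟩ := Option.ne_none_iff_exists'.1 (hlab z hz)
    have hg := (hΦ.good z.1 φ hφ).2
    have hb : k7bBin D (H.p z.1) = (Φ.g φ).2.1 := congrArg (fun g : ℤ × ℤ × ℤ => g.2.1) hg
    refine ⟨⟨φ, k7bBin c.χ (H.p z.1)⟩, Finset.mem_sigma.2 ⟨Finset.mem_univ _, k8y_sl_mem hχ hD hb⟩, ⟨hE.sub hz, hφ, rfl⟩, (hf _ _).2 ⟨hφ, rfl⟩⟩
  refine ⟨E \ ⋃ x ∈ L, A x, Set.sdiff_subset, ⟨Set.sdiff_subset.trans hE.sub, hE.meas.diff mBad, ?_⟩, ?_⟩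
  · have h1 : H.lam E ≤ H.lam (E \ ⋃ x ∈ L, A x) + H.lam (⋃ x ∈ L, A x) := by
      refine le_trans (measure_mono ?_) (measure_union_le _ _)
      intro z hz
      by_cases hb : z ∈ ⋃ x ∈ L, A x
      · exact Or.inr hb
      · exact Or.inl ⟨hz, hb⟩
    have h2 : ENNReal.ofReal (1 / K) = ENNReal.ofReal (1 / (2 * K)) + ENNReal.ofReal (1 / (2 * K)) := by
      rw [← ENNReal.ofReal_add (by positivity) (by positivity)]
      congr 1
      field_simp
      norm_num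
    have h3 : ENNReal.ofReal (1 / (2 * K)) + ENNReal.ofReal (1 / (2 * K)) ≤ H.lam (E \ ⋃ x ∈ L, A x) + ENNReal.ofReal (1 / (2 * K)) := by
      rw [← h2]
      exact hE.mass.trans (h1.trans (add_le_add le_rfl hloss))
    exact (ENNReal.add_le_add_iff_right ENNReal.ofReal_ne_top).1 h3
  · let idx : Fin S.card → (Σ _ : Fin Φ.n, ℤ) := fun i => (S.equivFin.symm i).1
    have hidx : ∀ i, idx i ∈ S := fun i => (S.equivFin.symm i).2
    have hidx0 : ∀ i, (idx i).2 ∈ k8ySl D c.χ (Φ.g (idx i).1).2.1 := fun i => (Finset.mem_sigma.1 (Finset.mem_filter.1 (hidx i)).1).2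
    let P : K8wLay H :=
      { n := S.card
        lab := k8yRe S f
        vi := fun i => (Φ.g (idx i).1).1
        zi := fun i => (idx i).2
        G := fun i => k8yLab D c.χ (c.a sA) (Φ.g (idx i).1) (Φ.h1 (idx i).1) (Φ.G (idx i).1) (idx i).2 }
    have hP : ∀ l i, P.lab l = some i ↔ Φ.lab l = some (idx i).1 ∧ k7bBin c.χ (H.p l) = (idx i).2 := fun l i =>
      (k8y_re_some S f l i).trans (hf l (idx i))
    refine ⟨P, ⟨?_, ?_, ?_, ?_, ?_, ?_⟩, ?_⟩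
    · refine k8y_re_meas S f fun a _ => ?_
      have : f ⁻¹' {some a} = {l | Φ.lab l = some a.1 ∧ k7bBin c.χ (H.p l) = a.2} := by
        ext l
        exact hf l a
      rw [this]
      exact mfib a
    · intro l i hl
      obtain ⟨h1, h2⟩ := (hP l i).1 hl
      obtain ⟨g1, g2⟩ := hΦ.good l _ h1
      exact ⟨k8y_good_mono (by nlinarith) g1, congrArg (fun g : ℤ × ℤ × ℤ => g.1) g2, h2⟩
    · exact fun i => k8y_lab_quad _ _ _ _ _ _ _ (hΦ.quad _)
    · intro i t ht r hr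
      refine (k8y_lab_norm hD hK hA0.le hA1 (k8y_sl_near hχ hχD (hidx0 i)) (hΦ.cen _) (hΦ.norm _) (hΦ.hnorm _) t ht r hr).trans ?_
      nlinarith
    · intro l i hl t ht
      obtain ⟨h1, h2⟩ := (hP l i).1 hl
      obtain ⟨g1, -⟩ := hΦ.good l _ h1
      obtain ⟨f1, f2⟩ := hΦ.fit l _ h1 t ht
      obtain ⟨r1, r2⟩ := k8y_lab_fit hD hK hA0.le hA1 hχ.le ha1 hsm (hΦ.quad _) (hΦ.norm _) (hΦ.hnorm _) ht (k8y_bin_near hχ h2) g1.2.2.2.2.2.2 f1 f2
      refine ⟨r1.trans (mul_le_mul_of_nonneg_right (by nlinarith) hD.le), r2.trans (mul_le_mul_of_nonneg_right (by nlinarith) ha0.le)⟩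
    · intro i
      have h1 : θ (idx i) ≤ ENNReal.ofReal (6 * K ^ 3) * H.lam (A (idx i)) := (Finset.mem_filter.1 (hidx i)).2
      have h2 : A (idx i) = H.Sp ∩ {z | P.lab z.1 = some i} := by
        ext z
        exact and_congr_right fun _ => (hP z.1 i).symm
      rw [← h2]
      exact h1.trans (mul_le_mul' (ENNReal.ofReal_le_ofReal (by nlinarith [pow_pos hK0 3])) le_rfl)
    · intro z hz
      obtain ⟨x, hx0, hxA, hxf⟩ := hcov z hz.1
      have hxS : x ∈ S := by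
        refine Finset.mem_filter.2 ⟨hx0, ?_⟩
        by_contra hn
        exact hz.2 (Set.mem_biUnion (Finset.mem_coe.2 (Finset.mem_filter.2 ⟨hx0, hn⟩)) hxA)
      exact k8y_re_ne S f hxf hxS

/-! ## 6. The hub -/

theorem k8y_lay_mono {H : K7bHor} {P : K8wLay H} {c : K7bPar} {K K' th β : ℝ} (hK : K ≤ K') (hth : 0 ≤ th) (hβ : 0 ≤ β) (h : P.Ok c K th β) :
    P.Ok c K' th β where
  meas := h.meas
  grp := fun l φ hl => ⟨k8y_good_mono hK (h.grp l φ hl).1, (h.grp l φ hl).2⟩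
  quad := h.quad
  norm := fun φ t ht r hr => (h.norm φ t ht r hr).trans hK
  fit := fun l φ hl t ht => ⟨(h.fit l φ hl t ht).1.trans (mul_le_mul_of_nonneg_right hK hβ), (h.fit l φ hl t ht).2.trans (mul_le_mul_of_nonneg_right hK hth)⟩
  floor := fun φ => (h.floor φ).trans (mul_le_mul' (ENNReal.ofReal_le_ofReal hK) le_rfl)

/-- **S3 of P8.6** (08 l.1016-1040): slices and return to the true base -/
theorem k8y_lay : K8wHLay := by
  intro x hx e he s hs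
  have hs0 := he.s0
  refine ⟨4 * e.s0 + 1, fun M _ hM2 _ τ hτ => ?_⟩
  refine ⟨∅, τ / 4, max 12 (max ((2 : ℝ) ^ (1 / (96 * e.s0))) ((11 : ℝ) ^ (4 / τ))), by positivity, by simp, ?_⟩
  rintro H Φ c K E hAdm hInp hKτ ⟨hΦ, hlab⟩
  have hc := hAdm.wf
  have hN12 : 12 ≤ c.N := (le_max_left _ _).trans hAdm.hN
  have hN : 0 < c.N := by linarith
  have hN1 : 1 ≤ c.N := by linarith
  have h96 : 2 ≤ c.N ^ (96 * e.s0) := by
    have h1 : (2 : ℝ) ^ (1 / (96 * e.s0)) ≤ c.N := ((le_max_left _ _).trans (le_max_right _ _)).trans hAdm.hN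
    calc (2 : ℝ) = ((2 : ℝ) ^ (1 / (96 * e.s0))) ^ (96 * e.s0) := by
          rw [← Real.rpow_mul (by norm_num)]
          have : 1 / (96 * e.s0) * (96 * e.s0) = 1 := by field_simp
          rw [this, Real.rpow_one]
      _ ≤ c.N ^ (96 * e.s0) := Real.rpow_le_rpow (by positivity) h1 (by positivity)
  have h11 : 11 ≤ c.N ^ (τ / 4) := by
    have h1 : (11 : ℝ) ^ (4 / τ) ≤ c.N := ((le_max_right _ _).trans (le_max_right _ _)).trans hAdm.hN
    calc (11 : ℝ) = ((11 : ℝ) ^ (4 / τ)) ^ (τ / 4) := by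
          rw [← Real.rpow_mul (by norm_num)]
          have : 4 / τ * (τ / 4) = 1 := by field_simp
          rw [this, Real.rpow_one]
      _ ≤ c.N ^ (τ / 4) := Real.rpow_le_rpow (by positivity) h1 (by positivity)
  -- the depth
  have hc2u : e.c2 ≤ e.u := by
    have h1 := he.c2u
    have h2 := hx.d0
    have h3 := he.u0
    nlinarith
  have hsr : e.s ≤ s ∧ s ≤ e.s + e.u := by
    have := hs
    unfold K8wE.T at this
    simp only [Finset.mem_insert, Finset.mem_singleton] at this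
    rcases this with h | h | h
    · rw [h]; exact ⟨le_rfl, by linarith [he.u0]⟩
    · rw [h]; exact ⟨by linarith [he.u0], le_rfl⟩
    · rw [h]; exact ⟨by linarith [he.c20], by linarith⟩
  have hs_pos : 0 ≤ s := by linarith [hsr.1, he.δ0]
  have hs_top : s ≤ 3 / 2 * e.s0 := by linarith [hsr.2, he.top]
  have hsA : 0 ≤ e.sA := by
    rcases he.sA with h | h
    · rw [h.2]; exact hs0.le
    · rw [h.2]
  -- the small quantities
  set B : ℝ := c.N ^ (-(4 * e.s0)) with hB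
  have hB0 : 0 < B := Real.rpow_pos_of_pos hN _
  have hDe : e.D c = c.N ^ (-e.s0 * (2 * c.k)) := by
    unfold K8wE.D K7bPar.a
    rw [← Real.rpow_mul hN.le]
  have hk1 : c.k ≤ 1 := hc.k1
  have hk0 : 0 < c.k := hc.k0
  have haD : B ≤ c.a s * e.D c := by
    rw [hDe]
    unfold K7bPar.a
    rw [← Real.rpow_add hN, hB]
    refine Real.rpow_le_rpow_of_exponent_le hN1 ?_
    nlinarith
  have ha1 : c.a s ≤ 1 := Real.rpow_le_one_of_one_le_of_nonpos hN1 (by linarith)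
  have hD0 : 0 < e.D c := by rw [hDe]; exact Real.rpow_pos_of_pos hN _
  have hBD : B ≤ e.D c := haD.trans (by nlinarith)
  have hχB : c.χ ≤ B / 6 := by
    have h1 : c.N ^ (-M.2.1) ≤ c.N ^ (-(4 * e.s0) + -1) := Real.rpow_le_rpow_of_exponent_le hN1 (by linarith)
    rw [Real.rpow_add hN, Real.rpow_neg_one] at h1
    have h2 : c.N⁻¹ ≤ 1 / 12 := by
      rw [inv_eq_one_div]
      exact one_div_le_one_div_of_le (by norm_num) hN12
    have h3 : c.N ^ (-(4 * e.s0)) * c.N⁻¹ ≤ B * (1 / 12) := mul_le_mul_of_nonneg_left h2 hB0.le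
    linarith [hAdm.hχ.2]
  have heB : c.N ^ (-c.e0) ≤ B / 2 := by
    have h1 : c.N ^ (-c.e0) ≤ c.N ^ (-(96 * e.s0) + -(4 * e.s0)) := by
      refine Real.rpow_le_rpow_of_exponent_le hN1 ?_
      rw [hAdm.he]
      linarith [he.e0]
    rw [Real.rpow_add hN, Real.rpow_neg hN.le (96 * e.s0)] at h1
    have h2 : (c.N ^ (96 * e.s0))⁻¹ ≤ 1 / 2 := by
      rw [inv_eq_one_div]
      exact one_div_le_one_div_of_le (by norm_num) h96
    have h3 : (c.N ^ (96 * e.s0))⁻¹ * c.N ^ (-(4 * e.s0)) ≤ 1 / 2 * B := mul_le_mul_of_nonneg_right h2 hB0.le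
    linarith
  have hK1 := hInp.K1
  obtain ⟨E', hE'E, hRes, P, hP, hPl⟩ := k8y_core hc hK1 hInp.ok hInp.res hΦ hlab (by linarith : c.χ ≤ e.D c) hsA hs_pos (by linarith)
  -- the slack
  have hKK : 11 * K ^ 3 ≤ c.N ^ τ := by
    have h1 : K ^ 3 ≤ (c.N ^ (τ / 4)) ^ 3 := pow_le_pow_left₀ (by linarith) hKτ 3
    have h2 : c.N ^ τ = c.N ^ (τ / 4) * (c.N ^ (τ / 4)) ^ 3 := by
      rw [← Real.rpow_natCast, ← Real.rpow_mul hN.le, ← Real.rpow_add hN]
      congr 1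
      push_cast
      ring
    rw [h2]
    exact mul_le_mul h11 h1 (by positivity) (by positivity)
  refine ⟨E', hE'E, ⟨hRes.sub, hRes.meas, le_trans (ENNReal.ofReal_le_ofReal ?_) hRes.mass⟩, P,
    k8y_lay_mono hKK (Real.rpow_pos_of_pos hN _).le hD0.le hP, hPl⟩
  refine one_div_le_one_div_of_le (by linarith) ?_
  nlinarith [pow_le_pow_left₀ zero_le_one hK1 3, pow_le_pow_right₀ hK1 (show 1 ≤ 3 by norm_num)]

end

end Claimed.Agent.R252
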