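import Claimed.Agent.R252.S8w.ProjDefs

/-!
# Row 252, S8w, stage S2, leaf L-252-S8wp-ADM  (CONTRACT)      the data of Thm 7.1 in one chart are admissible   (08 l.946-952, l.846-852)      (architect helper167)
PAPER-FREE.   Notation: `z₀ ∈ E`, `l₀ = z₀.1`, `As = a.F.asg c.χ D l₀`, `g = H.grp c.χ D l₀`, `h = a.pr1 l₀`, `A₀ = c.a sA`, `Dt = a.dat c sA D E l₀` (`ProjDefs`).
PLANS.
* `k8wp_asg_meas` : `As = dom ∩ {grp = g} ∩ {pr = pr l₀}`; `lab.mdom`, `lab.mpr`; `{grp = g}` = preimages of floors of measurable functions (`ok.mv`, `ok.mp`, `ok.mq0`; `Int.measurable_floor` / `measurableSet_eq_fun`).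
* `k8wp_dat_y`, `k8wp_dat_x` : unfold `K8wCh.dat`, `k8wpD`, `K7aData.y`, `K7aData.x`, `Set.indicator_of_mem`, `k8wR`, `k8wpX`, `K7bHor.Xt`, `K8Pr.ev`; `ring` / `field_simp`.
* `k8wp_bin01` : `grp l = g` gives `(H.p l - g.2.1 D)/D ∈ [0, 1)`, `(H.q0 l - g.2.2 D)/D ∈ [0, 1)` (`k7b5b_bin_sub`).
* `k8wp_x_le` : `ch.same` gives `a.pr1 l = a.pr1 l₀` on `As`; `ch.fit1`.
* `k8wp_mu_apply` : `Measure.smul_apply`, `Measure.restrict_apply'` (the restricting set is measurable).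
* `k8wp_nu_lo` : `lab.floor` at `z₀`, then `ok.dom` : `lam (E ∩ inc) ≤ K (ν.prod time)(As ×ˢ univ) ≤ K ν As` (`Measure.prod_prod`, `k7bTime univ = 1`).
* `k8wp_adm` : `prob` from `0 < ν As ≤ 1`; `meas` by `Measurable.indicator`; `bd` : outside `As` all coefficients are `0`; on `As`: `|y0| ≤ 1`, `|y1| ≤ 2`, `x0 = x°(0)`, `x1 = x°(1) - x°(0)`;
  `dom` : `lam.restrict (E ∩ fst⁻¹ As) ≤ K (ν.prod time).restrict (As ×ˢ univ) = K (ν.restrict As).prod time` (`Measure.prod_restrict`); `mass` = `lab.prior` at `z₀`.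
-/

set_option autoImplicit false

namespace Claimed.Agent.R252

open MeasureTheory
open scoped ENNReal BigOperators

variable {H : K7bHor} {a : K8wCh H} {c : K7bPar} {K sA D s σ D' u1 : ℝ} {T : Finset ℝ} {E : Set (H.Lam × ℝ)}

theorem k8wp_asg_meas (hI : K8wpIn H a c K sA D s σ D' u1 T E) (l₀ : H.Lam) : MeasurableSet (a.F.asg c.χ D l₀) := by
  have hg : Measurable (H.grp c.χ D) :=
    (Int.measurable_floor.comp (hI.ok.mv.div_const _)).prodMk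
      ((Int.measurable_floor.comp (hI.ok.mp.div_const _)).prodMk (Int.measurable_floor.comp (hI.ok.mq0.div_const _)))
  exact hI.ch.lab.mdom.inter ((hg (measurableSet_singleton _)).inter (hI.ch.lab.mpr _))

theorem k8wp_dat_y (a : K8wCh H) (c : K7bPar) (sA D : ℝ) (E : Set (H.Lam × ℝ)) (l₀ : H.Lam) {l : H.Lam} (hl : l ∈ a.F.asg c.χ D l₀) (t : ℝ) :
    (a.dat c sA D E l₀).y l t = k8wR D (H.grp c.χ D l₀) (H.p l) (H.q0 l) t ∧
      (a.dat c sA D E l₀).y1 l = -2 * ((H.p l - (H.grp c.χ D l₀).2.1 * D) / D) := by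
  have h0 : (a.dat c sA D E l₀).y0 l = (H.q0 l - (H.grp c.χ D l₀).2.2 * D) / D :=
    Set.indicator_of_mem hl fun l => (H.q0 l - (H.grp c.χ D l₀).2.2 * D) / D
  have h1 : (a.dat c sA D E l₀).y1 l = -2 * ((H.p l - (H.grp c.χ D l₀).2.1 * D) / D) :=
    Set.indicator_of_mem hl fun l => -2 * ((H.p l - (H.grp c.χ D l₀).2.1 * D) / D)
  refine ⟨?_, h1⟩
  show (a.dat c sA D E l₀).y0 l + (a.dat c sA D E l₀).y1 l * t
    = (H.q0 l - (H.grp c.χ D l₀).2.2 * D) / D - 2 * t * ((H.p l - (H.grp c.χ D l₀).2.1 * D) / D)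
  rw [h0, h1]
  ring

theorem k8wp_dat_x (a : K8wCh H) (c : K7bPar) (sA D : ℝ) (E : Set (H.Lam × ℝ)) (l₀ : H.Lam) {l : H.Lam} (hl : l ∈ a.F.asg c.χ D l₀) (t : ℝ) :
    (a.dat c sA D E l₀).x l t = k8wpX H (c.a sA) (a.pr1 l₀) l t := by
  have h0 : (a.dat c sA D E l₀).x0 l
      = (H.x0 l - ((a.pr1 l₀).c0 + (a.pr1 l₀).p0 * H.p l + (a.pr1 l₀).q0 * H.q0 l)) / c.a sA :=
    Set.indicator_of_mem hl fun l => (H.x0 l - ((a.pr1 l₀).c0 + (a.pr1 l₀).p0 * H.p l + (a.pr1 l₀).q0 * H.q0 l)) / c.a sA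
  have h1 : (a.dat c sA D E l₀).x1 l
      = (H.x1 l - ((a.pr1 l₀).c1 + (a.pr1 l₀).p1 * H.p l + (a.pr1 l₀).q1 * H.q0 l)) / c.a sA :=
    Set.indicator_of_mem hl fun l => (H.x1 l - ((a.pr1 l₀).c1 + (a.pr1 l₀).p1 * H.p l + (a.pr1 l₀).q1 * H.q0 l)) / c.a sA
  have h2 : (a.dat c sA D E l₀).x2 l = 0 := rfl
  show (a.dat c sA D E l₀).x0 l + (a.dat c sA D E l₀).x1 l * t + (a.dat c sA D E l₀).x2 l * t ^ 2
    = ((H.x0 l + t * H.x1 l) - (((a.pr1 l₀).c0 + (a.pr1 l₀).c1 * t) + ((a.pr1 l₀).p0 + (a.pr1 l₀).p1 * t) * H.p l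
      + ((a.pr1 l₀).q0 + (a.pr1 l₀).q1 * t) * H.q0 l)) / c.a sA
  rw [h0, h1, h2]
  ring

theorem k8wp_bin01 (H : K7bHor) {χ D : ℝ} (hD : 0 < D) {l : H.Lam} {g : ℤ × ℤ × ℤ} (hg : H.grp χ D l = g) :
    (H.p l - g.2.1 * D) / D ∈ Set.Ico (0 : ℝ) 1 ∧ (H.q0 l - g.2.2 * D) / D ∈ Set.Ico (0 : ℝ) 1 := by
  subst hg
  obtain ⟨a1, a2⟩ := k7b5b_bin_sub D (H.p l) hD
  obtain ⟨b1, b2⟩ := k7b5b_bin_sub D (H.q0 l) hD
  exact ⟨⟨div_nonneg a1 hD.le, (div_lt_one hD).2 a2⟩, ⟨div_nonneg b1 hD.le, (div_lt_one hD).2 b2⟩⟩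

theorem k8wp_a_A0_pos (hI : K8wpIn H a c K sA D s σ D' u1 T E) : 0 < c.a sA :=
  Real.rpow_pos_of_pos (lt_of_lt_of_le one_pos hI.wf.N1) _

theorem k8wp_x_le (hI : K8wpIn H a c K sA D s σ D' u1 T E) {l₀ l : H.Lam} (hl₀ : l₀ ∈ a.F.dom) (hl : l ∈ a.F.asg c.χ D l₀) {t : ℝ}
    (ht : t ∈ Set.Icc (0 : ℝ) 1) : a.pr1 l = a.pr1 l₀ ∧ |k8wpX H (c.a sA) (a.pr1 l₀) l t| ≤ K := by
  have h1 : a.pr1 l = a.pr1 l₀ := hI.ch.same l hl.1 l₀ hl₀ hl.2.1 hl.2.2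
  refine ⟨h1, ?_⟩
  have h2 := hI.ch.fit1 l hl.1 t ht
  rw [h1] at h2
  have hA := k8wp_a_A0_pos hI
  show |(H.Xt l t - (a.pr1 l₀).ev t (H.p l) (H.q0 l)) / c.a sA| ≤ K
  rw [abs_div, abs_of_pos hA, div_le_iff₀ hA]
  exact h2

theorem k8wp_mu_apply (hI : K8wpIn H a c K sA D s σ D' u1 T E) (l₀ : H.Lam) (S : Set (H.Lam × ℝ)) :
    (a.dat c sA D E l₀).mu S = (H.ν (a.F.asg c.χ D l₀))⁻¹ * H.lam (S ∩ (E ∩ {z | z.1 ∈ a.F.asg c.χ D l₀})) := by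
  have hm : MeasurableSet (E ∩ Prod.fst ⁻¹' a.F.asg c.χ D l₀) := hI.mE.inter (measurable_fst (k8wp_asg_meas hI l₀))
  show ((H.ν (a.F.asg c.χ D l₀))⁻¹ • H.lam.restrict (E ∩ Prod.fst ⁻¹' a.F.asg c.χ D l₀)) S = _
  rw [Measure.smul_apply, Measure.restrict_apply' hm, smul_eq_mul]
  rfl

theorem k8wp_a_time : IsProbabilityMeasure k7bTime := by
  refine ⟨?_⟩
  show (volume.restrict (Set.Icc (0 : ℝ) 1)) Set.univ = 1
  rw [Measure.restrict_apply_univ, Real.volume_Icc]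
  norm_num

/-- the incidences of a chart have mass `≤ K ν(As)` -/
theorem k8wp_lam_le (hI : K8wpIn H a c K sA D s σ D' u1 T E) (l₀ : H.Lam) :
    H.lam {z | z.1 ∈ a.F.asg c.χ D l₀} ≤ ENNReal.ofReal K * H.ν (a.F.asg c.χ D l₀) := by
  have := k8wp_a_time
  have h1 := hI.ok.dom {z | z.1 ∈ a.F.asg c.χ D l₀}
  have h2 : {z : H.Lam × ℝ | z.1 ∈ a.F.asg c.χ D l₀} = a.F.asg c.χ D l₀ ×ˢ Set.univ := Set.prod_univ.symm
  rw [Measure.smul_apply, smul_eq_mul] at h1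
  refine h1.trans (le_of_eq ?_)
  rw [h2, Measure.prod_prod, measure_univ, mul_one]

/-- the prior denominator of a chart is at least `W_G A₀^d / K²` -/
theorem k8wp_nu_lo (hI : K8wpIn H a c K sA D s σ D' u1 T E) {z₀ : H.Lam × ℝ} (hz : z₀ ∈ E) :
    H.gW c.χ D (H.grp c.χ D z₀.1) * ENNReal.ofReal (c.a sA ^ c.d) ≤ ENNReal.ofReal (K ^ 2) * H.ν (a.F.asg c.χ D z₀.1) := by
  have hK0 : 0 ≤ K := zero_le_one.trans hI.K1
  calc H.gW c.χ D (H.grp c.χ D z₀.1) * ENNReal.ofReal (c.a sA ^ c.d)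
      ≤ ENNReal.ofReal K * H.lam (E ∩ a.F.inc c.χ D z₀.1) := hI.ch.lab.floor z₀ hz
    _ ≤ ENNReal.ofReal K * H.lam {z | z.1 ∈ a.F.asg c.χ D z₀.1} := by
        gcongr
        exact Set.inter_subset_right
    _ ≤ ENNReal.ofReal K * (ENNReal.ofReal K * H.ν (a.F.asg c.χ D z₀.1)) := by
        gcongr
        exact k8wp_lam_le hI z₀.1
    _ = _ := by rw [← mul_assoc, ← ENNReal.ofReal_mul hK0, sq]

theorem k8wp_adm (hI : K8wpIn H a c K sA D s σ D' u1 T E) {z₀ : H.Lam × ℝ} (hz : z₀ ∈ E) (hν : H.ν (a.F.asg c.χ D z₀.1) ≠ 0) :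
    (a.dat c sA D E z₀.1).Adm (2 * K) := by
  have hK1 := hI.K1
  have hK0 : 0 ≤ K := zero_le_one.trans hK1
  have hAs := k8wp_asg_meas hI z₀.1
  have hνT : H.ν (a.F.asg c.χ D z₀.1) ≠ ⊤ :=
    ne_top_of_le_ne_top ENNReal.one_ne_top ((measure_mono (Set.subset_univ _)).trans hI.ok.νle)
  have hdom : z₀.1 ∈ a.F.dom := hI.ch.lab.cover z₀ hz
  have := k8wp_a_time
  have hfinν : IsFiniteMeasure H.ν := ⟨lt_of_le_of_lt hI.ok.νle ENNReal.one_lt_top⟩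
  refine ⟨⟨?_⟩, ?_, fun l => ?_, ?_, ?_⟩
  · show ((H.ν (a.F.asg c.χ D z₀.1))⁻¹ • H.ν.restrict (a.F.asg c.χ D z₀.1)) Set.univ = 1
    rw [Measure.smul_apply, Measure.restrict_apply_univ, smul_eq_mul]
    exact ENNReal.inv_mul_cancel hν hνT
  · have h0 : Measurable (a.dat c sA D E z₀.1).y0 := ((hI.ok.mq0.sub_const _).div_const _).indicator hAs
    have h1 : Measurable (a.dat c sA D E z₀.1).y1 := (((hI.ok.mp.sub_const _).div_const _).const_mul _).indicator hAs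
    have h2 : Measurable (a.dat c sA D E z₀.1).x0 :=
      ((hI.ok.mx0.sub (((hI.ok.mp.const_mul _).const_add _).add (hI.ok.mq0.const_mul _))).div_const _).indicator hAs
    have h3 : Measurable (a.dat c sA D E z₀.1).x1 :=
      ((hI.ok.mx1.sub (((hI.ok.mp.const_mul _).const_add _).add (hI.ok.mq0.const_mul _))).div_const _).indicator hAs
    have h4 : Measurable (a.dat c sA D E z₀.1).x2 := measurable_const
    exact h0.prodMk (h1.prodMk (h2.prodMk (h3.prodMk h4)))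
  · have h4 : (a.dat c sA D E z₀.1).x2 l = 0 := rfl
    have h2K : 0 ≤ 2 * K := by linarith
    by_cases hl : l ∈ a.F.asg c.χ D z₀.1
    · obtain ⟨⟨p0, p1⟩, ⟨q0, q1⟩⟩ := k8wp_bin01 H hI.M.D0 hl.2.1
      have e0 : (a.dat c sA D E z₀.1).y0 l = (H.q0 l - (H.grp c.χ D z₀.1).2.2 * D) / D :=
        Set.indicator_of_mem hl fun l => (H.q0 l - (H.grp c.χ D z₀.1).2.2 * D) / D
      have e1 := (k8wp_dat_y a c sA D E z₀.1 hl 0).2
      have x0 := k8wp_dat_x a c sA D E z₀.1 hl 0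
      have x1 := k8wp_dat_x a c sA D E z₀.1 hl 1
      have b0 := abs_le.1 (k8wp_x_le hI hdom hl (t := 0) ⟨le_rfl, zero_le_one⟩).2
      have b1 := abs_le.1 (k8wp_x_le hI hdom hl (t := 1) ⟨zero_le_one, le_rfl⟩).2
      rw [← x0] at b0
      rw [← x1] at b1
      have y0 : (a.dat c sA D E z₀.1).x l 0 = (a.dat c sA D E z₀.1).x0 l := by
        show (a.dat c sA D E z₀.1).x0 l + (a.dat c sA D E z₀.1).x1 l * 0 + (a.dat c sA D E z₀.1).x2 l * 0 ^ 2 = _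
        ring
      have y1 : (a.dat c sA D E z₀.1).x l 1 = (a.dat c sA D E z₀.1).x0 l + (a.dat c sA D E z₀.1).x1 l := by
        show (a.dat c sA D E z₀.1).x0 l + (a.dat c sA D E z₀.1).x1 l * 1 + (a.dat c sA D E z₀.1).x2 l * 1 ^ 2 = _
        rw [h4]
        ring
      rw [y0] at b0
      rw [y1] at b1
      refine ⟨?_, ?_, ?_, ?_, ?_⟩
      · rw [e0]; exact abs_le.2 ⟨by linarith, by linarith⟩
      · rw [e1]; exact abs_le.2 ⟨by linarith, by linarith⟩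
      · exact abs_le.2 ⟨by linarith [b0.1], by linarith [b0.2]⟩
      · exact abs_le.2 ⟨by linarith [b0.1, b0.2, b1.1, b1.2], by linarith [b0.1, b0.2, b1.1, b1.2]⟩
      · rw [h4, abs_zero]; exact h2K
    · have e0 : (a.dat c sA D E z₀.1).y0 l = 0 :=
        Set.indicator_of_notMem hl fun l => (H.q0 l - (H.grp c.χ D z₀.1).2.2 * D) / D
      have e1 : (a.dat c sA D E z₀.1).y1 l = 0 :=
        Set.indicator_of_notMem hl fun l => -2 * ((H.p l - (H.grp c.χ D z₀.1).2.1 * D) / D)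
      have e2 : (a.dat c sA D E z₀.1).x0 l = 0 := Set.indicator_of_notMem hl fun l =>
        (H.x0 l - ((a.pr1 z₀.1).c0 + (a.pr1 z₀.1).p0 * H.p l + (a.pr1 z₀.1).q0 * H.q0 l)) / c.a sA
      have e3 : (a.dat c sA D E z₀.1).x1 l = 0 := Set.indicator_of_notMem hl fun l =>
        (H.x1 l - ((a.pr1 z₀.1).c1 + (a.pr1 z₀.1).p1 * H.p l + (a.pr1 z₀.1).q1 * H.q0 l)) / c.a sA
      rw [e0, e1, e2, e3, h4, abs_zero]
      exact ⟨h2K, h2K, h2K, h2K, h2K⟩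
  · show (H.ν (a.F.asg c.χ D z₀.1))⁻¹ • H.lam.restrict (E ∩ Prod.fst ⁻¹' a.F.asg c.χ D z₀.1)
      ≤ ENNReal.ofReal (2 * K) • ((H.ν (a.F.asg c.χ D z₀.1))⁻¹ • H.ν.restrict (a.F.asg c.χ D z₀.1)).prod k7bTime
    have h1 : H.lam.restrict (E ∩ Prod.fst ⁻¹' a.F.asg c.χ D z₀.1)
        ≤ (ENNReal.ofReal K • H.ν.prod k7bTime).restrict (a.F.asg c.χ D z₀.1 ×ˢ Set.univ) := by
      rw [Set.prod_univ]
      exact Measure.restrict_mono Set.inter_subset_right hI.ok.dom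
    have h2 : (ENNReal.ofReal K • H.ν.prod k7bTime).restrict (a.F.asg c.χ D z₀.1 ×ˢ Set.univ)
        = ENNReal.ofReal K • (H.ν.restrict (a.F.asg c.χ D z₀.1)).prod k7bTime := by
      rw [Measure.restrict_smul, ← Measure.prod_restrict, Measure.restrict_univ]
    rw [h2] at h1
    rw [Measure.prod_smul_left, smul_comm]
    refine Measure.le_iff.2 fun S _ => ?_
    simp only [Measure.smul_apply, smul_eq_mul]
    have h3 := h1 S
    rw [Measure.smul_apply, smul_eq_mul] at h3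
    gcongr
    refine h3.trans ?_
    gcongr
    linarith
  · rw [k8wp_mu_apply hI, Set.univ_inter]
    have h1 := hI.ch.lab.prior z₀ hz
    calc (1 : ℝ≥0∞) = (H.ν (a.F.asg c.χ D z₀.1))⁻¹ * H.ν (a.F.asg c.χ D z₀.1) := (ENNReal.inv_mul_cancel hν hνT).symm
      _ ≤ (H.ν (a.F.asg c.χ D z₀.1))⁻¹ * (ENNReal.ofReal (2 * K) * H.lam (E ∩ {z | z.1 ∈ a.F.asg c.χ D z₀.1})) := by
          gcongr
          refine h1.trans ?_
          refine mul_le_mul' (ENNReal.ofReal_le_ofReal (by linarith)) le_rfl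
      _ = _ := by ring

end Claimed.Agent.R252
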