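import Claimed.Agent.R252.S8w.ProjExt
import Claimed.Agent.R252.S8w.ProjAdm

/-!
# Row 252, S8w, stage S2, leaves L-252-S8wp-BA, -BB, -BC  (CONTRACT: 3 sorries)      one affine entry gives `≤ K` bins of `x°` on a `(t, R)`-cell   (08 l.976-1003)      (architect helper167)
PAPER-FREE.   `A₀ = c.a sA`, `g = H.grp c.χ D l₀`, `p_c = g.2.1 D`, `q_c = g.2.2 D`, `v_c = g.1 χ`, `h = a.pr1 l₀`, `Λ = K (1 + a_s / h_s²)`;  margin `M.var : (1 + a_s/h_s²)(χ + N^(-e₀) + σ) ≤ a_s`, i.e. `Λ (χ + N^(-e₀) + σ) ≤ K a_s`.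
`k8wpPsi L v h t p q = k8Cal L v t p q - h.ev t p q`   (the evaluated entry, times `A₀`).

## BA `k8wp_slopes` : ordinary slopes of an entry `L = entOf s z = (c, α₁, α₂, γ)`, `z ∈ E` : `|γ| ≤ Λ`, `|α₂| ≤ 2Λ`, `|α₁| ≤ (1 + 2K) Λ`.
 `ch.prep.slopes s z`;  `a_s/h_s ≤ a_s/h_s²` (`h_s ≤ 1`);  `|t| ≤ 1`, `|Z| ≤ 2K` (`ok.time`, `ok.bdd`).
## BB `k8wp_collapse` : for `z` in the chart, `|X z - h.ev t p q₀ - Ψ(t, p_c, q_c + D R(t))| ≤ 4 K a_s`,  `Ψ = k8wpPsi (entOf s z) v_c h`.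
 (1) `ok.entfit s z` at `t = z.2` (`ok.labmem`) : `|X - k7bAff L (base z)| ≤ K a_s`.   (2) `k7bAff L (base z) - k8Cal L v_c t p q₀ = α₂ t (v - v_c) + γ t (y1 + p)` (`ring`), `≤ 2Λ χ + Λ N^(-e₀) ≤ 2 K a_s`.
 (3) `Ψ(t, p, q₀) - Ψ(t, p_c, q₀ - 2t(p - p_c)) = (p - p_c) (k8wDL L t - h.dW t)` (`ring`), `≤ K a_s` by `ch.coll` (`a.pr1 z.1 = h`: `k8wp_x_le`; `0 ≤ p - p_c ≤ D`);   `q₀ - 2t(p - p_c) = q_c + D R(t)` (`field_simp`).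
## BC `k8wp_entry_two` : two incidences `z, z₁` of one cell with THE SAME entry of depth `s` : `|x°(z) - x°(z₁)| ≤ C K^C w`, `w = a_s / A₀`.
 By BB it suffices to bound `Ψ(t, p_c, q_c + D R) - Ψ(t₁, p_c, q_c + D R₁)`, `|t - t₁| ≤ σ`, `|R - R₁| ≤ σ`.
 `∂_q Ψ = γ - (h.q0 + h.q1 t)` : `≤ Λ + K / D` (`k8wp_aff_slope` from `ch.norm1` at `l₀`), times `D σ` : `≤ 2 Λ σ`.
 `∂_t Ψ` at fixed `(p_c, q*)`, `q* = q_c + D R₁`, `R₁ ∈ [-2, 1]` : `α₁ + α₂ v_c - γ p_c - (h.ev 1 p_c q* - h.ev 0 p_c q*)`, `≤ (1 + 2K)Λ + 2Λ(K+1) + Λ(K+1) + 2·5K` (`k8wp_aff_ext` with `ρ = 4`; `|v_c| ≤ K + 1`, `|p_c| ≤ K + 1`), times `σ`.   (`Ψ` is a polynomial: write the difference by `ring` as `(t - t₁)·(..) + D (R - R₁)·(..)`.)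
 Divide by `A₀ > 0`.
-/

set_option autoImplicit false

namespace Claimed.Agent.R252

open MeasureTheory
open scoped ENNReal BigOperators

/-- the evaluated entry (times `A₀`) -/
noncomputable def k8wpPsi (L : ℝ × ℝ × ℝ × ℝ) (v : ℝ) (h : K8Pr) (t p q : ℝ) : ℝ := k8Cal L v t p q - h.ev t p q

theorem k8wp_bins_eqns_cite : True := by
  have := @k8wpPsi.eq_1
  trivial

variable {H : K7bHor} {a : K8wCh H} {c : K7bPar} {K sA D s σ D' u1 : ℝ} {T : Finset ℝ} {E : Set (H.Lam × ℝ)}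

theorem k8wp_b_basic (hI : K8wpIn H a c K sA D s σ D' u1 T E) :
    s ∈ c.G ∧ E ⊆ H.Sp ∧ 0 < c.a s ∧ 0 < σ ∧ 0 ≤ c.N ^ (-c.e0) ∧
    K ≤ K * (1 + c.a s / c.h s ^ 2) ∧ K * (1 + c.a s / c.h s) ≤ K * (1 + c.a s / c.h s ^ 2) ∧
    K * (1 + c.a s / c.h s ^ 2) * (c.χ + c.N ^ (-c.e0) + σ) ≤ K * c.a s := by
  have hK := hI.K1
  have hK0 : 0 < K := by linarith
  have hN0 : 0 < c.N := by linarith [hI.wf.N1]
  have hsG := (hI.ch.TG s hI.sT).1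
  have hs0 := hI.wf.G0 s hsG
  have ha : 0 < c.a s := Real.rpow_pos_of_pos hN0 _
  have hh : 0 < c.h s := Real.rpow_pos_of_pos hN0 _
  have hh1 : c.h s ≤ 1 := by
    unfold K7bPar.h
    exact Real.rpow_le_one_of_one_le_of_nonpos hI.wf.N1 (by have := mul_nonneg hI.wf.k0.le hs0; linarith)
  obtain ⟨m, hm⟩ := hI.M.σdy
  have hσ : 0 < σ := by rw [hm]; positivity
  refine ⟨hsG, hI.ch.prep.sub.trans hI.ch.prep.sub0, ha, hσ, (Real.rpow_pos_of_pos hN0 _).le, ?_, ?_, ?_⟩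
  · have : 0 ≤ c.a s / c.h s ^ 2 := by positivity
    nlinarith
  · have : c.a s / c.h s ≤ c.a s / c.h s ^ 2 := by
      apply div_le_div_of_nonneg_left ha.le (by positivity)
      nlinarith
    gcongr
  · have := hI.M.var
    calc K * (1 + c.a s / c.h s ^ 2) * (c.χ + c.N ^ (-c.e0) + σ)
        = K * ((1 + c.a s / c.h s ^ 2) * (c.χ + c.N ^ (-c.e0) + σ)) := by ring
      _ ≤ K * c.a s := by gcongr

theorem k8wp_slopes (hI : K8wpIn H a c K sA D s σ D' u1 T E) {z : H.Lam × ℝ} (hz : z ∈ E) :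
    |(H.entOf s z).2.2.2| ≤ K * (1 + c.a s / c.h s ^ 2) ∧ |(H.entOf s z).2.2.1| ≤ 2 * (K * (1 + c.a s / c.h s ^ 2)) ∧
      |(H.entOf s z).2.1| ≤ (1 + 2 * K) * (K * (1 + c.a s / c.h s ^ 2)) := by
  obtain ⟨hsG, hESp, ha, hσ, hNe, hKΛ, hΛ', hvar⟩ := k8wp_b_basic hI
  have hK := hI.K1
  obtain ⟨s1, s2, s3⟩ := hI.ch.prep.slopes s hsG z hz
  have hzS := hESp hz
  have ht := hI.ok.time z hzS
  obtain ⟨bp, bv, -, -⟩ := hI.ok.bdd z hzS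
  obtain ⟨Λ, hΛdef⟩ : ∃ Λ, Λ = K * (1 + c.a s / c.h s ^ 2) := ⟨_, rfl⟩
  rw [← hΛdef] at s3 hKΛ hΛ' ⊢
  have hΛ0 : 0 ≤ Λ := by linarith
  have ht1 : |z.2| ≤ 1 := abs_le.2 ⟨by linarith [ht.1], ht.2⟩
  have hZ : |H.Zt z.1 z.2| ≤ 2 * K := by
    unfold K7bHor.Zt
    calc |H.p z.1 + z.2 * H.v z.1| ≤ |H.p z.1| + |z.2 * H.v z.1| := abs_add_le _ _
      _ ≤ K + 1 * K := by
          rw [abs_mul]
          gcongr
      _ = 2 * K := by ring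
  refine ⟨s3, ?_, ?_⟩
  · calc |(H.entOf s z).2.2.1| = |((H.entOf s z).2.2.1 + (H.entOf s z).2.2.2 * z.2) - (H.entOf s z).2.2.2 * z.2| := by
          congr 1
          ring
      _ ≤ |(H.entOf s z).2.2.1 + (H.entOf s z).2.2.2 * z.2| + |(H.entOf s z).2.2.2 * z.2| := abs_sub _ _
      _ ≤ Λ + Λ * 1 := by
          rw [abs_mul]
          gcongr
          exact s2.trans hΛ'
      _ = 2 * Λ := by ring
  · calc |(H.entOf s z).2.1| = |((H.entOf s z).2.1 + (H.entOf s z).2.2.2 * (-(H.Zt z.1 z.2)))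
            + (H.entOf s z).2.2.2 * H.Zt z.1 z.2| := by
          congr 1
          ring
      _ ≤ |(H.entOf s z).2.1 + (H.entOf s z).2.2.2 * (-(H.Zt z.1 z.2))| + |(H.entOf s z).2.2.2 * H.Zt z.1 z.2| :=
          abs_add_le _ _
      _ ≤ Λ + Λ * (2 * K) := by
          rw [abs_mul]
          gcongr
          exact s1.trans hΛ'
      _ = (1 + 2 * K) * Λ := by ring

theorem k8wp_collapse (hI : K8wpIn H a c K sA D s σ D' u1 T E) {l₀ : H.Lam} (hl₀ : l₀ ∈ a.F.dom) {z : H.Lam × ℝ} (hz : z ∈ E)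
    (hzA : z.1 ∈ a.F.asg c.χ D l₀) :
    |H.X z - (a.pr1 l₀).ev z.2 (H.p z.1) (H.q0 z.1) -
      k8wpPsi (H.entOf s z) ((H.grp c.χ D l₀).1 * c.χ) (a.pr1 l₀) z.2 ((H.grp c.χ D l₀).2.1 * D)
        ((H.grp c.χ D l₀).2.2 * D + D * k8wR D (H.grp c.χ D l₀) (H.p z.1) (H.q0 z.1) z.2)| ≤ 4 * K * c.a s := by
  obtain ⟨hsG, hESp, ha, hσ, hNe, hKΛ, hΛ', hvar⟩ := k8wp_b_basic hI
  obtain ⟨g1, g2, g3⟩ := k8wp_slopes hI hz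
  have hK := hI.K1
  have hzS := hESp hz
  have ht := hI.ok.time z hzS
  have ht1 : |z.2| ≤ 1 := abs_le.2 ⟨by linarith [ht.1], ht.2⟩
  have hD := hI.M.D0
  have hχ := hI.wf.χ0
  have hgrp : H.grp c.χ D z.1 = H.grp c.χ D l₀ := hzA.2.1
  have hpr : a.pr1 z.1 = a.pr1 l₀ := (k8wp_x_le hI hl₀ hzA ht).1
  have hfit := hI.ok.entfit s hsG z hzS z.2 (hI.ok.labmem s hsG z hzS).2.1
  have hcoll := hI.ch.coll s hI.sT z hz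
  rw [hpr] at hcoll
  have hheq := hI.ok.heq z hzS
  have bv := k7b5b_bin_sub c.χ (H.v z.1) hχ
  have bp := k7b5b_bin_sub D (H.p z.1) hD
  have e1 : k7bBin c.χ (H.v z.1) = (H.grp c.χ D l₀).1 := by rw [← hgrp]; rfl
  have e2 : k7bBin D (H.p z.1) = (H.grp c.χ D l₀).2.1 := by rw [← hgrp]; rfl
  rw [e1] at bv
  rw [e2] at bp
  obtain ⟨Λ, hΛdef⟩ : ∃ Λ, Λ = K * (1 + c.a s / c.h s ^ 2) := ⟨_, rfl⟩
  rw [← hΛdef] at g1 g2 g3 hKΛ hvar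
  have hΛ0 : 0 ≤ Λ := by linarith
  have hq : ((H.grp c.χ D l₀).2.2 : ℝ) * D + D * k8wR D (H.grp c.χ D l₀) (H.p z.1) (H.q0 z.1) z.2
      = H.q0 z.1 - 2 * z.2 * (H.p z.1 - (H.grp c.χ D l₀).2.1 * D) := by
    unfold k8wR
    field_simp
    ring
  rw [hq]
  have id : H.X z - (a.pr1 l₀).ev z.2 (H.p z.1) (H.q0 z.1) -
      k8wpPsi (H.entOf s z) ((H.grp c.χ D l₀).1 * c.χ) (a.pr1 l₀) z.2 ((H.grp c.χ D l₀).2.1 * D)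
        (H.q0 z.1 - 2 * z.2 * (H.p z.1 - (H.grp c.χ D l₀).2.1 * D))
      = (H.Xt z.1 z.2 - k7bAff (H.entOf s z) (H.bs z.1 z.2))
        + ((H.entOf s z).2.2.1 * z.2 * (H.v z.1 - (H.grp c.χ D l₀).1 * c.χ)
            + (H.entOf s z).2.2.2 * z.2 * (H.y1 z.1 + H.p z.1))
        + (H.p z.1 - (H.grp c.χ D l₀).2.1 * D) * (k8wDL (H.entOf s z) z.2 - (a.pr1 l₀).dW z.2) := by
    unfold k8wpPsi k8Cal k7bAff K8Pr.ev K8Pr.dW k8wDL K7bHor.X K7bHor.bs K7bHor.Zt K7bHor.Yt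
    simp only
    ring
  rw [id]
  have B2 : |(H.entOf s z).2.2.1 * z.2 * (H.v z.1 - (H.grp c.χ D l₀).1 * c.χ)
            + (H.entOf s z).2.2.2 * z.2 * (H.y1 z.1 + H.p z.1)| ≤ 2 * (K * c.a s) := by
    have hv : |H.v z.1 - (H.grp c.χ D l₀).1 * c.χ| ≤ c.χ := by
      rw [abs_of_nonneg bv.1]
      exact bv.2.le
    calc _ ≤ |(H.entOf s z).2.2.1 * z.2 * (H.v z.1 - (H.grp c.χ D l₀).1 * c.χ)|
            + |(H.entOf s z).2.2.2 * z.2 * (H.y1 z.1 + H.p z.1)| := abs_add_le _ _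
      _ ≤ 2 * Λ * 1 * c.χ + Λ * 1 * c.N ^ (-c.e0) := by
          rw [abs_mul, abs_mul, abs_mul, abs_mul]
          gcongr
      _ ≤ 2 * (Λ * (c.χ + c.N ^ (-c.e0) + σ)) := by
          have h1 : 0 ≤ Λ * c.N ^ (-c.e0) := mul_nonneg hΛ0 hNe
          have h2 : 0 ≤ Λ * σ := mul_nonneg hΛ0 hσ.le
          nlinarith
      _ ≤ 2 * (K * c.a s) := by gcongr
  have B3 : |(H.p z.1 - (H.grp c.χ D l₀).2.1 * D) * (k8wDL (H.entOf s z) z.2 - (a.pr1 l₀).dW z.2)| ≤ K * c.a s := by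
    rw [abs_mul, abs_of_nonneg bp.1]
    calc (H.p z.1 - (H.grp c.χ D l₀).2.1 * D) * |k8wDL (H.entOf s z) z.2 - (a.pr1 l₀).dW z.2|
        ≤ D * |k8wDL (H.entOf s z) z.2 - (a.pr1 l₀).dW z.2| := by
          gcongr
          exact bp.2.le
      _ = |k8wDL (H.entOf s z) z.2 - (a.pr1 l₀).dW z.2| * D := mul_comm _ _
      _ ≤ K * c.a s := hcoll
  calc _ ≤ |(H.Xt z.1 z.2 - k7bAff (H.entOf s z) (H.bs z.1 z.2))
        + ((H.entOf s z).2.2.1 * z.2 * (H.v z.1 - (H.grp c.χ D l₀).1 * c.χ)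
            + (H.entOf s z).2.2.2 * z.2 * (H.y1 z.1 + H.p z.1))|
        + |(H.p z.1 - (H.grp c.χ D l₀).2.1 * D) * (k8wDL (H.entOf s z) z.2 - (a.pr1 l₀).dW z.2)| := abs_add_le _ _
    _ ≤ (|H.Xt z.1 z.2 - k7bAff (H.entOf s z) (H.bs z.1 z.2)|
        + |(H.entOf s z).2.2.1 * z.2 * (H.v z.1 - (H.grp c.χ D l₀).1 * c.χ)
            + (H.entOf s z).2.2.2 * z.2 * (H.y1 z.1 + H.p z.1)|)
        + |(H.p z.1 - (H.grp c.χ D l₀).2.1 * D) * (k8wDL (H.entOf s z) z.2 - (a.pr1 l₀).dW z.2)| := by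
        gcongr
        exact abs_add_le _ _
    _ ≤ (K * c.a s + 2 * (K * c.a s)) + K * c.a s := by gcongr
    _ = 4 * K * c.a s := by ring

theorem k8wp_c_floor {σ x x' : ℝ} (hσ : 0 < σ) (h : ⌊x / σ⌋ = ⌊x' / σ⌋) : |x - x'| ≤ σ := by
  have h1 := Int.abs_sub_lt_one_of_floor_eq_floor h
  rw [← sub_div, abs_div, abs_of_pos hσ, div_lt_one hσ] at h1
  exact h1.le

theorem k8wp_c_psi (L : ℝ × ℝ × ℝ × ℝ) (h : K8Pr) (vc pc qc D R R₁ t t₁ : ℝ) :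
    k8wpPsi L vc h t pc (qc + D * R) - k8wpPsi L vc h t₁ pc (qc + D * R₁)
      = (R - R₁) * ((L.2.2.2 - (h.q0 + h.q1 * t)) * D)
        + (t - t₁) * (L.2.1 + L.2.2.1 * vc - L.2.2.2 * pc - (h.ev 1 pc (qc + D * R₁) - h.ev 0 pc (qc + D * R₁))) := by
  unfold k8wpPsi k8Cal k7bAff K8Pr.ev
  simp only
  ring

theorem k8wp_c_bound {L : ℝ × ℝ × ℝ × ℝ} {h : K8Pr} {vc pc qc D R R₁ t t₁ σ Λ K : ℝ}
    (hK : 1 ≤ K) (hKΛ : K ≤ Λ) (hσ : 0 < σ) (hD : 0 < D) (hD1 : D ≤ 1) (g1 : |L.2.2.2| ≤ Λ) (g2 : |L.2.2.1| ≤ 2 * Λ)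
    (g3 : |L.2.1| ≤ (1 + 2 * K) * Λ) (dt : |t - t₁| ≤ σ) (dR : |R - R₁| ≤ σ) (hvc : |vc| ≤ K + 1) (hpc : |pc| ≤ K + 1)
    (hsl : |h.q0 + h.q1 * t| * D ≤ K) (x1 : |h.ev 1 pc (qc + D * R₁)| ≤ (1 + 4) * K)
    (x0 : |h.ev 0 pc (qc + D * R₁)| ≤ (1 + 4) * K) :
    |k8wpPsi L vc h t pc (qc + D * R) - k8wpPsi L vc h t₁ pc (qc + D * R₁)| ≤ 21 * K * (Λ * σ) := by
  have hΛ0 : 0 ≤ Λ := by linarith
  rw [k8wp_c_psi]
  have T1 : |(R - R₁) * ((L.2.2.2 - (h.q0 + h.q1 * t)) * D)| ≤ σ * (2 * Λ) := by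
    rw [abs_mul]
    refine mul_le_mul dR ?_ (abs_nonneg _) hσ.le
    rw [abs_mul, abs_of_pos hD]
    calc |L.2.2.2 - (h.q0 + h.q1 * t)| * D
        ≤ (|L.2.2.2| + |h.q0 + h.q1 * t|) * D := by
          gcongr
          exact abs_sub _ _
      _ = |L.2.2.2| * D + |h.q0 + h.q1 * t| * D := by ring
      _ ≤ Λ * 1 + K := by gcongr
      _ ≤ 2 * Λ := by linarith
  have T2 : |(t - t₁) * (L.2.1 + L.2.2.1 * vc - L.2.2.2 * pc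
      - (h.ev 1 pc (qc + D * R₁) - h.ev 0 pc (qc + D * R₁)))| ≤ σ * (19 * K * Λ) := by
    rw [abs_mul]
    refine mul_le_mul dt ?_ (abs_nonneg _) hσ.le
    have u1 : |L.2.2.1 * vc| ≤ 2 * Λ * (K + 1) := by
      rw [abs_mul]
      gcongr
    have u2 : |L.2.2.2 * pc| ≤ Λ * (K + 1) := by
      rw [abs_mul]
      gcongr
    have y3 := abs_le.1 g3
    have y1 := abs_le.1 u1
    have y2 := abs_le.1 u2
    have y4 := abs_le.1 x1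
    have y5 := abs_le.1 x0
    have hKΛ2 : Λ ≤ K * Λ := by nlinarith
    have hKK : K ≤ K * Λ := by nlinarith
    rw [abs_le]
    constructor <;> linarith
  refine (abs_add_le _ _).trans ?_
  have h3 : Λ * σ ≤ K * (Λ * σ) := by
    have : 0 ≤ Λ * σ := mul_nonneg hΛ0 hσ.le
    nlinarith
  linarith

theorem k8wp_c_corner {H : K7bHor} {a : K8wCh H} {c : K7bPar} {K sA D s σ D' u1 : ℝ} {T : Finset ℝ} {E : Set (H.Lam × ℝ)}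
    (hI : K8wpIn H a c K sA D s σ D' u1 T E) {l₀ : H.Lam} (hl₀ : l₀ ∈ a.F.dom) {z₁ : H.Lam × ℝ} (hz₁E : z₁ ∈ E)
    (hz₁A : z₁.1 ∈ a.F.asg c.χ D l₀) {t : ℝ} (ht : t ∈ Set.Icc (0 : ℝ) 1) :
    |((H.grp c.χ D l₀).1 : ℝ) * c.χ| ≤ K + 1 ∧ |((H.grp c.χ D l₀).2.1 : ℝ) * D| ≤ K + 1 ∧
      |(a.pr1 l₀).q0 + (a.pr1 l₀).q1 * t| * D ≤ K ∧
      |(a.pr1 l₀).ev 1 ((H.grp c.χ D l₀).2.1 * D) ((H.grp c.χ D l₀).2.2 * D
          + D * k8wR D (H.grp c.χ D l₀) (H.p z₁.1) (H.q0 z₁.1) z₁.2)| ≤ (1 + 4) * K ∧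
      |(a.pr1 l₀).ev 0 ((H.grp c.χ D l₀).2.1 * D) ((H.grp c.χ D l₀).2.2 * D
          + D * k8wR D (H.grp c.χ D l₀) (H.p z₁.1) (H.q0 z₁.1) z₁.2)| ≤ (1 + 4) * K := by
  obtain ⟨hsG, hESp, ha, hσ, hNe, hKΛ, hΛ', hvar⟩ := k8wp_b_basic hI
  have hD := hI.M.D0
  have hD1 := hI.M.D1
  have hχ := hI.wf.χ0
  have hχ1 := hI.wf.χ1
  have ht₁ := hI.ok.time z₁ (hESp hz₁E)
  obtain ⟨g, hg⟩ : ∃ g, g = H.grp c.χ D l₀ := ⟨_, rfl⟩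
  obtain ⟨h, hh⟩ : ∃ h, h = a.pr1 l₀ := ⟨_, rfl⟩
  rw [← hg, ← hh]
  obtain ⟨R₁, hR₁⟩ : ∃ R₁, R₁ = k8wR D g (H.p z₁.1) (H.q0 z₁.1) z₁.2 := ⟨_, rfl⟩
  rw [← hR₁]
  have hR₁b : -2 ≤ R₁ ∧ R₁ ≤ 1 := by
    obtain ⟨b1, b2⟩ := k8wp_bin01 H (χ := c.χ) hD (l := z₁.1) (g := g) (by rw [hg]; exact hz₁A.2.1)
    rw [hR₁]
    unfold k8wR
    have m1 : z₁.2 * ((H.p z₁.1 - g.2.1 * D) / D) ≤ 1 * 1 := mul_le_mul ht₁.2 b1.2.le b1.1 zero_le_one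
    have m2 : 0 ≤ z₁.2 * ((H.p z₁.1 - g.2.1 * D) / D) := mul_nonneg ht₁.1 b1.1
    constructor
    · linarith [b2.1]
    · linarith [b2.2]
  have bv := k7b5b_bin_sub c.χ (H.v l₀) hχ
  have bp := k7b5b_bin_sub D (H.p l₀) hD
  have bq := k7b5b_bin_sub D (H.q0 l₀) hD
  have e1 : k7bBin c.χ (H.v l₀) = g.1 := by rw [hg]; rfl
  have e2 : k7bBin D (H.p l₀) = g.2.1 := by rw [hg]; rfl
  have e3 : k7bBin D (H.q0 l₀) = g.2.2 := by rw [hg]; rfl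
  rw [e1] at bv
  rw [e2] at bp
  rw [e3] at bq
  obtain ⟨gp, gv, -⟩ := hI.ch.good hl₀
  have hnorm := hI.ch.norm1 l₀ hl₀
  rw [← hh] at hnorm
  have hsl := (k8wp_aff_slope h hD (hnorm t ht)).2
  have hp4 : |(g.2.1 : ℝ) * D - H.p l₀| ≤ 4 * D := by
    rw [abs_le]
    constructor <;> linarith [bp.1, bp.2]
  have hq4 : |(g.2.2 : ℝ) * D + D * R₁ - H.q0 l₀| ≤ 4 * D := by
    rw [abs_le]
    constructor <;> nlinarith [bq.1, bq.2, hR₁b.1, hR₁b.2]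
  refine ⟨?_, ?_, ?_, ?_, ?_⟩
  · have := abs_le.1 gv
    rw [abs_le]
    constructor <;> linarith [bv.1, bv.2]
  · have := abs_le.1 gp
    rw [abs_le]
    constructor <;> linarith [bp.1, bp.2]
  · have : 0 ≤ |h.p0 + h.p1 * t| * D := by positivity
    linarith
  · exact k8wp_aff_ext h hD (by norm_num : (0 : ℝ) ≤ 4) (hnorm 1 ⟨zero_le_one, le_rfl⟩) _ _ hp4 hq4
  · exact k8wp_aff_ext h hD (by norm_num : (0 : ℝ) ≤ 4) (hnorm 0 ⟨le_rfl, zero_le_one⟩) _ _ hp4 hq4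

theorem k8wp_entry_two : ∃ C : ℕ, ∀ (H : K7bHor) (a : K8wCh H) (c : K7bPar) (K sA D s σ D' u1 : ℝ) (T : Finset ℝ) (E : Set (H.Lam × ℝ)),
    K8wpIn H a c K sA D s σ D' u1 T E → ∀ l₀ ∈ a.F.dom, ∀ (i j : ℤ), ∀ z ∈ a.cl c D σ E l₀ i j, ∀ z₁ ∈ a.cl c D σ E l₀ i j,
    H.entOf s z = H.entOf s z₁ →
    |k8wpX H (c.a sA) (a.pr1 l₀) z.1 z.2 - k8wpX H (c.a sA) (a.pr1 l₀) z₁.1 z₁.2| ≤ (C : ℝ) * K ^ C * (c.a s / c.a sA) := by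
  refine ⟨29, ?_⟩
  intro H a c K sA D s σ D' u1 T E hI l₀ hl₀ i j z hz z₁ hz₁ hent
  obtain ⟨hzE, hzA, hzi, hzj⟩ := hz
  obtain ⟨hz₁E, hz₁A, hz₁i, hz₁j⟩ := hz₁
  obtain ⟨hsG, hESp, ha, hσ, hNe, hKΛ, hΛ', hvar⟩ := k8wp_b_basic hI
  obtain ⟨g1, g2, g3⟩ := k8wp_slopes hI hzE
  have c1 := k8wp_collapse hI hl₀ hzE hzA
  have c2 := k8wp_collapse hI hl₀ hz₁E hz₁A
  rw [← hent] at c2
  have hK := hI.K1
  have hK0 : 0 < K := by linarith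
  have hN0 : 0 < c.N := by linarith [hI.wf.N1]
  have hA0 : 0 < c.a sA := Real.rpow_pos_of_pos hN0 _
  have ht := hI.ok.time z (hESp hzE)
  have dt : |z.2 - z₁.2| ≤ σ := k8wp_c_floor hσ (hzi.trans hz₁i.symm)
  have dR := k8wp_c_floor hσ (hzj.trans hz₁j.symm)
  obtain ⟨k1, k2, k3, k4, k5⟩ := k8wp_c_corner hI hl₀ hz₁E hz₁A ht
  have hΨ := k8wp_c_bound hK hKΛ hσ hI.M.D0 hI.M.D1 g1 g2 g3 dt dR k1 k2 k3 k4 k5
  have hΛσ : K * (1 + c.a s / c.h s ^ 2) * σ ≤ K * c.a s := by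
    refine le_trans ?_ hvar
    have hΛ0 : 0 ≤ K * (1 + c.a s / c.h s ^ 2) := by linarith
    have h1 := mul_nonneg hΛ0 hNe
    have h2 := mul_nonneg hΛ0 hI.wf.χ0.le
    nlinarith
  have hΨ2 := hΨ.trans (mul_le_mul_of_nonneg_left hΛσ (by positivity : 0 ≤ 21 * K))
  have hfin : |(H.X z - (a.pr1 l₀).ev z.2 (H.p z.1) (H.q0 z.1)) - (H.X z₁ - (a.pr1 l₀).ev z₁.2 (H.p z₁.1) (H.q0 z₁.1))|
      ≤ 29 * K ^ 2 * c.a s := by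
    have y1 := abs_le.1 c1
    have y2 := abs_le.1 c2
    have y3 := abs_le.1 hΨ2
    have hKK : K * c.a s ≤ K ^ 2 * c.a s := by
      have : 0 ≤ K * c.a s := by positivity
      nlinarith
    rw [abs_le]
    constructor <;> linarith
  have e : k8wpX H (c.a sA) (a.pr1 l₀) z.1 z.2 - k8wpX H (c.a sA) (a.pr1 l₀) z₁.1 z₁.2
      = ((H.X z - (a.pr1 l₀).ev z.2 (H.p z.1) (H.q0 z.1)) - (H.X z₁ - (a.pr1 l₀).ev z₁.2 (H.p z₁.1) (H.q0 z₁.1))) / c.a sA := by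
    unfold k8wpX K7bHor.X
    ring
  rw [e, abs_div, abs_of_pos hA0]
  have hK29 : K ^ 2 ≤ K ^ 29 := pow_le_pow_right₀ hK (by norm_num)
  calc _ ≤ 29 * K ^ 2 * c.a s / c.a sA := by gcongr
    _ = 29 * K ^ 2 * (c.a s / c.a sA) := by ring
    _ ≤ ((29 : ℕ) : ℝ) * K ^ 29 * (c.a s / c.a sA) := by
        push_cast
        gcongr

end Claimed.Agent.R252
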