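import Claimed.Agent.R252.S8w.ProjCapCore
import Claimed.Agent.R252.S8w.ProjAdm

/-!
# Row 252, S8w, stage S2, leaf L-252-S8wp-CAP  (PROVED, helper151)      the ceilings `Cap`, `Ang` of Thm 7.1 in one chart   (08 l.953-962)      (architect helper167)
PAPER-FREE.   Uses `k8wp_cap_core`, `k8wp_mu_apply`, `k8wp_dat_y`, `k8wp_dat_x`, `k8wp_nu_lo`, `k8wp_bin01` and the margins `hI.M`.      `w = c.a s / c.a sA`, `A₀ = c.a sA`, `As`, `g`, `h = a.pr1 z₀.1` as in `ProjAdm`.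
PLAN (`Cap`).   `mu S = (ν As)⁻¹ lam (S ∩ (E ∩ {z.1 ∈ As}))`.   On `As` : `Dt.y = k8wR`, `Dt.x = x°`.   `x° ∈ [xs, xs + p)` gives `|X - h.ev - A₀ (xs + p/2)| ≤ A₀ p / 2 =: r`, `r ≥ c.a s / 2` (as `p ≥ w`).
 `k8wp_cap_core` with `ω = 1`, `v₀ = 0` (`k8wp_bin01`), `x₀ = A₀ (xs + p/2)`.   Its hypotheses: `D' ≤ r D` from `M.t6`, `ξ ≤ r` from `M.ξa`, `ϱ ≤ r` from `M.ϱa`, `D' ≤ D` from `M.t4`, `σ ≤ 1` (`M.σdy`);
 the bound of `h` on the closed bin of `g` from `ch.norm1` at `l₀ = z₀.1` (`lab.cover`; the closed bin lies in `|p - H.p l₀| ≤ D`).   `E ⊆ Sp` : `ch.prep.sub`, `ch.prep.sub0`.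
 Result `lam (..) ≤ C K^C σ² (A₀ p/2)^d W_g ≤ C K^C σ² p^d · A₀^d W_g ≤ C K^(C+2) σ² p^d ν(As)` (`k8wp_nu_lo`); multiply by `(ν As)⁻¹` (`ENNReal.inv_mul_cancel`; `ν As ≤ 1 < ∞`).
PLAN (`Ang`).   The same with `p = w` and `Dt.y1 = -2 P̃₁ ∈ [vs, vs + N^(-u))`, i.e. `P̃₁ ∈ [v₀, v₀ + ω]`, `ω = N^(-u)/2`, `v₀ = -(vs + N^(-u))/2`;   `D' ≤ ω D` from `M.t5` and `u ≤ u1`.
-/

set_option autoImplicit false

namespace Claimed.Agent.R252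

open MeasureTheory
open scoped ENNReal BigOperators

/-- the common form of `Cap` and `Ang` : a `(t, R)`-cell, an `x°`-bin of width `p ∈ [w, 1]`, `P̃₁` in an interval of length `ω` -/
theorem k8wp_cap_gen : ∃ C : ℕ, ∀ (H : K7bHor) (a : K8wCh H) (c : K7bPar) (K sA D s σ D' u1 : ℝ) (T : Finset ℝ) (E : Set (H.Lam × ℝ)),
    K8wpIn H a c K sA D s σ D' u1 T E → ∀ z₀ ∈ E, H.ν (a.F.asg c.χ D z₀.1) ≠ 0 →
    ∀ (i j : ℤ) (p xs ω v₀ : ℝ), c.a s / c.a sA ≤ p → p ≤ 1 → 0 ≤ ω → D' ≤ ω * D →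
      (a.dat c sA D E z₀.1).mu ((a.dat c sA D E z₀.1).cell σ i j ∩ {z | (a.dat c sA D E z₀.1).x z.1 z.2 ∈ Set.Ico xs (xs + p) ∧
          (H.p z.1 - (H.grp c.χ D z₀.1).2.1 * D) / D ∈ Set.Icc v₀ (v₀ + ω)})
        ≤ ENNReal.ofReal ((C : ℝ) * K ^ C * σ ^ 2 * ω * p ^ c.d) := by
  obtain ⟨C₀, hC₀⟩ := k8wp_cap_core
  refine ⟨C₀ + 2, ?_⟩
  intro H a c K sA D s σ D' u1 T E hI z₀ hz hν i j p xs ω v₀ hwp hp1 hω hDω
  have hc := hI.wf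
  have hK1 := hI.K1
  have hK0 : 0 < K := by linarith
  have hN : 0 < c.N := lt_of_lt_of_le one_pos hc.N1
  have hA : 0 < c.a sA := Real.rpow_pos_of_pos hN _
  have has : 0 < c.a s := Real.rpow_pos_of_pos hN _
  have hM := hI.M
  have hD := hM.D0
  have hp0 : 0 < p := lt_of_lt_of_le (div_pos has hA) hwp
  obtain ⟨m, hm⟩ := hM.σdy
  have hσ0 : 0 < σ := by rw [hm]; positivity
  have hσ1 : σ ≤ 1 := by rw [hm]; exact pow_le_one₀ (by norm_num) (by norm_num)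
  obtain ⟨g, hg⟩ : ∃ g, g = H.grp c.χ D z₀.1 := ⟨_, rfl⟩
  obtain ⟨As, hAs⟩ : ∃ As, As = a.F.asg c.χ D z₀.1 := ⟨_, rfl⟩
  obtain ⟨r, hr⟩ : ∃ r, r = c.a sA * p / 2 := ⟨_, rfl⟩
  have hl₀ : z₀.1 ∈ a.F.dom := hI.ch.lab.cover z₀ hz
  have hrs : c.a s / 2 ≤ r := by
    rw [hr]
    have : c.a s ≤ c.a sA * p := by
      rw [div_le_iff₀ hA] at hwp
      linarith
    linarith
  have hr0 : 0 < r := by linarith
  have hbd : ∀ t ∈ Set.Icc (0 : ℝ) 1, ∀ p q : ℝ, p ∈ Set.Icc (g.2.1 * D) ((g.2.1 + 1) * D) → q ∈ Set.Icc (g.2.2 * D) ((g.2.2 + 1) * D) →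
      |(a.pr1 z₀.1).ev t p q| ≤ K := by
    intro t ht p' q' hp' hq'
    obtain ⟨b1, b2⟩ := k8wp_bin01 H hD hg.symm
    have c1 : g.2.1 * D ≤ H.p z₀.1 ∧ H.p z₀.1 ≤ (g.2.1 + 1) * D := by
      have h1 := b1.1
      have h2 := b1.2.le
      rw [le_div_iff₀ hD] at h1
      rw [div_le_iff₀ hD] at h2
      constructor <;> linarith
    have c2 : g.2.2 * D ≤ H.q0 z₀.1 ∧ H.q0 z₀.1 ≤ (g.2.2 + 1) * D := by
      have h1 := b2.1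
      have h2 := b2.2.le
      rw [le_div_iff₀ hD] at h1
      rw [div_le_iff₀ hD] at h2
      constructor <;> linarith
    refine hI.ch.norm1 z₀.1 hl₀ t ht p' q' ?_ ?_
    · rw [abs_le]
      constructor <;> linarith [hp'.1, hp'.2, c1.1, c1.2]
    · rw [abs_le]
      constructor <;> linarith [hq'.1, hq'.2, c2.1, c2.2]
  have hcore := hC₀ c H K D D' σ ω r (c.a sA * (xs + p / 2)) v₀ (a.pr1 z₀.1) g i j hc hK1 hI.ok hD hM.D1 hσ0 hσ1 hM.t1 hM.t2 hM.t3 hM.t4 hDω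
    (by
      have h1 := hM.t6
      have h2 : c.a s / 2 * D ≤ r * D := mul_le_mul_of_nonneg_right hrs hD.le
      linarith)
    (by linarith [hM.ξa]) (by linarith [hM.ϱa]) hM.ξσ hbd
  rw [k8wp_mu_apply hI, ← hg, ← hAs]
  have hsub : ((a.dat c sA D E z₀.1).cell σ i j ∩ {z | (a.dat c sA D E z₀.1).x z.1 z.2 ∈ Set.Ico xs (xs + p) ∧
          (H.p z.1 - g.2.1 * D) / D ∈ Set.Icc v₀ (v₀ + ω)}) ∩ (E ∩ {z | z.1 ∈ As})
      ⊆ H.Sp ∩ H.gI c.χ D g ∩ {z | ⌊z.2 / σ⌋ = i ∧ ⌊k8wR D g (H.p z.1) (H.q0 z.1) z.2 / σ⌋ = j ∧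
        |H.X z - (a.pr1 z₀.1).ev z.2 (H.p z.1) (H.q0 z.1) - c.a sA * (xs + p / 2)| ≤ r ∧ (H.p z.1 - g.2.1 * D) / D ∈ Set.Icc v₀ (v₀ + ω)} := by
    rintro z ⟨⟨⟨h1, h2⟩, h3, h4⟩, hzE, hzA⟩
    have hzA' : z.1 ∈ a.F.asg c.χ D z₀.1 := by rw [← hAs]; exact hzA
    refine ⟨⟨hI.ch.prep.sub0 (hI.ch.prep.sub hzE), ?_⟩, h1, ?_, ?_, h4⟩
    · show H.grp c.χ D z.1 = g
      rw [hg]
      exact hzA'.2.1
    · rw [(k8wp_dat_y a c sA D E z₀.1 hzA' z.2).1, ← hg] at h2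
      exact h2
    · rw [k8wp_dat_x a c sA D E z₀.1 hzA' z.2] at h3
      unfold k8wpX at h3
      have e1 := h3.1
      have e2 := h3.2.le
      rw [le_div_iff₀ hA] at e1
      rw [div_le_iff₀ hA] at e2
      show |H.Xt z.1 z.2 - _ - _| ≤ r
      rw [abs_le, hr]
      constructor <;> nlinarith
  have hνt : H.ν As ≠ ∞ := ne_top_of_le_ne_top ENNReal.one_ne_top ((measure_mono (Set.subset_univ _)).trans hI.ok.νle)
  have hν' : H.ν As ≠ 0 := by rw [hAs]; exact hν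
  have hlo := k8wp_nu_lo hI hz
  rw [← hg, ← hAs] at hlo
  have hrd : r ^ c.d ≤ c.a sA ^ c.d * p ^ c.d := by
    rw [← Real.mul_rpow hA.le hp0.le]
    refine Real.rpow_le_rpow hr0.le ?_ hc.d0
    rw [hr]
    have : 0 < c.a sA * p := mul_pos hA hp0
    linarith
  have hB0 : 0 ≤ (C₀ : ℝ) * K ^ C₀ * σ ^ 2 * ω := by positivity
  calc (H.ν As)⁻¹ * H.lam (((a.dat c sA D E z₀.1).cell σ i j ∩ {z | (a.dat c sA D E z₀.1).x z.1 z.2 ∈ Set.Ico xs (xs + p) ∧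
          (H.p z.1 - g.2.1 * D) / D ∈ Set.Icc v₀ (v₀ + ω)}) ∩ (E ∩ {z | z.1 ∈ As}))
      ≤ (H.ν As)⁻¹ * (ENNReal.ofReal ((C₀ : ℝ) * K ^ C₀ * σ ^ 2 * ω * r ^ c.d) * H.gW c.χ D g) :=
        mul_le_mul' le_rfl ((measure_mono hsub).trans hcore)
    _ ≤ (H.ν As)⁻¹ * (ENNReal.ofReal ((C₀ : ℝ) * K ^ C₀ * σ ^ 2 * ω * p ^ c.d) * (H.gW c.χ D g * ENNReal.ofReal (c.a sA ^ c.d))) := by
        refine mul_le_mul' le_rfl ?_
        rw [mul_comm (H.gW c.χ D g), ← mul_assoc, ← ENNReal.ofReal_mul (by positivity)]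
        refine mul_le_mul' (ENNReal.ofReal_le_ofReal ?_) le_rfl
        calc (C₀ : ℝ) * K ^ C₀ * σ ^ 2 * ω * r ^ c.d ≤ (C₀ : ℝ) * K ^ C₀ * σ ^ 2 * ω * (c.a sA ^ c.d * p ^ c.d) :=
              mul_le_mul_of_nonneg_left hrd hB0
          _ = _ := by ring
    _ ≤ (H.ν As)⁻¹ * (ENNReal.ofReal ((C₀ : ℝ) * K ^ C₀ * σ ^ 2 * ω * p ^ c.d) * (ENNReal.ofReal (K ^ 2) * H.ν As)) :=
        mul_le_mul' le_rfl (mul_le_mul' le_rfl hlo)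
    _ = ENNReal.ofReal ((C₀ : ℝ) * K ^ C₀ * σ ^ 2 * ω * p ^ c.d) * ENNReal.ofReal (K ^ 2) := by
        have e : ∀ x y A B : ℝ≥0∞, y * (A * (B * x)) = A * B * (x * y) := fun x y A B => by ring
        rw [e, ENNReal.mul_inv_cancel hν' hνt, mul_one]
    _ ≤ _ := by
        rw [← ENNReal.ofReal_mul (by positivity)]
        refine ENNReal.ofReal_le_ofReal ?_
        have e : (C₀ : ℝ) * K ^ C₀ * σ ^ 2 * ω * p ^ c.d * K ^ 2 = (C₀ : ℝ) * (K ^ (C₀ + 2) * σ ^ 2 * ω * p ^ c.d) := by ring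
        have e' : ((C₀ + 2 : ℕ) : ℝ) * K ^ (C₀ + 2) * σ ^ 2 * ω * p ^ c.d = ((C₀ : ℝ) + 2) * (K ^ (C₀ + 2) * σ ^ 2 * ω * p ^ c.d) := by
          push_cast
          ring
        rw [e, e']
        exact mul_le_mul_of_nonneg_right (by linarith) (by positivity)

theorem k8wp_cap : ∃ C : ℕ, ∀ (H : K7bHor) (a : K8wCh H) (c : K7bPar) (K sA D s σ D' u1 : ℝ) (T : Finset ℝ) (E : Set (H.Lam × ℝ)),
    K8wpIn H a c K sA D s σ D' u1 T E → ∀ z₀ ∈ E, H.ν (a.F.asg c.χ D z₀.1) ≠ 0 →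
    (a.dat c sA D E z₀.1).Cap ((C : ℝ) * K ^ C) σ 1 c.d (c.a s / c.a sA) := by
  obtain ⟨C, hC⟩ := k8wp_cap_gen
  refine ⟨C, ?_⟩
  intro H a c K sA D s σ D' u1 T E hI z₀ hz hν i j p xs hwp hp1
  have hM := hI.M
  obtain ⟨m, hm⟩ := hM.σdy
  have hσ1 : σ ≤ 1 := by rw [hm]; exact pow_le_one₀ (by norm_num) (by norm_num)
  have h1 := hC H a c K sA D s σ D' u1 T E hI z₀ hz hν i j p xs 1 0 hwp hp1 zero_le_one (by
    have := mul_le_mul_of_nonneg_right hσ1 hM.D0.le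
    linarith [hM.t4])
  rw [mul_one] at h1
  rw [mul_one]
  refine le_trans ?_ h1
  rw [k8wp_mu_apply hI, k8wp_mu_apply hI]
  refine mul_le_mul' le_rfl (measure_mono ?_)
  rintro z ⟨⟨h2, h3⟩, hzE, hzA⟩
  refine ⟨⟨h2, h3, ?_⟩, hzE, hzA⟩
  have hb := (k8wp_bin01 H hM.D0 (show H.grp c.χ D z.1 = H.grp c.χ D z₀.1 from hzA.2.1)).1
  exact ⟨hb.1, by linarith [hb.2]⟩

theorem k8wp_ang : ∃ C : ℕ, ∀ (H : K7bHor) (a : K8wCh H) (c : K7bPar) (K sA D s σ D' u1 : ℝ) (T : Finset ℝ) (E : Set (H.Lam × ℝ)),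
    K8wpIn H a c K sA D s σ D' u1 T E → ∀ z₀ ∈ E, H.ν (a.F.asg c.χ D z₀.1) ≠ 0 →
    (a.dat c sA D E z₀.1).Ang ((C : ℝ) * K ^ C) σ 1 c.d (c.a s / c.a sA) c.N 1 u1 := by
  obtain ⟨C, hC⟩ := k8wp_cap_gen
  refine ⟨C, ?_⟩
  intro H a c K sA D s σ D' u1 T E hI z₀ hz hν i j xs vs u hu hu1
  have hM := hI.M
  have hc := hI.wf
  have hK0 : 0 < K := by linarith [hI.K1]
  have hN : 0 < c.N := lt_of_lt_of_le one_pos hc.N1
  have hA : 0 < c.a sA := Real.rpow_pos_of_pos hN _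
  have has : 0 < c.a s := Real.rpow_pos_of_pos hN _
  have hNu : 0 < c.N ^ (-u) := Real.rpow_pos_of_pos hN _
  have hw1 : c.a s / c.a sA ≤ 1 := by
    rw [div_le_one hA]
    exact Real.rpow_le_rpow_of_exponent_le hc.N1 (by linarith [hM.sAs])
  have hNu1 : c.N ^ (-u1) ≤ c.N ^ (-u) := Real.rpow_le_rpow_of_exponent_le hc.N1 (by linarith)
  have h1 := hC H a c K sA D s σ D' u1 T E hI z₀ hz hν i j (c.a s / c.a sA) xs (c.N ^ (-u) / 2) (-(vs + c.N ^ (-u)) / 2) le_rfl hw1 (by positivity) (by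
    have := mul_le_mul_of_nonneg_right hNu1 hM.D0.le
    linarith [hM.t5])
  refine le_trans ?_ (h1.trans (ENNReal.ofReal_le_ofReal ?_))
  · rw [k8wp_mu_apply hI, k8wp_mu_apply hI]
    refine mul_le_mul' le_rfl (measure_mono ?_)
    rintro z ⟨⟨h2, h3, h4⟩, hzE, hzA⟩
    refine ⟨⟨h2, h3, ?_⟩, hzE, hzA⟩
    rw [(k8wp_dat_y a c sA D E z₀.1 hzA z.2).2] at h4
    constructor <;> linarith [h4.1, h4.2]
  · rw [one_mul, mul_one]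
    have hB : 0 ≤ (C : ℝ) * K ^ C * σ ^ 2 * (c.a s / c.a sA) ^ c.d := by positivity
    calc (C : ℝ) * K ^ C * σ ^ 2 * (c.N ^ (-u) / 2) * (c.a s / c.a sA) ^ c.d
        = (C : ℝ) * K ^ C * σ ^ 2 * (c.a s / c.a sA) ^ c.d * (c.N ^ (-u) / 2) := by ring
      _ ≤ (C : ℝ) * K ^ C * σ ^ 2 * (c.a s / c.a sA) ^ c.d * c.N ^ (-u) := mul_le_mul_of_nonneg_left (by linarith) hB

end Claimed.Agent.R252
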