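import Claimed.Agent.R252.S8w.ProjExt

/-!
# Row 252, S8w, stage S2, leaf L-252-S8wp-CORE  (CONTRACT: 1 sorry)      the mass ceiling of a `(t, R)`-cell before division by the chart denominator   (08 l.953-962)      (architect helper167)
PAPER-FREE.   Uses `k7b_band_cap`, `k7b5b_bins`, `k7b5b_cover`, `k7b5b_bin_sub` (`S7b/P5Band`), `k8wp_aff_slope` (`ProjExt`), fields `ok.time`.
STATEMENT.   Group `g` of parameter mesh `D`, predictor `h` bounded by `K` on the closed parameter bin of `g` over unit time.   The incidences of `Sp ∩ gI g` with `t` in the `σ`-bin `i`, `R(t)` in the `σ`-bin `j`,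
`|x - h(t, P) - x₀| ≤ r` and `P̃₁ = (p - p_c)/D ∈ [v₀, v₀ + ω]` have mass `≤ C K^C σ² ω r^d W_g`.
PLAN.   Cover by the TINY groups `g' = (g.1, m₁, m₂)` of parameter mesh `D'` (`ξ, χ, N^(-e₀) ≤ D' ≤ min (σ, ω, r) D`).
(1) `m₁ = k7bBin D' p` : `p ∈ [p_c + v₀ D, p_c + (v₀ + ω) D]`, so `≤ ω D / D' + 2 ≤ 3 ω D / D'` values (`k7b5b_bins`).
(2) given `m₁` : `q₀ = q_c + D R + 2 t (p - p_c)`, `R ∈ [jσ, (j+1)σ)`, `t ∈ [iσ, (i+1)σ) ∩ [0,1]`, `p - p_c ∈ [0, D) ∩ [m₁D' - p_c, m₁D' - p_c + D')` : `q₀` lies in an interval of length `≤ D σ + 2 σ D + 2 D' ≤ 5 σ D`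
    with endpoints depending on `(i, j, m₁)` only, e.g. centre `q_c + D j σ + 2 i σ (m₁ D' - p_c)`; so `≤ 5 σ D / D' + 2 ≤ 7 σ D / D'` (safe: `12 σ D / D'`) values of `m₂ = k7bBin D' q₀`.
(3) one tiny group which meets the set: fix ONE of its points `(p*, q*)` (parameters of an incidence of the set; if there is none the piece is empty).   `f t = h.ev t p* q* + x₀` is affine in `t` with slope `h.ev 1 p* q* - h.ev 0 p* q*`, so `M = 2K`.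
    For another point of the piece `|h.ev t p q₀ - h.ev t p* q*| ≤ (|∂_p| + |∂_q|) D' ≤ K D' / D ≤ K r` (`k8wp_aff_slope` about the centre of the bin with radius `D/2`, or about a corner: any constant is fine).   So `|X - f t| ≤ (1 + 2K) r =: r'`.
    `k7b_band_cap` with `D := D'`, `t0 = iσ`, `t1 = (i+1)σ`, `r := r'` : mass `≤ C₀ K^C₀ (σ + ξ) r'^d π(g.1) D'²`;  `M ξ ≤ r'` from `ξ ≤ r`;  `r'^d ≤ 3K r^d` (`0 ≤ d < 1`, `Real.mul_rpow`, `Real.rpow_le_self_of_one_le`-type bound).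
(4) sum: `3 ω D/D' · 12 σ D/D' · C₀ K^C₀ 2σ · 3K r^d π D'² = 216 C₀ K^(C₀+1) σ² ω r^d π D²`.   `gW χ D g = π(g.1) D²`.
-/

set_option autoImplicit false

namespace Claimed.Agent.R252

open MeasureTheory
open scoped ENNReal BigOperators

theorem k8wp_c_bin {m x y : ℝ} (hm : 0 < m) (h : k7bBin m x = k7bBin m y) : |x - y| ≤ m := by
  have h1 := k7b5b_bin_sub m x hm
  have h2 := k7b5b_bin_sub m y hm
  rw [h] at h1
  rw [abs_le]
  constructor <;> linarith [h1.1, h1.2, h2.1, h2.2]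

/-- the interval of `q₀`, given the cell and the tiny bin of `p` -/
theorem k8wp_c_q0 {D D' σ t p q pc qc : ℝ} {i j m₁ : ℤ} (hD : 0 < D) (hσ : 0 < σ) (hD' : 0 < D') (ht0 : 0 ≤ t) (ht1 : t ≤ 1)
    (hi : ⌊t / σ⌋ = i) (hj : ⌊((q - qc) / D - 2 * t * ((p - pc) / D)) / σ⌋ = j) (hp0 : 0 ≤ p - pc) (hp1 : p - pc < D)
    (hm : k7bBin D' p = m₁) (hD'σ : D' ≤ σ * D) :
    q ∈ Set.Icc (qc + D * ((j : ℝ) * σ) + 2 * ((i : ℝ) * σ) * ((m₁ : ℝ) * D' - pc))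
      (qc + D * ((j : ℝ) * σ) + 2 * ((i : ℝ) * σ) * ((m₁ : ℝ) * D' - pc) + 5 * σ * D) := by
  obtain ⟨R, hR⟩ : ∃ R : ℝ, R = (q - qc) / D - 2 * t * ((p - pc) / D) := ⟨_, rfl⟩
  rw [← hR] at hj
  have hq : q = qc + D * R + 2 * t * (p - pc) := by
    rw [hR]
    field_simp
    ring
  have a1 := k7b5b_bin_sub σ t hσ
  have a2 := k7b5b_bin_sub σ R hσ
  have a3 := k7b5b_bin_sub D' p hD'
  have e1 : k7bBin σ t = i := hi
  have e2 : k7bBin σ R = j := hj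
  rw [e1] at a1
  rw [e2] at a2
  rw [hm] at a3
  have hi0 : 0 ≤ (i : ℝ) * σ := by
    have : 0 ≤ i := by
      rw [← hi]
      exact Int.floor_nonneg.2 (by positivity)
    have : (0 : ℝ) ≤ (i : ℝ) := by exact_mod_cast this
    positivity
  have hi1 : (i : ℝ) * σ ≤ 1 := by linarith [a1.1]
  have e : q - (qc + D * ((j : ℝ) * σ) + 2 * ((i : ℝ) * σ) * ((m₁ : ℝ) * D' - pc))
      = D * (R - (j : ℝ) * σ) + 2 * (t - (i : ℝ) * σ) * (p - pc) + 2 * ((i : ℝ) * σ) * (p - (m₁ : ℝ) * D') := by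
    rw [hq]
    ring
  have b1 : 0 ≤ D * (R - (j : ℝ) * σ) := mul_nonneg hD.le a2.1
  have b1' : D * (R - (j : ℝ) * σ) ≤ D * σ := mul_le_mul_of_nonneg_left a2.2.le hD.le
  have b2 : 0 ≤ 2 * (t - (i : ℝ) * σ) * (p - pc) := mul_nonneg (by linarith [a1.1]) hp0
  have b2' : 2 * (t - (i : ℝ) * σ) * (p - pc) ≤ 2 * σ * D := mul_le_mul (by linarith [a1.2]) hp1.le hp0 (by positivity)
  have b3 : 0 ≤ 2 * ((i : ℝ) * σ) * (p - (m₁ : ℝ) * D') := mul_nonneg (by linarith) a3.1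
  have b3' : 2 * ((i : ℝ) * σ) * (p - (m₁ : ℝ) * D') ≤ 2 * 1 * D' := mul_le_mul (by linarith) a3.2.le a3.1 (by norm_num)
  constructor <;> nlinarith

/-- variation of the predictor over a tiny bin -/
theorem k8wp_c_ev (h : K8Pr) {K D D' t p q p' q' : ℝ} {g1 g2 : ℤ} (hD : 0 < D)
    (hb : ∀ p q : ℝ, p ∈ Set.Icc ((g1 : ℝ) * D) (((g1 : ℝ) + 1) * D) → q ∈ Set.Icc ((g2 : ℝ) * D) (((g2 : ℝ) + 1) * D) → |h.ev t p q| ≤ K)
    (hp : |p - p'| ≤ D') (hq : |q - q'| ≤ D') : |h.ev t p q - h.ev t p' q'| ≤ 2 * K * D' / D := by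
  have hD'0 : 0 ≤ D' := (abs_nonneg _).trans hp
  obtain ⟨-, h2⟩ := k8wp_aff_slope h (K := K) (D := D / 2) (t := t) (p₀ := ((g1 : ℝ) + 1 / 2) * D) (q₀ := ((g2 : ℝ) + 1 / 2) * D)
    (by positivity) (fun p q h1 h2 => hb p q (by
      rw [abs_le] at h1
      constructor <;> nlinarith [h1.1, h1.2]) (by
      rw [abs_le] at h2
      constructor <;> nlinarith [h2.1, h2.2]))
  have e : h.ev t p q - h.ev t p' q' = (h.p0 + h.p1 * t) * (p - p') + (h.q0 + h.q1 * t) * (q - q') := by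
    unfold K8Pr.ev
    ring
  rw [e, le_div_iff₀ hD]
  have a1 : |(h.p0 + h.p1 * t) * (p - p')| ≤ |h.p0 + h.p1 * t| * D' := by
    rw [abs_mul]
    exact mul_le_mul_of_nonneg_left hp (abs_nonneg _)
  have a2 : |(h.q0 + h.q1 * t) * (q - q')| ≤ |h.q0 + h.q1 * t| * D' := by
    rw [abs_mul]
    exact mul_le_mul_of_nonneg_left hq (abs_nonneg _)
  have a3 := abs_add_le ((h.p0 + h.p1 * t) * (p - p')) ((h.q0 + h.q1 * t) * (q - q'))
  calc |(h.p0 + h.p1 * t) * (p - p') + (h.q0 + h.q1 * t) * (q - q')| * D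
      ≤ (|h.p0 + h.p1 * t| * D' + |h.q0 + h.q1 * t| * D') * D := by
        refine mul_le_mul_of_nonneg_right ?_ hD.le
        linarith
    _ = 2 * (|h.p0 + h.p1 * t| * (D / 2) + |h.q0 + h.q1 * t| * (D / 2)) * D' := by ring
    _ ≤ 2 * K * D' := by
        refine mul_le_mul_of_nonneg_right ?_ hD'0
        linarith

/-- the predictor at a fixed parameter is Lipschitz in time -/
theorem k8wp_c_time (h : K8Pr) {K p q : ℝ} (h0 : |h.ev 0 p q| ≤ K) (h1 : |h.ev 1 p q| ≤ K) (x₀ t t' : ℝ) :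
    |(h.ev t p q + x₀) - (h.ev t' p q + x₀)| ≤ 2 * K * |t - t'| := by
  have e : (h.ev t p q + x₀) - (h.ev t' p q + x₀) = (h.ev 1 p q - h.ev 0 p q) * (t - t') := by
    unfold K8Pr.ev
    ring
  rw [e, abs_mul]
  refine mul_le_mul_of_nonneg_right ?_ (abs_nonneg _)
  refine (abs_sub _ _).trans ?_
  linarith

theorem k8wp_c_rpow {K r d : ℝ} (hK : 1 ≤ K) (hr : 0 < r) (hd1 : d < 1) : ((1 + 2 * K) * r) ^ d ≤ 3 * K * r ^ d := by
  rw [Real.mul_rpow (by linarith) hr.le]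
  refine mul_le_mul_of_nonneg_right ?_ (Real.rpow_nonneg hr.le _)
  calc (1 + 2 * K) ^ d ≤ (1 + 2 * K) ^ (1 : ℝ) := Real.rpow_le_rpow_of_exponent_le (by linarith) hd1.le
    _ = 1 + 2 * K := Real.rpow_one _
    _ ≤ 3 * K := by linarith

theorem k8wp_cap_core : ∃ C : ℕ, ∀ (c : K7bPar) (H : K7bHor) (K D D' σ ω r x₀ v₀ : ℝ) (h : K8Pr) (g : ℤ × ℤ × ℤ) (i j : ℤ),
    c.WF → 1 ≤ K → H.Ok c K → 0 < D → D ≤ 1 → 0 < σ → σ ≤ 1 → c.ξ ≤ D' → c.χ ≤ D' → c.N ^ (-c.e0) ≤ D' →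
    D' ≤ σ * D → D' ≤ ω * D → D' ≤ r * D → c.ξ ≤ r → c.ϱ ≤ r → c.ξ ≤ σ →
    (∀ t ∈ Set.Icc (0 : ℝ) 1, ∀ p q : ℝ, p ∈ Set.Icc (g.2.1 * D) ((g.2.1 + 1) * D) → q ∈ Set.Icc (g.2.2 * D) ((g.2.2 + 1) * D) → |h.ev t p q| ≤ K) →
    H.lam (H.Sp ∩ H.gI c.χ D g ∩ {z | ⌊z.2 / σ⌋ = i ∧ ⌊k8wR D g (H.p z.1) (H.q0 z.1) z.2 / σ⌋ = j ∧
        |H.X z - h.ev z.2 (H.p z.1) (H.q0 z.1) - x₀| ≤ r ∧ (H.p z.1 - g.2.1 * D) / D ∈ Set.Icc v₀ (v₀ + ω)})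
      ≤ ENNReal.ofReal ((C : ℝ) * K ^ C * σ ^ 2 * ω * r ^ c.d) * H.gW c.χ D g := by
  obtain ⟨C₀, hband⟩ := k7b_band_cap
  refine ⟨126 * C₀ + 1, ?_⟩
  intro c H K D D' σ ω r x₀ v₀ h g i j hc hK hok hD hD1 hσ hσ1 hξD' hχD' heD' hD'σ hD'ω hD'r hξr hϱr hξσ hnorm
  have hK0 : 0 < K := by linarith
  have hD' : 0 < D' := hc.ξ0.trans_le hξD'
  have hr : 0 < r := hc.ϱ0.trans_le hϱr
  have hω : 0 < ω := by
    by_contra h0
    rw [not_lt] at h0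
    nlinarith
  have hD'1 : D' ≤ 1 := by nlinarith
  have hrd : 0 < r ^ c.d := Real.rpow_pos_of_pos hr _
  obtain ⟨A, hA⟩ : ∃ A : Set (H.Lam × ℝ), A = H.Sp ∩ H.gI c.χ D g ∩ {z | ⌊z.2 / σ⌋ = i ∧ ⌊k8wR D g (H.p z.1) (H.q0 z.1) z.2 / σ⌋ = j ∧
        |H.X z - h.ev z.2 (H.p z.1) (H.q0 z.1) - x₀| ≤ r ∧ (H.p z.1 - g.2.1 * D) / D ∈ Set.Icc v₀ (v₀ + ω)} := ⟨_, rfl⟩
  rw [← hA]
  -- parameters of a point of the group
  have hpar : ∀ z ∈ A, H.p z.1 ∈ Set.Icc ((g.2.1 : ℝ) * D) (((g.2.1 : ℝ) + 1) * D) ∧ H.q0 z.1 ∈ Set.Icc ((g.2.2 : ℝ) * D) (((g.2.2 : ℝ) + 1) * D) ∧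
      0 ≤ H.p z.1 - (g.2.1 : ℝ) * D ∧ H.p z.1 - (g.2.1 : ℝ) * D < D := by
    intro z hz
    rw [hA] at hz
    have hzg : H.grp c.χ D z.1 = g := hz.1.2
    have b1 := k7b5b_bin_sub D (H.p z.1) hD
    have b2 := k7b5b_bin_sub D (H.q0 z.1) hD
    have e1 : k7bBin D (H.p z.1) = g.2.1 := congrArg (fun x => x.2.1) hzg
    have e2 : k7bBin D (H.q0 z.1) = g.2.2 := congrArg (fun x => x.2.2) hzg
    rw [e1] at b1
    rw [e2] at b2
    exact ⟨⟨by linarith [b1.1], by linarith [b1.2]⟩, ⟨by linarith [b2.1], by linarith [b2.2]⟩, b1.1, b1.2⟩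
  -- one tiny group
  have hpiece : ∀ m₁ m₂ : ℤ, H.lam (A ∩ {z | k7bBin D' (H.p z.1) = m₁ ∧ k7bBin D' (H.q0 z.1) = m₂}) ≤
      ENNReal.ofReal ((C₀ : ℝ) * K ^ C₀ * (2 * σ) * (3 * K * r ^ c.d) * D' ^ 2) * H.pal (k7bIv c.χ g.1) := by
    intro m₁ m₂
    rcases (A ∩ {z | k7bBin D' (H.p z.1) = m₁ ∧ k7bBin D' (H.q0 z.1) = m₂}).eq_empty_or_nonempty with h0 | ⟨zs, hzs, hs1, hs2⟩
    · rw [h0, measure_empty]
      exact zero_le
    obtain ⟨ps1, ps2, -, -⟩ := hpar zs hzs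
    have hb := hband c H K D' (2 * K) ((1 + 2 * K) * r) ((i : ℝ) * σ) (((i : ℝ) + 1) * σ)
      (fun t => h.ev t (H.p zs.1) (H.q0 zs.1) + x₀) (g.1, m₁, m₂) hc hK hok hD'1 hξD' hχD' heD'
      (fun t t' => k8wp_c_time h (hnorm 0 ⟨le_rfl, zero_le_one⟩ _ _ ps1 ps2) (hnorm 1 ⟨zero_le_one, le_rfl⟩ _ _ ps1 ps2) x₀ t t')
      (by nlinarith [hc.ξ0]) (by nlinarith) (by nlinarith)
    refine (measure_mono ?_).trans (hb.trans ?_)
    · rintro z ⟨hz, h1, h2⟩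
      have hz' := hz
      rw [hA] at hz'
      obtain ⟨⟨hzS, hzg⟩, hti, -, hX, -⟩ := hz'
      have hzg' : H.grp c.χ D z.1 = g := hzg
      refine ⟨⟨hzS, ?_⟩, ?_, ?_⟩
      · show H.grp c.χ D' z.1 = (g.1, m₁, m₂)
        unfold K7bHor.grp
        rw [h1, h2]
        have : k7bBin c.χ (H.v z.1) = g.1 := congrArg Prod.fst hzg'
        rw [this]
      · have a1 := k7b5b_bin_sub σ z.2 hσ
        have e1 : k7bBin σ z.2 = i := hti
        rw [e1] at a1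
        exact ⟨by linarith [a1.1], by linarith [a1.2]⟩
      · have hT := hok.time z hzS
        have h3 := k8wp_c_ev h (K := K) (D := D) (D' := D') (t := z.2) (p := H.p z.1) (q := H.q0 z.1) (p' := H.p zs.1) (q' := H.q0 zs.1)
          (g1 := g.2.1) (g2 := g.2.2) hD (hnorm z.2 hT) (k8wp_c_bin hD' (h1.trans hs1.symm)) (k8wp_c_bin hD' (h2.trans hs2.symm))
        have h4 : 2 * K * D' / D ≤ 2 * K * r := by
          rw [div_le_iff₀ hD]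
          nlinarith
        have e : H.X z - (h.ev z.2 (H.p zs.1) (H.q0 zs.1) + x₀)
            = (H.X z - h.ev z.2 (H.p z.1) (H.q0 z.1) - x₀) + (h.ev z.2 (H.p z.1) (H.q0 z.1) - h.ev z.2 (H.p zs.1) (H.q0 zs.1)) := by ring
        show |H.X z - (h.ev z.2 (H.p zs.1) (H.q0 zs.1) + x₀)| ≤ (1 + 2 * K) * r
        rw [e]
        refine (abs_add_le _ _).trans ?_
        linarith
    · unfold K7bHor.gW
      have e3 : 0 ≤ ((i : ℝ) + 1) * σ - (i : ℝ) * σ + c.ξ := by linarith [hc.ξ0]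
      have e4 : 0 ≤ ((1 + 2 * K) * r) ^ c.d := Real.rpow_nonneg (by positivity) _
      rw [mul_comm (H.pal _), ← mul_assoc, ← ENNReal.ofReal_mul (by positivity)]
      refine mul_le_mul_left (ENNReal.ofReal_le_ofReal ?_) _
      refine mul_le_mul_of_nonneg_right ?_ (by positivity)
      have e1 : ((i : ℝ) + 1) * σ - (i : ℝ) * σ + c.ξ ≤ 2 * σ := by linarith
      have e2 := k8wp_c_rpow hK hr hc.d1
      have e5 : (C₀ : ℝ) * K ^ C₀ * (((i : ℝ) + 1) * σ - (i : ℝ) * σ + c.ξ) * ((1 + 2 * K) * r) ^ c.d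
          ≤ (C₀ : ℝ) * K ^ C₀ * (2 * σ) * (3 * K * r ^ c.d) := by gcongr
      exact e5
  -- the tiny bins of `q₀`, given the tiny bin of `p`
  have hlev2 : ∀ m₁ : ℤ, H.lam (A ∩ {z | k7bBin D' (H.p z.1) = m₁}) ≤
      ENNReal.ofReal (7 * σ * D / D' * ((C₀ : ℝ) * K ^ C₀ * (2 * σ) * (3 * K * r ^ c.d) * D' ^ 2)) * H.pal (k7bIv c.χ g.1) := by
    intro m₁
    obtain ⟨Qc, hQc⟩ : ∃ Qc : ℝ, Qc = (g.2.2 : ℝ) * D + D * ((j : ℝ) * σ) + 2 * ((i : ℝ) * σ) * ((m₁ : ℝ) * D' - (g.2.1 : ℝ) * D) := ⟨_, rfl⟩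
    obtain ⟨cT, bT⟩ := k7b5b_bins D' Qc (Qc + 5 * σ * D) hD' (by nlinarith)
    have hcov := k7b5b_cover H.lam (A ∩ {z | k7bBin D' (H.p z.1) = m₁}) (Finset.Icc ⌊Qc / D'⌋ ⌊(Qc + 5 * σ * D) / D'⌋)
      (fun m₂ => A ∩ {z | k7bBin D' (H.p z.1) = m₁ ∧ k7bBin D' (H.q0 z.1) = m₂}) _ ?_ (fun m₂ _ => hpiece m₁ m₂)
    · refine hcov.trans ?_
      rw [← mul_assoc, ← ENNReal.ofReal_natCast, ← ENNReal.ofReal_mul (Nat.cast_nonneg _)]
      refine mul_le_mul_left (ENNReal.ofReal_le_ofReal ?_) _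
      refine mul_le_mul_of_nonneg_right ?_ (by positivity)
      refine cT.trans ?_
      have : 1 ≤ σ * D / D' := by
        rw [le_div_iff₀ hD']
        linarith
      have e : (Qc + 5 * σ * D - Qc) / D' = 5 * (σ * D / D') := by ring
      have e' : 7 * σ * D / D' = 7 * (σ * D / D') := by ring
      rw [e, e']
      linarith
    · rintro z ⟨hz, h1⟩
      refine ⟨k7bBin D' (H.q0 z.1), bT _ ?_, hz, h1, rfl⟩
      obtain ⟨-, -, p0, p1⟩ := hpar z hz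
      have hz' := hz
      rw [hA] at hz'
      obtain ⟨⟨hzS, -⟩, hti, hRj, -, -⟩ := hz'
      have hT := hok.time z hzS
      rw [hQc]
      exact k8wp_c_q0 hD hσ hD' hT.1 hT.2 hti hRj p0 p1 h1 hD'σ
  -- the tiny bins of `p`
  obtain ⟨cT, bT⟩ := k7b5b_bins D' ((g.2.1 : ℝ) * D + v₀ * D) ((g.2.1 : ℝ) * D + (v₀ + ω) * D) hD' (by nlinarith)
  have hcov := k7b5b_cover H.lam A (Finset.Icc ⌊((g.2.1 : ℝ) * D + v₀ * D) / D'⌋ ⌊((g.2.1 : ℝ) * D + (v₀ + ω) * D) / D'⌋)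
    (fun m₁ => A ∩ {z | k7bBin D' (H.p z.1) = m₁}) _ ?_ (fun m₁ _ => hlev2 m₁)
  · refine hcov.trans ?_
    unfold K7bHor.gW
    rw [k7b5b_regroup' (by positivity), ← mul_assoc, ← ENNReal.ofReal_natCast, ← ENNReal.ofReal_mul (Nat.cast_nonneg _)]
    refine mul_le_mul_left (ENNReal.ofReal_le_ofReal ?_) _
    have h1 : 1 ≤ ω * D / D' := by
      rw [le_div_iff₀ hD']
      linarith
    have h2 : ((Finset.Icc ⌊((g.2.1 : ℝ) * D + v₀ * D) / D'⌋ ⌊((g.2.1 : ℝ) * D + (v₀ + ω) * D) / D'⌋).card : ℝ) ≤ 3 * (ω * D / D') := by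
      refine cT.trans ?_
      have e : ((g.2.1 : ℝ) * D + (v₀ + ω) * D - ((g.2.1 : ℝ) * D + v₀ * D)) / D' = ω * D / D' := by ring
      rw [e]
      linarith
    calc ((Finset.Icc ⌊((g.2.1 : ℝ) * D + v₀ * D) / D'⌋ ⌊((g.2.1 : ℝ) * D + (v₀ + ω) * D) / D'⌋).card : ℝ)
          * (7 * σ * D / D' * ((C₀ : ℝ) * K ^ C₀ * (2 * σ) * (3 * K * r ^ c.d) * D' ^ 2))
        ≤ 3 * (ω * D / D') * (7 * σ * D / D' * ((C₀ : ℝ) * K ^ C₀ * (2 * σ) * (3 * K * r ^ c.d) * D' ^ 2)) :=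
          mul_le_mul_of_nonneg_right h2 (by positivity)
      _ = (126 * (C₀ : ℝ)) * K ^ (C₀ + 1) * (σ ^ 2 * ω * r ^ c.d * D ^ 2) := by
          field_simp
          ring
      _ ≤ ((126 * C₀ + 1 : ℕ) : ℝ) * K ^ (126 * C₀ + 1) * (σ ^ 2 * ω * r ^ c.d * D ^ 2) := by
          refine mul_le_mul_of_nonneg_right ?_ (by positivity)
          refine mul_le_mul ?_ (pow_le_pow_right₀ hK (by omega)) (by positivity) (by positivity)
          push_cast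
          linarith
      _ = ((126 * C₀ + 1 : ℕ) : ℝ) * K ^ (126 * C₀ + 1) * σ ^ 2 * ω * r ^ c.d * D ^ 2 := by ring
  · intro z hz
    refine ⟨k7bBin D' (H.p z.1), bT _ ?_, hz, rfl⟩
    have hz' := hz
    rw [hA] at hz'
    obtain ⟨-, -, -, -, hv⟩ := hz'
    rw [Set.mem_Icc, le_div_iff₀ hD, div_le_iff₀ hD] at hv
    exact ⟨by linarith [hv.1], by linarith [hv.2]⟩

end Claimed.Agent.R252
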