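import Claimed.Agent.R252.S8w.Defs
import Claimed.Agent.R252.S7b.P5Band
import Claimed.Agent.R252.S7b.P5Box

/-!
# Row 252 (Kakeya in R^4), Sec. 8, P8.6 (`prop:offcritical-wide`), stage S2 (08 l.946-1015): VOCABULARY      (architect helper167; prefix `k8wp` / `K8wp`)

DEFINITIONS ONLY, no sorry.   Interfaces (`K8wCh`, `K8wProj`, `K8wLay`, hubs `K8wHProj`, `K8wHLay`) = `S8w/Defs.lean` of helper182.
* `k8wpX`      the signal `x° = (x - h(t, P)) / A₀` of a trajectory (08 l.948)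
* `k8wpD`      the data `K7aData` of Thm 7.1 in ONE chart `As` (group `g`, corrected predictor `h`): prior `ν(· | As)`, active measure `lam|_{E ∩ As} / ν(As)`, `y = R(t) = P̃₂ - 2 t P̃₁`, `x = x°`; coefficients `0` outside the chart
* `K8wCh.dat`  the data of the chart of `l₀`
* `K8wpM`      the MARGINS of S2 at one scale (inequalities between fixed powers of `N`; no constants): mesh `σ` of the `(t, R)`-cells, tiny parameter mesh `D'`
* `K8wpIn`     the standing hypotheses of the one-scale leaves;   `K8wCh.cl` the incidences of a chart in one `(t, R)`-cell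
* `K8wpLoc`    the conclusion of Thm 7.1 in ONE chart, written over `H`

## The cut of S2   (`A₀ = c.a sA`, `w = c.a s / c.a sA`, chart `As = a.F.asg c.χ D l₀`, `g = H.grp c.χ D l₀`, `h = a.pr1 l₀`)
```
 k8wp_proj : k7a_T71a → K8wHProj      (ProjMain: exponents, hub shape)
   ⟸ k8wp_adm (ProjAdm)   ⟸ k8wp_cap (ProjCap) ⟸ k8wp_cap_core (ProjCapCore: tiny groups + k7b_band_cap)
   ⟸ k8wp_supp (ProjSupp) ⟸ k8wp_pair_count (ProjPair: common enlarged box + stored pair witnesses + capP)  +  k8wp_entry_bins (ProjBins: directional collapse)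
   ⟸ k8wp_glue (ProjGlue: assembly over the charts) ⟸ k8wp_loc (ProjLoc: Out → K8wpLoc) ⟸ k8wp_quad_ext, k8wp_aff_ext (ProjExt)
```
-/

set_option autoImplicit false

namespace Claimed.Agent.R252

open MeasureTheory
open scoped ENNReal BigOperators

noncomputable section

/-- the signal `x° = (x - h(t, P)) / A₀` -/
def k8wpX (H : K7bHor) (A0 : ℝ) (h : K8Pr) (l : H.Lam) (t : ℝ) : ℝ := (H.Xt l t - h.ev t (H.p l) (H.q0 l)) / A0

/-- **the data of Thm 7.1 in one chart** `As` (group `g`, corrected predictor `h`) -/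
def k8wpD (H : K7bHor) (A0 D : ℝ) (g : ℤ × ℤ × ℤ) (h : K8Pr) (As : Set H.Lam) (E : Set (H.Lam × ℝ)) : K7aData H.Lam where
  nu := (H.ν As)⁻¹ • H.ν.restrict As
  mu := (H.ν As)⁻¹ • H.lam.restrict (E ∩ Prod.fst ⁻¹' As)
  y0 := As.indicator fun l => (H.q0 l - g.2.2 * D) / D
  y1 := As.indicator fun l => -2 * ((H.p l - g.2.1 * D) / D)
  x0 := As.indicator fun l => (H.x0 l - (h.c0 + h.p0 * H.p l + h.q0 * H.q0 l)) / A0
  x1 := As.indicator fun l => (H.x1 l - (h.c1 + h.p1 * H.p l + h.q1 * H.q0 l)) / A0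
  x2 := fun _ => 0

/-- the data of the chart of `l₀` -/
def K8wCh.dat {H : K7bHor} (a : K8wCh H) (c : K7bPar) (sA D : ℝ) (E : Set (H.Lam × ℝ)) (l₀ : H.Lam) : K7aData H.Lam :=
  k8wpD H (c.a sA) D (H.grp c.χ D l₀) (a.pr1 l₀) (a.F.asg c.χ D l₀) E

/-- **the margins of S2 at one scale**.   In the application `D = N^(-2k s0)`, `σ ∼ N^(-20 s0)` dyadic, `D' = N^(-30 s0)`, `u1 = s0`, `s0 < s < 3 s0 / 2`, `100 s0 < e0`, `ξ, χ, ϱ ≤ 2 N^(-M0)`, `M0 ≥ 30 s0 + 1`, `K = N^τ` -/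
structure K8wpM (c : K7bPar) (K sA D s σ D' u1 : ℝ) : Prop where
  D0 : 0 < D
  D1 : D ≤ 1
  sA0 : 0 ≤ sA
  sAs : sA ≤ s
  u10 : 0 < u1
  /-- the mesh of the `(t, R)`-cells is dyadic -/
  σdy : ∃ m : ℕ, σ = (1 / 2 : ℝ) ^ m
  /-- the tiny parameter mesh -/
  t1 : c.ξ ≤ D'
  t2 : c.χ ≤ D'
  t3 : c.N ^ (-c.e0) ≤ D'
  t4 : D' ≤ σ * D
  t5 : 2 * D' ≤ c.N ^ (-u1) * D
  t6 : 2 * D' ≤ c.a s * D
  ξa : 2 * c.ξ ≤ c.a s
  ϱa : 2 * c.ϱ ≤ c.a s
  ξσ : c.ξ ≤ σ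
  /-- the common enlarged box -/
  Dh : D ≤ c.h s
  σh : σ ≤ c.h s ^ 2
  χh : c.χ ≤ c.h s ^ 2
  eh : c.N ^ (-c.e0) ≤ c.h s ^ 2
  Kh : K * c.h s ≤ 1
  /-- variation of an evaluated entry over a cell, reconstruction errors -/
  var : (1 + c.a s / c.h s ^ 2) * (c.χ + c.N ^ (-c.e0) + σ) ≤ c.a s

/-- **the standing hypotheses of all one-scale leaves of S2** -/
structure K8wpIn (H : K7bHor) (a : K8wCh H) (c : K7bPar) (K sA D s σ D' u1 : ℝ) (T : Finset ℝ) (E : Set (H.Lam × ℝ)) : Prop where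
  wf : c.WF
  K1 : 1 ≤ K
  ok : H.Ok c K
  ch : a.Ok c K sA D T E
  sT : s ∈ T
  mE : MeasurableSet E
  M : K8wpM c K sA D s σ D' u1

/-- the incidences of the selection in the chart of `l₀` and in the `(t, R)`-cell `(i, j)` of mesh `σ` -/
def K8wCh.cl {H : K7bHor} (a : K8wCh H) (c : K7bPar) (D σ : ℝ) (E : Set (H.Lam × ℝ)) (l₀ : H.Lam) (i j : ℤ) : Set (H.Lam × ℝ) :=
  {z | z ∈ E ∧ z.1 ∈ a.F.asg c.χ D l₀ ∧ ⌊z.2 / σ⌋ = i ∧ ⌊k8wR D (H.grp c.χ D l₀) (H.p z.1) (H.q0 z.1) z.2 / σ⌋ = j}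

/-- **the conclusion of Thm 7.1 in one chart**, over `H` : chart `As`, group `g`, corrected predictor `h`, labels `Fin n` -/
structure K8wpLoc (H : K7bHor) (c : K7bPar) (K sA D s : ℝ) (E : Set (H.Lam × ℝ)) (g : ℤ × ℤ × ℤ) (h : K8Pr) (As : Set H.Lam)
    (n : ℕ) (lab : H.Lam → Option (Fin n)) (L : Fin n → K7aLab) : Prop where
  meas : ∀ o, MeasurableSet (lab ⁻¹' {o})
  /-- the labelled part of the chart is dense -/
  mass : H.ν As ≤ ENNReal.ofReal K * H.lam (E ∩ {z | z.1 ∈ As ∧ lab z.1 ≠ none})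
  quad : ∀ i, K7aQuad (L i).F
  cen : ∀ i, |(L i).c0| ≤ K ∧ |(L i).c1| ≤ K
  norm : ∀ i, ∀ t ∈ Set.Icc (0 : ℝ) 1, ∀ r ∈ Set.Icc (-1 : ℝ) 1, |(L i).F t ((L i).cen t + r)| ≤ K
  fit : ∀ l ∈ As, ∀ i, lab l = some i → ∀ t ∈ Set.Icc (0 : ℝ) 1,
    |k8wR D g (H.p l) (H.q0 l) t - (L i).cen t| ≤ K ∧
    |H.Xt l t - h.ev t (H.p l) (H.q0 l) - c.a sA * (L i).F t (k8wR D g (H.p l) (H.q0 l) t)| ≤ K * c.a s
  floor : ∀ i, H.gW c.χ D g * ENNReal.ofReal (c.a s ^ c.d) ≤ ENNReal.ofReal K * H.lam (E ∩ {z | z.1 ∈ As ∧ lab z.1 = some i})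

theorem k8wp_defs_eqns_cite : True := by
  have := @k8wpX.eq_1
  have := @k8wpD.eq_1
  have := @K8wCh.dat.eq_1
  have := @K8wCh.cl.eq_1
  trivial

end

end Claimed.Agent.R252
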