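import Claimed.Agent.R252.S8w.ProjDefs

/-!
# Row 252, S8w, stage S2, leaf L-252-S8wp-EXT  (CONTRACT: 2 sorries)      elementary extension lemmas      (architect helper167)
PAPER-FREE, Mathlib only.
* `k8wp_aff_ext`  : a predictor `h : K8Pr` is affine in `(p, q)`.   If `|h.ev t p q| ≤ K` on the box `|p - p₀| ≤ D`, `|q - q₀| ≤ D`, then `|h.ev t p q| ≤ (1 + ρ) K` on the box of radius `ρ D`.
  PLAN.  `A = (h.p0 + h.p1 t) D`, `B = (h.q0 + h.q1 t) D`, `m = h.ev t p₀ q₀`.   The four corners `(p₀ ± D, q₀ ± D)` give `|m ± A ± B| ≤ K`, so `|m| ≤ K` and `|A| + |B| ≤ K`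
  (`2 (εA + ε'B) = (m + εA + ε'B) - (m - εA - ε'B)`).   `h.ev t p q = m + A x + B y`, `x = (p - p₀)/D`, `y = (q - q₀)/D`, `|x|, |y| ≤ ρ`.
* `k8wp_aff_slope` : the same hypotheses give `|h.p0 + h.p1 t| D ≤ K`, `|h.q0 + h.q1 t| D ≤ K`.
* `k8wp_quad_ext` : a polynomial `f` of degree `≤ 2` with `|f| ≤ B` on `[y₀ - β, y₀ + β]` satisfies `|f (y₀ + r)| ≤ 3 B / β²` for `|r| ≤ 1`, if `0 < β ≤ 1`.
  PLAN.  `f (y₀ + β u) = A + B₁ u + C u²`; values at `u = -1, 0, 1` : `|A| ≤ B`, `|B₁| ≤ B`, `|C| ≤ 2B`... use Lagrange: `f(u) = f(-1) u(u-1)/2 + f(0)(1 - u²) + f(1) u(u+1)/2`, so for `|u| ≥ 1`: `|f(u)| ≤ B (u² + |u² - 1|) ≤ 2 B u²`, for `|u| ≤ 1` the hypothesis.   `u = r / β`.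
-/

set_option autoImplicit false

namespace Claimed.Agent.R252

theorem k8wp_aff_slope (h : K8Pr) {K D t p₀ q₀ : ℝ} (hD : 0 < D)
    (hb : ∀ p q : ℝ, |p - p₀| ≤ D → |q - q₀| ≤ D → |h.ev t p q| ≤ K) :
    |h.ev t p₀ q₀| ≤ K ∧ |h.p0 + h.p1 * t| * D + |h.q0 + h.q1 * t| * D ≤ K := by
  have hD0 := hD.le
  have e : ∀ x y : ℝ, h.ev t (p₀ + x) (q₀ + y)
      = h.ev t p₀ q₀ + (h.p0 + h.p1 * t) * x + (h.q0 + h.q1 * t) * y := by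
    intro x y
    unfold K8Pr.ev
    ring
  have hd1 : |p₀ + D - p₀| ≤ D := by rw [add_sub_cancel_left, abs_of_pos hD]
  have hd2 : |p₀ + -D - p₀| ≤ D := by rw [add_sub_cancel_left, abs_neg, abs_of_pos hD]
  have hd3 : |q₀ + D - q₀| ≤ D := by rw [add_sub_cancel_left, abs_of_pos hD]
  have hd4 : |q₀ + -D - q₀| ≤ D := by rw [add_sub_cancel_left, abs_neg, abs_of_pos hD]
  have c1 := abs_le.1 (hb (p₀ + D) (q₀ + D) hd1 hd3)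
  have c2 := abs_le.1 (hb (p₀ + D) (q₀ + -D) hd1 hd4)
  have c3 := abs_le.1 (hb (p₀ + -D) (q₀ + D) hd2 hd3)
  have c4 := abs_le.1 (hb (p₀ + -D) (q₀ + -D) hd2 hd4)
  rw [e] at c1 c2 c3 c4
  refine ⟨hb p₀ q₀ (by rw [sub_self, abs_zero]; exact hD0) (by rw [sub_self, abs_zero]; exact hD0), ?_⟩
  have hA : |h.p0 + h.p1 * t| * D = |(h.p0 + h.p1 * t) * D| := by rw [abs_mul, abs_of_pos hD]
  have hB : |h.q0 + h.q1 * t| * D = |(h.q0 + h.q1 * t) * D| := by rw [abs_mul, abs_of_pos hD]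
  rw [hA, hB]
  rcases abs_cases ((h.p0 + h.p1 * t) * D) with ⟨a1, _⟩ | ⟨a1, _⟩ <;>
    rcases abs_cases ((h.q0 + h.q1 * t) * D) with ⟨b1, _⟩ | ⟨b1, _⟩ <;>
    rw [a1, b1] <;> linarith [c1.1, c1.2, c2.1, c2.2, c3.1, c3.2, c4.1, c4.2]

theorem k8wp_aff_ext (h : K8Pr) {K D ρ t p₀ q₀ : ℝ} (hD : 0 < D) (hρ : 0 ≤ ρ)
    (hb : ∀ p q : ℝ, |p - p₀| ≤ D → |q - q₀| ≤ D → |h.ev t p q| ≤ K) :
    ∀ p q : ℝ, |p - p₀| ≤ ρ * D → |q - q₀| ≤ ρ * D → |h.ev t p q| ≤ (1 + ρ) * K := by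
  intro p q hp hq
  obtain ⟨h1, h2⟩ := k8wp_aff_slope h hD hb
  have e : h.ev t p q = h.ev t p₀ q₀ + (h.p0 + h.p1 * t) * (p - p₀) + (h.q0 + h.q1 * t) * (q - q₀) := by
    unfold K8Pr.ev
    ring
  have a1 : |(h.p0 + h.p1 * t) * (p - p₀)| ≤ ρ * (|h.p0 + h.p1 * t| * D) := by
    rw [abs_mul]
    calc |h.p0 + h.p1 * t| * |p - p₀| ≤ |h.p0 + h.p1 * t| * (ρ * D) := by gcongr
      _ = ρ * (|h.p0 + h.p1 * t| * D) := by ring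
  have a2 : |(h.q0 + h.q1 * t) * (q - q₀)| ≤ ρ * (|h.q0 + h.q1 * t| * D) := by
    rw [abs_mul]
    calc |h.q0 + h.q1 * t| * |q - q₀| ≤ |h.q0 + h.q1 * t| * (ρ * D) := by gcongr
      _ = ρ * (|h.q0 + h.q1 * t| * D) := by ring
  rw [e]
  calc |h.ev t p₀ q₀ + (h.p0 + h.p1 * t) * (p - p₀) + (h.q0 + h.q1 * t) * (q - q₀)|
      ≤ |h.ev t p₀ q₀ + (h.p0 + h.p1 * t) * (p - p₀)| + |(h.q0 + h.q1 * t) * (q - q₀)| := abs_add_le _ _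
    _ ≤ (|h.ev t p₀ q₀| + |(h.p0 + h.p1 * t) * (p - p₀)|) + |(h.q0 + h.q1 * t) * (q - q₀)| := by
        gcongr
        exact abs_add_le _ _
    _ ≤ (K + ρ * (|h.p0 + h.p1 * t| * D)) + ρ * (|h.q0 + h.q1 * t| * D) := by gcongr
    _ = K + ρ * (|h.p0 + h.p1 * t| * D + |h.q0 + h.q1 * t| * D) := by ring
    _ ≤ K + ρ * K := by gcongr
    _ = (1 + ρ) * K := by ring

theorem k8wp_quad_ext {e0 e1 e2 B β y₀ : ℝ} (hβ : 0 < β) (hβ1 : β ≤ 1)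
    (hb : ∀ u ∈ Set.Icc (-1 : ℝ) 1, |e0 + e1 * (y₀ + β * u) + e2 * (y₀ + β * u) ^ 2| ≤ B) :
    ∀ r ∈ Set.Icc (-1 : ℝ) 1, |e0 + e1 * (y₀ + r) + e2 * (y₀ + r) ^ 2| ≤ 3 * B / β ^ 2 := by
  intro r hr
  have hB : 0 ≤ B := (abs_nonneg _).trans (hb 0 ⟨by norm_num, by norm_num⟩)
  have hβ2 : 0 < β ^ 2 := by positivity
  have hβ21 : β ^ 2 ≤ 1 := pow_le_one₀ hβ.le hβ1
  obtain ⟨u, hu⟩ : ∃ u, u = r / β := ⟨_, rfl⟩
  have hr' : r = β * u := by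
    rw [hu]
    field_simp
  have hu2 : u ^ 2 * β ^ 2 ≤ 1 := by
    have : u ^ 2 * β ^ 2 = r ^ 2 := by
      rw [hr']
      ring
    rw [this]
    nlinarith [hr.1, hr.2]
  rw [hr']
  by_cases h1 : |u| ≤ 1
  · refine (hb u (abs_le.1 h1)).trans ?_
    rw [le_div_iff₀ hβ2]
    nlinarith
  · rw [not_le] at h1
    have gm := abs_le.1 (hb (-1) ⟨le_rfl, by norm_num⟩)
    have g0 := abs_le.1 (hb 0 ⟨by norm_num, by norm_num⟩)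
    have gp := abs_le.1 (hb 1 ⟨by norm_num, le_rfl⟩)
    have w12 : 0 ≤ u * (u - 1) / 2 ∧ 0 ≤ u * (u + 1) / 2 ∧ 0 ≤ u ^ 2 - 1 := by
      rcases lt_abs.1 h1 with h | h
      · refine ⟨?_, ?_, ?_⟩ <;> nlinarith
      · refine ⟨?_, ?_, ?_⟩ <;> nlinarith
    obtain ⟨w1, w2, w0⟩ := w12
    have id : e0 + e1 * (y₀ + β * u) + e2 * (y₀ + β * u) ^ 2
        = (e0 + e1 * (y₀ + β * (-1)) + e2 * (y₀ + β * (-1)) ^ 2) * (u * (u - 1) / 2)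
          - (e0 + e1 * (y₀ + β * 0) + e2 * (y₀ + β * 0) ^ 2) * (u ^ 2 - 1)
          + (e0 + e1 * (y₀ + β * 1) + e2 * (y₀ + β * 1) ^ 2) * (u * (u + 1) / 2) := by ring
    rw [id]
    generalize e0 + e1 * (y₀ + β * (-1)) + e2 * (y₀ + β * (-1)) ^ 2 = Gm at gm ⊢
    generalize e0 + e1 * (y₀ + β * 0) + e2 * (y₀ + β * 0) ^ 2 = G0 at g0 ⊢
    generalize e0 + e1 * (y₀ + β * 1) + e2 * (y₀ + β * 1) ^ 2 = Gp at gp ⊢
    have hfin : B * (2 * u ^ 2 - 1) ≤ 3 * B / β ^ 2 := by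
      rw [le_div_iff₀ hβ2]
      nlinarith [mul_le_mul_of_nonneg_left hu2 hB, mul_nonneg hB hβ2.le]
    refine le_trans ?_ hfin
    have m1 := mul_le_mul_of_nonneg_right gm.1 w1
    have m2 := mul_le_mul_of_nonneg_right gm.2 w1
    have m3 := mul_le_mul_of_nonneg_right g0.1 w0
    have m4 := mul_le_mul_of_nonneg_right g0.2 w0
    have m5 := mul_le_mul_of_nonneg_right gp.1 w2
    have m6 := mul_le_mul_of_nonneg_right gp.2 w2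
    rw [abs_le]
    constructor <;> nlinarith

end Claimed.Agent.R252
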