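import Claimed.Agent.R252.S8w.ProjExt
import Claimed.Agent.R252.S8w.ProjAdm
import Claimed.Agent.R252.S8.Floor

/-!
# Row 252, S8w, stage S2, leaves L-252-S8wp-GA, -GB, -GC, -GD  (CONTRACT: 4 sorries)      assembly of the conclusions of Thm 7.1 over all charts   (08 l.1008-1012 "keep the ensemble of typical charts")      (architect helper167)
PAPER-FREE.   Tools: `k8f_asg_meas`, `k8f_lab_finite` (`S8/Floor`), `k8wp_lam_le`, `k8wp_nu_lo` (`ProjAdm`), `k8wp_aff_ext` (`ProjExt`), `finSigmaFinEquiv`, `Finset.equivFin`.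

## GA `k8wp_ch_restrict` : a chart system survives a restriction `E' ⊆ E` and a larger slack `K'`, if the two floors (`lab.floor`, `lab.prior`) are given on `E'`.
 All other fields are upper bounds or pointwise facts on the selection: `prep` (`sub` by transitivity; `pairs`, `pfit`, `zfit`, `slopes` are `∀ z ∈ E`, monotone in `K`: `ENNReal.ofReal_le_ofReal`, `mul_le_mul_of_nonneg_right`; `0 ≤ c.a s`, `0 ≤ c.a s / c.h s`),
 `lab` (`cover`, `fit`, `norm`), `good` (`k8wGood` is monotone in `K`), `same`, `fit1`, `norm1`, `shared`, `coll`.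
## GB `k8wp_assemble` : ABSTRACT.  Finitely many pairwise disjoint measurable sets `As k` (`k ∈ S`), on each a measurable labelling `lab k : Λ → Option (Fin (n k))`.   Then one labelling `Lab : Λ → Option (Fin m)` whose labels are the pairs `(k, i)`.
 `e : (Σ j : Fin S.card, Fin (n (S.equivFin.symm j))) ≃ Fin m` (`finSigmaFinEquiv`).   `Lab l = ` if `∃ k ∈ S, l ∈ As k` then `(lab k l).map (fun i => e ⟨S.equivFin k, i⟩)` else `none` (classical choice of `k`; unique by disjointness).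
 `Lab⁻¹ {some φ} = As k ∩ (lab k)⁻¹ {some i}`;   `Lab⁻¹ {none}` = complement of the finite union of these.
## GC `k8wp_sum_mass` : ABSTRACT.  `E ⊆ ⋃_{k ∈ S} A k`, `μ (A k) ≤ C μ (B k)`, `B k ⊆ E'` measurable, pairwise disjoint: `μ E ≤ C μ E'`   (`measure_biUnion_finset_le`, `measure_biUnion_finset`, `Finset.mul_sum`).
## GD `k8wp_glue` : keys `x = (group, predictor F.pr)`, `As x = {l ∈ dom | grp l = x.1 ∧ pr l = x.2}` (`= a.F.asg c.χ D z₀.1` for `x` = key of `z₀`, by `rfl`/`Set.ext`).   `S₀` = keys of `E` (finite: `k8f_lab_finite`), `S = {x ∈ S₀ | ν (As x) ≠ 0}`.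
 Choose `z₀(x) ∈ E` and the local data `(n x, lab x, L x)` for `x ∈ S`.   GB gives `Lab, key, idx`.   `Φ = ⟨m, Lab, fun φ => (key φ).1, fun φ => a.pr1 (z₀ (key φ)).1, fun φ => L (key φ) (idx φ)⟩`,  `E' = E ∩ {z | Lab z.1 ≠ none}`.
 * `Res E'` : GC with `A x = E ∩ {z.1 ∈ As x}` over `S₀`, `B x = E ∩ {z.1 ∈ As x ∧ lab x z.1 ≠ none}` (`B x = ∅` allowed for null charts, where `lam (A x) ≤ K ν (As x) = 0`: `k8wp_lam_le`);  for `x ∈ S` : `lam (A x) ≤ K ν(As x) ≤ K K' lam (B x)` (`K8wpLoc.mass`).   So `1/K ≤ lam E ≤ K K' lam E'`.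
 * `a.Ok` on `E'` : GA; for `z ∈ E'` with key `x ∈ S` : `E' ∩ inc z.1 = B x`, `prior` = `K8wpLoc.mass`, `floor` = `k8wp_nu_lo` + `mass` (slack `K² K'`).
 * `Φ.Ok` : `good` from `ch.good`; `quad, cen, norm, fit` from `K8wpLoc`; `floor` : `E ⊆ Sp`;  `hnorm` : `ch.norm1` at `l₀ = (z₀ x).1` + `k8wp_aff_ext` with `ρ = 3` (`|p - g.2.1 D| ≤ 2D` and `|g.2.1 D - H.p l₀| ≤ D`), slack `4K`.
-/

set_option autoImplicit false

namespace Claimed.Agent.R252

open MeasureTheory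
open scoped ENNReal BigOperators

theorem k8wp_ch_restrict {H : K7bHor} {a : K8wCh H} {c : K7bPar} {K K' sA D : ℝ} {T : Finset ℝ} {E E' : Set (H.Lam × ℝ)} (hc : c.WF)
    (hK0 : 0 < K) (hK : K ≤ K') (h : a.Ok c K sA D T E) (hE : E' ⊆ E)
    (hfl : ∀ z ∈ E', H.gW c.χ D (H.grp c.χ D z.1) * ENNReal.ofReal (c.a sA ^ c.d) ≤ ENNReal.ofReal K' * H.lam (E' ∩ a.F.inc c.χ D z.1))
    (hpr : ∀ z ∈ E', H.ν (a.F.asg c.χ D z.1) ≤ ENNReal.ofReal K' * H.lam (E' ∩ a.F.inc c.χ D z.1)) :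
    a.Ok c K' sA D T E' := by
  have hN : 0 < c.N := lt_of_lt_of_le one_pos hc.N1
  have ha : ∀ s, 0 < c.a s := fun s => Real.rpow_pos_of_pos hN _
  exact
  { sAG := h.sAG, TG := h.TG
    prep := h.prep.mono hc hK hE
    lab :=
      { mdom := h.lab.mdom, mpr := h.lab.mpr, fin := h.lab.fin
        cover := fun z hz => h.lab.cover z (hE hz)
        fit := fun l hl t ht => (h.lab.fit l hl t ht).trans (mul_le_mul_of_nonneg_right hK (ha sA).le)
        norm := fun l hl t ht p q h1 h2 => (h.lab.norm l hl t ht p q h1 h2).trans hK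
        floor := hfl
        prior := hpr }
    good := fun l hl => by
      obtain ⟨a1, a2, a3, a4, a5, a6, a7⟩ := h.good hl
      exact ⟨a1.trans hK, a2.trans hK, a3.trans hK, a4.trans hK, a5.trans hK, a6.trans hK, a7⟩
    same := h.same
    fit1 := fun l hl t ht => (h.fit1 l hl t ht).trans (mul_le_mul_of_nonneg_right hK (ha sA).le)
    norm1 := fun l hl t ht p q h1 h2 => (h.norm1 l hl t ht p q h1 h2).trans hK
    shared := fun z hz z' hz' => h.shared z (hE hz) z' (hE hz')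
    coll := fun s hs z hz => (h.coll s hs z (hE hz)).trans (mul_le_mul_of_nonneg_right hK (ha s).le) }

theorem k8wp_assemble {Λ κ : Type} [MeasurableSpace Λ] (S : Finset κ) (As : κ → Set Λ) (hAs : ∀ k ∈ S, MeasurableSet (As k))
    (hdisj : (S : Set κ).PairwiseDisjoint As) (n : κ → ℕ) (lab : ∀ k, Λ → Option (Fin (n k)))
    (hm : ∀ k ∈ S, ∀ o, MeasurableSet (lab k ⁻¹' {o})) :
    ∃ (m : ℕ) (Lab : Λ → Option (Fin m)) (key : Fin m → κ) (idx : ∀ φ, Fin (n (key φ))),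
      (∀ o, MeasurableSet (Lab ⁻¹' {o})) ∧ (∀ φ, key φ ∈ S) ∧
      (∀ l φ, Lab l = some φ ↔ l ∈ As (key φ) ∧ lab (key φ) l = some (idx φ)) ∧
      (∀ k ∈ S, ∀ l ∈ As k, lab k l ≠ none → Lab l ≠ none) := by
  classical
  let Sg := Σ k : S, Fin (n k.1)
  let e : Sg ≃ Fin (Fintype.card Sg) := Fintype.equivFin Sg
  let Q : Λ → Sg → Prop := fun l x => l ∈ As x.1.1 ∧ lab x.1.1 l = some x.2
  have huniq : ∀ l (x x' : Sg), Q l x → Q l x' → x = x' := by
    rintro l ⟨⟨k, hk⟩, i⟩ ⟨⟨k', hk'⟩, i'⟩ h h'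
    have hkk : k = k' := by
      by_contra hne
      exact Set.disjoint_left.1 (hdisj hk hk' hne) h.1 h'.1
    subst hkk
    have h3 : some i = some i' := h.2.symm.trans h'.2
    rw [Option.some.injEq] at h3
    subst h3
    rfl
  let Lab : Λ → Option (Fin (Fintype.card Sg)) := fun l =>
    if h : ∃ φ, Q l (e.symm φ) then some h.choose else none
  have hLab : ∀ l φ, Lab l = some φ ↔ Q l (e.symm φ) := by
    intro l φ
    constructor
    · intro h
      by_cases hex : ∃ φ, Q l (e.symm φ)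
      · have h1 : Lab l = some hex.choose := dif_pos hex
        rw [h1, Option.some.injEq] at h
        rw [← h]
        exact hex.choose_spec
      · have h1 : Lab l = none := dif_neg hex
        rw [h1] at h
        cases h
    · intro h
      have hex : ∃ φ, Q l (e.symm φ) := ⟨φ, h⟩
      have h1 : Lab l = some hex.choose := dif_pos hex
      rw [h1, Option.some.injEq]
      exact e.symm.injective (huniq l _ _ hex.choose_spec h)
  refine ⟨Fintype.card Sg, Lab, fun φ => (e.symm φ).1.1, fun φ => (e.symm φ).2, ?_,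
    fun φ => (e.symm φ).1.2, hLab, ?_⟩
  · have hsome : ∀ φ, MeasurableSet (Lab ⁻¹' {some φ}) := by
      intro φ
      have h1 : Lab ⁻¹' {some φ} = As (e.symm φ).1.1 ∩ lab (e.symm φ).1.1 ⁻¹' {some (e.symm φ).2} := by
        ext l
        exact hLab l φ
      rw [h1]
      exact (hAs _ (e.symm φ).1.2).inter (hm _ (e.symm φ).1.2 _)
    intro o
    cases o with
    | some φ => exact hsome φ
    | none =>
      have h1 : Lab ⁻¹' {none} = (⋃ φ, Lab ⁻¹' {some φ})ᶜ := by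
        ext l
        simp only [Set.mem_preimage, Set.mem_singleton_iff, Set.mem_compl_iff, Set.mem_iUnion, not_exists]
        constructor
        · intro h φ h'
          rw [h] at h'
          cases h'
        · intro h
          cases hl : Lab l with
          | none => rfl
          | some φ => exact absurd hl (h φ)
      rw [h1]
      exact (MeasurableSet.iUnion hsome).compl
  · intro k hk l hl hne
    obtain ⟨i, hi⟩ := Option.ne_none_iff_exists'.1 hne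
    have hQ : Q l (e.symm (e ⟨⟨k, hk⟩, i⟩)) := by
      rw [e.symm_apply_apply]
      exact ⟨hl, hi⟩
    rw [(hLab l _).2 hQ]
    exact Option.some_ne_none _

theorem k8wp_sum_mass {Ω κ : Type*} [MeasurableSpace Ω] (μ : Measure Ω) (S : Finset κ) (A B : κ → Set Ω) (E E' : Set Ω) (C : ℝ≥0∞)
    (hcov : E ⊆ ⋃ k ∈ S, A k) (hB : ∀ k ∈ S, MeasurableSet (B k)) (hdisj : (S : Set κ).PairwiseDisjoint B)
    (hsub : ∀ k ∈ S, B k ⊆ E') (h : ∀ k ∈ S, μ (A k) ≤ C * μ (B k)) : μ E ≤ C * μ E' := by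
  calc μ E ≤ μ (⋃ k ∈ S, A k) := measure_mono hcov
    _ ≤ ∑ k ∈ S, μ (A k) := measure_biUnion_finset_le _ _
    _ ≤ ∑ k ∈ S, C * μ (B k) := Finset.sum_le_sum h
    _ = C * ∑ k ∈ S, μ (B k) := (Finset.mul_sum _ _ _).symm
    _ = C * μ (⋃ k ∈ S, B k) := by rw [measure_biUnion_finset hdisj hB]
    _ ≤ C * μ E' := mul_le_mul_right (measure_mono (Set.iUnion₂_subset hsub)) _

theorem k8wp_gd_floor_bin {D y : ℝ} (hD : 0 < D) : |(k7bBin D y : ℝ) * D - y| ≤ D := by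
  unfold k7bBin
  have h1 : ((⌊y / D⌋ : ℤ) : ℝ) ≤ y / D := Int.floor_le _
  have h2 : y / D < ((⌊y / D⌋ : ℤ) : ℝ) + 1 := Int.lt_floor_add_one _
  rw [le_div_iff₀ hD] at h1
  rw [div_lt_iff₀ hD] at h2
  rw [abs_le]
  constructor <;> nlinarith

theorem k8wp_gd_tri {p b P D : ℝ} (h1 : |p - b| ≤ 2 * D) (h2 : |b - P| ≤ D) : |p - P| ≤ 3 * D := by
  have a1 := abs_le.1 h1
  have a2 := abs_le.1 h2
  rw [abs_le]
  constructor <;> linarith [a1.1, a1.2, a2.1, a2.2]

theorem k8wp_glue : ∃ C : ℕ, 1 ≤ C ∧ ∀ (H : K7bHor) (a : K8wCh H) (c : K7bPar) (K sA D s σ D' u1 : ℝ) (T : Finset ℝ) (E : Set (H.Lam × ℝ)),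
    K8wpIn H a c K sA D s σ D' u1 T E → ENNReal.ofReal (1 / K) ≤ H.lam E → ∀ K' : ℝ, K ≤ K' →
    (∀ z₀ ∈ E, H.ν (a.F.asg c.χ D z₀.1) ≠ 0 → ∃ (n : ℕ) (lab : H.Lam → Option (Fin n)) (L : Fin n → K7aLab),
      K8wpLoc H c K' sA D s E (H.grp c.χ D z₀.1) (a.pr1 z₀.1) (a.F.asg c.χ D z₀.1) n lab L) →
    ∃ E' ⊆ E, H.Res E' (1 / ((C : ℝ) * K' ^ C)) ∧ a.Ok c ((C : ℝ) * K' ^ C) sA D T E' ∧
      ∃ Φ : K8wProj H, Φ.Ok c ((C : ℝ) * K' ^ C) sA D s ∧ ∀ z ∈ E', Φ.lab z.1 ≠ none := by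
  classical
  refine ⟨4, by norm_num, ?_⟩
  intro H a c K sA D s σ D' u1 T E hI hmass K' hKK' hloc0
  set KK : ℝ := ((4 : ℕ) : ℝ) * K' ^ 4 with hKKdef
  have hK1 : 1 ≤ K := hI.K1
  have hK'1 : 1 ≤ K' := le_trans hK1 hKK'
  have hK0 : 0 < K := by linarith
  have hK'0 : 0 < K' := by linarith
  have hp4 : ∀ j : ℕ, j ≤ 4 → K' ^ j ≤ KK := by
    intro j hj
    have h1 : K' ^ j ≤ K' ^ 4 := pow_le_pow_right₀ hK'1 hj
    have h2 : 0 ≤ K' ^ 4 := by positivity
    rw [hKKdef]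
    push_cast
    linarith
  have hKK1 : K' ≤ KK := by simpa using hp4 1 (by norm_num)
  have hKK0 : 0 < KK := by linarith
  have hKKK : K ≤ KK := le_trans hKK' hKK1
  have hKK3 : K * (K * K') ≤ KK := by
    refine le_trans ?_ (hp4 3 (by norm_num))
    calc K * (K * K') ≤ K' * (K' * K') := by gcongr
      _ = K' ^ 3 := by ring
  have hKK4 : (1 + 3) * K ≤ KK := by
    have h1 : K' ≤ K' ^ 4 := by simpa using pow_le_pow_right₀ hK'1 (show 1 ≤ 4 by norm_num)
    rw [hKKdef]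
    push_cast
    linarith
  have hD : 0 < D := hI.M.D0
  have hESp : E ⊆ H.Sp := fun z hz => hI.ch.prep.sub0 (hI.ch.prep.sub hz)
  -- keys
  let As : (ℤ × ℤ × ℤ) × K8Pr → Set H.Lam := fun x => {l | l ∈ a.F.dom ∧ H.grp c.χ D l = x.1 ∧ a.F.pr l = x.2}
  let kf : H.Lam × ℝ → (ℤ × ℤ × ℤ) × K8Pr := fun z => (H.grp c.χ D z.1, a.F.pr z.1)
  have hfin := k8f_lab_finite hI.ok hI.wf.χ0 hD a.F hI.ch.lab.fin hESp hI.ch.lab.cover
  let S₀ : Finset ((ℤ × ℤ × ℤ) × K8Pr) := hfin.toFinset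
  let S : Finset ((ℤ × ℤ × ℤ) × K8Pr) := S₀.filter (fun x => H.ν (As x) ≠ 0)
  have hS₀ : ∀ z ∈ E, kf z ∈ S₀ := fun z hz => hfin.mem_toFinset.2 ⟨z, hz, rfl⟩
  have hasg : ∀ l : H.Lam, a.F.asg c.χ D l = As (H.grp c.χ D l, a.F.pr l) := fun l => rfl
  have hAsm : ∀ x, MeasurableSet (As x) := fun x => k8f_asg_meas hI.ok c.χ D a.F hI.ch.lab.mdom hI.ch.lab.mpr x
  have hAskey : ∀ x l, l ∈ As x → (H.grp c.χ D l, a.F.pr l) = x := fun x l hl => Prod.ext hl.2.1 hl.2.2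
  have hdisjAll : ∀ x y, x ≠ y → Disjoint (As x) (As y) := by
    intro x y hxy
    refine Set.disjoint_left.2 fun l hl hl' => hxy ?_
    exact (hAskey x l hl).symm.trans (hAskey y l hl')
  -- `E` is nonempty
  have hEne : E.Nonempty := by
    by_contra hne
    rw [Set.not_nonempty_iff_eq_empty] at hne
    rw [hne, measure_empty, nonpos_iff_eq_zero, ENNReal.ofReal_eq_zero] at hmass
    have : 0 < 1 / K := by positivity
    linarith
  obtain ⟨zd, hzd⟩ := hEne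
  have hz0ex : ∀ x, ∃ z : H.Lam × ℝ, x ∈ S₀ → z ∈ E ∧ kf z = x := by
    intro x
    by_cases hx : x ∈ S₀
    · obtain ⟨z, hz, hzx⟩ := hfin.mem_toFinset.1 hx
      exact ⟨z, fun _ => ⟨hz, hzx⟩⟩
    · exact ⟨zd, fun h => absurd h hx⟩
  choose z0 hz0 using hz0ex
  have hasg0 : ∀ x ∈ S₀, a.F.asg c.χ D (z0 x).1 = As x := by
    intro x hx
    rw [hasg]
    exact congrArg As (hz0 x hx).2
  have hlocex : ∀ x, ∃ (n : ℕ) (lab : H.Lam → Option (Fin n)) (L : Fin n → K7aLab), x ∈ S →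
      K8wpLoc H c K' sA D s E x.1 (a.pr1 (z0 x).1) (As x) n lab L := by
    intro x
    by_cases hx : x ∈ S
    · have hx0 : x ∈ S₀ := (Finset.mem_filter.1 hx).1
      have hν : H.ν (As x) ≠ 0 := (Finset.mem_filter.1 hx).2
      obtain ⟨hzE, hzk⟩ := hz0 x hx0
      have e1 : H.grp c.χ D (z0 x).1 = x.1 := congrArg Prod.fst hzk
      have e2 := hasg0 x hx0
      obtain ⟨n, lab, L, hL⟩ := hloc0 (z0 x) hzE (by rw [e2]; exact hν)
      rw [e1, e2] at hL
      exact ⟨n, lab, L, fun _ => hL⟩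
    · exact ⟨0, fun _ => none, fun i => i.elim0, fun h => absurd h hx⟩
  choose n lab L hloc using hlocex
  obtain ⟨m, Lab, key, idx, hLm, hkey, hiff, hnn⟩ := k8wp_assemble S As (fun k _ => hAsm k)
    (fun x _ y _ hxy => hdisjAll x y hxy) n lab (fun k hk => (hloc k hk).meas)
  let E' : Set (H.Lam × ℝ) := E ∩ {z | Lab z.1 ≠ none}
  have hE'E : E' ⊆ E := Set.inter_subset_left
  have hmE' : MeasurableSet E' := by
    refine hI.mE.inter ?_
    have h1 : {z : H.Lam × ℝ | Lab z.1 ≠ none} = (Prod.fst ⁻¹' (Lab ⁻¹' {none}))ᶜ := by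
      ext z
      simp
    rw [h1]
    exact (measurable_fst (hLm none)).compl
  have hBsub : ∀ x ∈ S, E ∩ {z | z.1 ∈ As x ∧ lab x z.1 ≠ none} ⊆ E' ∩ {z | z.1 ∈ As x} := by
    intro x hx z hz
    exact ⟨⟨hz.1, hnn x hx z.1 hz.2.1 hz.2.2⟩, hz.2.1⟩
  have hmassx : ∀ x ∈ S, H.ν (As x) ≤ ENNReal.ofReal K' * H.lam (E' ∩ {z | z.1 ∈ As x}) := by
    intro x hx
    exact le_trans (hloc x hx).mass (mul_le_mul' le_rfl (measure_mono (hBsub x hx)))
  have hlamA : ∀ x ∈ S₀, H.lam (E ∩ {z | z.1 ∈ As x})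
      ≤ (ENNReal.ofReal K * ENNReal.ofReal K') * H.lam (E' ∩ {z | z.1 ∈ As x}) := by
    intro x hx
    have h1 := k8wp_lam_le hI (z0 x).1
    rw [hasg0 x hx] at h1
    have h2 : H.lam (E ∩ {z | z.1 ∈ As x}) ≤ ENNReal.ofReal K * H.ν (As x) :=
      le_trans (measure_mono Set.inter_subset_right) h1
    by_cases hν : H.ν (As x) = 0
    · rw [hν, mul_zero] at h2
      exact le_trans h2 zero_le
    · have hxS : x ∈ S := Finset.mem_filter.2 ⟨hx, hν⟩
      calc H.lam (E ∩ {z | z.1 ∈ As x}) ≤ ENNReal.ofReal K * H.ν (As x) := h2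
        _ ≤ ENNReal.ofReal K * (ENNReal.ofReal K' * H.lam (E' ∩ {z | z.1 ∈ As x})) :=
            mul_le_mul' le_rfl (hmassx x hxS)
        _ = _ := (mul_assoc _ _ _).symm
  have hsum : H.lam E ≤ (ENNReal.ofReal K * ENNReal.ofReal K') * H.lam E' := by
    refine k8wp_sum_mass H.lam S₀ (fun x => E ∩ {z | z.1 ∈ As x}) (fun x => E' ∩ {z | z.1 ∈ As x}) E E' _
      ?_ ?_ ?_ ?_ hlamA
    · intro z hz
      refine Set.mem_biUnion (hS₀ z hz) ⟨hz, ?_⟩
      exact ⟨hI.ch.lab.cover z hz, rfl, rfl⟩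
    · intro x _
      exact hmE'.inter (measurable_fst (hAsm x))
    · intro x _ y _ hxy
      refine Set.disjoint_left.2 fun z hz hz' => ?_
      exact Set.disjoint_left.1 (hdisjAll x y hxy) hz.2 hz'.2
    · intro x _
      exact Set.inter_subset_left
  have hres : H.Res E' (1 / KK) := by
    refine ⟨fun z hz => hESp (hE'E hz), hmE', ?_⟩
    have h1 : ENNReal.ofReal (1 / K) ≤ H.lam E' * ENNReal.ofReal (K * K') := by
      rw [ENNReal.ofReal_mul hK0.le, mul_comm]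
      exact le_trans hmass hsum
    have h2 : ENNReal.ofReal (1 / K) / ENNReal.ofReal (K * K') ≤ H.lam E' := ENNReal.div_le_of_le_mul h1
    rw [← ENNReal.ofReal_div_of_pos (by positivity)] at h2
    refine le_trans (ENNReal.ofReal_le_ofReal ?_) h2
    rw [div_div]
    exact one_div_le_one_div_of_le (by positivity) hKK3
  have hkS : ∀ z ∈ E', kf z ∈ S := by
    intro z hz
    obtain ⟨φ, hφ⟩ := Option.ne_none_iff_exists'.1 hz.2
    have h1 := ((hiff z.1 φ).1 hφ).1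
    have h2 : kf z = key φ := hAskey _ _ h1
    rw [h2]
    exact hkey φ
  have hpr : ∀ z ∈ E', H.ν (a.F.asg c.χ D z.1) ≤ ENNReal.ofReal K' * H.lam (E' ∩ a.F.inc c.χ D z.1) :=
    fun z hz => hmassx (kf z) (hkS z hz)
  have hok : a.Ok c KK sA D T E' := by
    refine k8wp_ch_restrict hI.wf hK0 hKKK hI.ch hE'E ?_ ?_
    · intro z hz
      refine le_trans (k8wp_nu_lo hI (hE'E hz)) ?_
      refine le_trans (mul_le_mul' le_rfl (hpr z hz)) ?_
      rw [← mul_assoc, ← ENNReal.ofReal_mul (by positivity)]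
      refine mul_le_mul' (ENNReal.ofReal_le_ofReal ?_) le_rfl
      calc K ^ 2 * K' = K * (K * K') := by ring
        _ ≤ KK := hKK3
    · intro z hz
      exact le_trans (hpr z hz) (mul_le_mul' (ENNReal.ofReal_le_ofReal hKK1) le_rfl)
  have has0 : 0 ≤ c.a s := Real.rpow_nonneg (by linarith [hI.wf.N1]) _
  let Φ : K8wProj H := ⟨m, Lab, fun φ => (key φ).1, fun φ => a.pr1 (z0 (key φ)).1, fun φ => L (key φ) (idx φ)⟩
  have hΦ : Φ.Ok c KK sA D s := by
    refine ⟨hLm, ?_, ?_, ?_, ?_, ?_, ?_, ?_⟩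
    · intro l φ hl
      have h1 := ((hiff l φ).1 hl).1
      obtain ⟨g1, g2, g3, g4, g5, g6, g7⟩ := hI.ch.good h1.1
      exact ⟨⟨g1.trans hKKK, g2.trans hKKK, g3.trans hKKK, g4.trans hKKK, g5.trans hKKK, g6.trans hKKK, g7⟩, h1.2.1⟩
    · intro φ
      exact (hloc _ (hkey φ)).quad (idx φ)
    · intro φ
      have h1 := (hloc _ (hkey φ)).cen (idx φ)
      exact ⟨h1.1.trans hKK1, h1.2.trans hKK1⟩
    · intro φ t ht r hr
      exact ((hloc _ (hkey φ)).norm (idx φ) t ht r hr).trans hKK1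
    · intro φ t ht p q hp hq
      have hx0 : key φ ∈ S₀ := (Finset.mem_filter.1 (hkey φ)).1
      obtain ⟨hzE, hzk⟩ := hz0 _ hx0
      have hl0 : (z0 (key φ)).1 ∈ a.F.dom := hI.ch.lab.cover _ hzE
      have hb := hI.ch.norm1 _ hl0 t ht
      have e1 : k7bBin D (H.p (z0 (key φ)).1) = (key φ).1.2.1 := congrArg (fun x => x.1.2.1) hzk
      have e2 : k7bBin D (H.q0 (z0 (key φ)).1) = (key φ).1.2.2 := congrArg (fun x => x.1.2.2) hzk
      have b1 := k8wp_gd_floor_bin (y := H.p (z0 (key φ)).1) hD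
      have b2 := k8wp_gd_floor_bin (y := H.q0 (z0 (key φ)).1) hD
      rw [e1] at b1
      rw [e2] at b2
      exact (k8wp_aff_ext (a.pr1 (z0 (key φ)).1) hD (by norm_num : (0:ℝ) ≤ 3) hb p q
        (k8wp_gd_tri hp b1) (k8wp_gd_tri hq b2)).trans hKK4
    · intro l φ hl t ht
      obtain ⟨h1, h2⟩ := (hiff l φ).1 hl
      have h3 := (hloc _ (hkey φ)).fit l h1 (idx φ) h2 t ht
      exact ⟨h3.1.trans hKK1, h3.2.trans (mul_le_mul_of_nonneg_right hKK1 has0)⟩
    · intro φ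
      refine le_trans ((hloc _ (hkey φ)).floor (idx φ)) ?_
      refine mul_le_mul' (ENNReal.ofReal_le_ofReal hKK1) (measure_mono ?_)
      intro z hz
      exact ⟨hESp hz.1, (hiff z.1 φ).2 hz.2⟩
  exact ⟨E', hE'E, hres, hok, Φ, hΦ, fun z hz => hz.2⟩

end Claimed.Agent.R252
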