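import Claimed.Agent.R252.S8w.ProjExt
import Claimed.Agent.R252.S8w.ProjAdm

/-!
# Row 252, S8w, stage S2, leaf L-252-S8wp-LOC  (CONTRACT: 1 sorry)      the conclusion of Thm 7.1 in one chart, rewritten over `H`   (08 l.1004-1010)      (architect helper167)
PAPER-FREE.   Uses `k8wp_mu_apply`, `k8wp_dat_y`, `k8wp_dat_x`, `k8wp_nu_lo` (`ProjAdm`), `k8wp_quad_ext` (`ProjExt`).      `w = c.a s / c.a sA`, `A₀ w = a_s`, `A₀^d w^d = a_s^d` (`Real.mul_rpow` / `Real.div_rpow`).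
PLAN.   Take `n, lab, L` of `Out K' β 1 d w`, `1 ≤ K' β`, `β ≤ K'`, `K ≤ K'`.   New slack `3 K'^4` (any `C K'^C`).
* `meas`, `quad`, `cen` : copy.
* `mass` : `1 ≤ K' mu {lab ≠ none} = K' (ν As)⁻¹ lam ({lab ≠ none} ∩ (E ∩ {z.1 ∈ As}))`; multiply by `ν As` (`≠ 0`, `≠ ∞`).
* `norm` : if `β ≥ 1` take `u = r / β`; if `β < 1` : for fixed `t`, `y ↦ F t y` is `e0' + e1' y + e2' y²` (`K7aQuad`), `k8wp_quad_ext` gives `3 K' / β² ≤ 3 K'^3`.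
* `fit` : `|R - cen| ≤ K' β ≤ K'^2`;   `X - h.ev - A₀ F(t, R) = A₀ (x° - F(t, R))`, `≤ A₀ K' w = K' a_s`.
* `floor` : `w^d β ≤ K' (ν As)⁻¹ lam (..)`, so `ν As · w^d ≤ K'^2 lam (..)`;   `W_g a_s^d = W_g A₀^d w^d ≤ K² ν As · w^d` (`k8wp_nu_lo`).
-/

set_option autoImplicit false

namespace Claimed.Agent.R252

open MeasureTheory
open scoped ENNReal BigOperators

theorem k8wp_l_cancel {x y m : ℝ≥0∞} (h0 : x ≠ 0) (ht : x ≠ ⊤) : x * (y * (x⁻¹ * m)) = y * m := by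
  calc x * (y * (x⁻¹ * m)) = (x * x⁻¹) * (y * m) := by ring
    _ = y * m := by rw [ENNReal.mul_inv_cancel h0 ht, one_mul]

theorem k8wp_l_slack {K' : ℝ} (h1 : 1 ≤ K') :
    K' ≤ ((4 : ℕ) : ℝ) * K' ^ 4 ∧ K' ^ 2 ≤ ((4 : ℕ) : ℝ) * K' ^ 4 ∧ 3 * K' ^ 3 ≤ ((4 : ℕ) : ℝ) * K' ^ 4 ∧
      K' ^ 4 ≤ ((4 : ℕ) : ℝ) * K' ^ 4 := by
  have h0 : (0 : ℝ) ≤ K' := by linarith
  have p2 : K' ≤ K' ^ 2 := by nlinarith
  have p3 : K' ^ 2 ≤ K' ^ 3 := by nlinarith [pow_nonneg h0 2]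
  have p4 : K' ^ 3 ≤ K' ^ 4 := by nlinarith [pow_nonneg h0 3]
  have p40 : 0 ≤ K' ^ 4 := pow_nonneg h0 4
  push_cast
  refine ⟨?_, ?_, ?_, ?_⟩ <;> linarith

theorem k8wp_l_norm {F : ℝ → ℝ → ℝ} (hq : K7aQuad F) {K' β y₀ t : ℝ} (h1 : 1 ≤ K') (hKβ : 1 ≤ K' * β)
    (hb : ∀ u ∈ Set.Icc (-1 : ℝ) 1, |F t (y₀ + β * u)| ≤ K') :
    ∀ r ∈ Set.Icc (-1 : ℝ) 1, |F t (y₀ + r)| ≤ 3 * K' ^ 3 := by
  have hK0 : (0 : ℝ) < K' := by linarith
  have hβ : 0 < β := by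
    by_contra hc
    rw [not_lt] at hc
    nlinarith
  intro r hr
  have p3 : K' ≤ 3 * K' ^ 3 := by
    have p2 : K' ≤ K' ^ 2 := by nlinarith
    have p3 : K' ^ 2 ≤ K' ^ 3 := by nlinarith [pow_nonneg hK0.le 2]
    nlinarith [pow_nonneg hK0.le 3]
  by_cases hβ1 : 1 ≤ β
  · have hu : r / β ∈ Set.Icc (-1 : ℝ) 1 := by
      constructor
      · rw [le_div_iff₀ hβ]
        linarith [hr.1]
      · rw [div_le_iff₀ hβ]
        linarith [hr.2]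
    have h2 := hb _ hu
    have e : β * (r / β) = r := by
      field_simp
    rw [e] at h2
    exact h2.trans p3
  · rw [not_le] at hβ1
    obtain ⟨e0, e1, e2, e3, e4, e5, he⟩ := hq
    have hF : ∀ y, F t y = (e0 + e1 * t + e3 * t ^ 2) + (e2 + e4 * t) * y + e5 * y ^ 2 := by
      intro y
      rw [he]
      ring
    have h3 := k8wp_quad_ext (e0 := e0 + e1 * t + e3 * t ^ 2) (e1 := e2 + e4 * t) (e2 := e5) (B := K') (y₀ := y₀) hβ hβ1.le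
      (by
        intro u hu
        rw [← hF]
        exact hb u hu) r hr
    rw [← hF] at h3
    refine h3.trans ?_
    have hβ2 : 0 < β ^ 2 := by positivity
    rw [div_le_iff₀ hβ2]
    have h4 : 1 ≤ (K' * β) ^ 2 := one_le_pow₀ hKβ
    calc 3 * K' = 3 * K' * 1 := by ring
      _ ≤ 3 * K' * (K' * β) ^ 2 := by gcongr
      _ = 3 * K' ^ 3 * β ^ 2 := by ring

theorem k8wp_loc : ∃ C : ℕ, ∀ (H : K7bHor) (a : K8wCh H) (c : K7bPar) (K sA D s σ D' u1 : ℝ) (T : Finset ℝ) (E : Set (H.Lam × ℝ)),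
    K8wpIn H a c K sA D s σ D' u1 T E → ∀ z₀ ∈ E, H.ν (a.F.asg c.χ D z₀.1) ≠ 0 → ∀ K' β : ℝ, K ≤ K' → 1 ≤ K' * β → β ≤ K' →
    (a.dat c sA D E z₀.1).Out K' β 1 c.d (c.a s / c.a sA) →
    ∃ (n : ℕ) (lab : H.Lam → Option (Fin n)) (L : Fin n → K7aLab),
      K8wpLoc H c ((C : ℝ) * K' ^ C) sA D s E (H.grp c.χ D z₀.1) (a.pr1 z₀.1) (a.F.asg c.χ D z₀.1) n lab L := by
  refine ⟨4, ?_⟩
  intro H a c K sA D s σ D' u1 T E hI z₀ hz₀ hν K' β hKK hKβ hβK hOut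
  obtain ⟨n, lab, L, hmeas, hmass, hL⟩ := hOut
  have hK1 : 1 ≤ K' := hI.K1.trans hKK
  have hK0 : (0 : ℝ) < K' := by linarith
  have hK00 : (0 : ℝ) ≤ K := by linarith [hI.K1]
  obtain ⟨s1, s2, s3, s4⟩ := k8wp_l_slack hK1
  have hνt : H.ν (a.F.asg c.χ D z₀.1) ≠ ⊤ :=
    ne_top_of_le_ne_top ENNReal.one_ne_top ((measure_mono (Set.subset_univ _)).trans hI.ok.νle)
  have hN0 : (0 : ℝ) < c.N := by linarith [hI.wf.N1]
  have hA0 : 0 < c.a sA := Real.rpow_pos_of_pos hN0 _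
  have has : 0 < c.a s := Real.rpow_pos_of_pos hN0 _
  have hβ : 0 < β := by
    by_contra hc
    rw [not_lt] at hc
    nlinarith
  refine ⟨n, lab, L, ?_⟩
  refine ⟨hmeas, ?_, fun i => (hL i).1, fun i => ⟨(hL i).2.1.trans s1, (hL i).2.2.1.trans s1⟩, ?_, ?_, ?_⟩
  · -- mass
    rw [k8wp_mu_apply hI] at hmass
    have e : {z : H.Lam × ℝ | lab z.1 ≠ none} ∩ (E ∩ {z | z.1 ∈ a.F.asg c.χ D z₀.1})
        = E ∩ {z | z.1 ∈ a.F.asg c.χ D z₀.1 ∧ lab z.1 ≠ none} := by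
      ext z
      simp only [Set.mem_inter_iff, Set.mem_ofPred_eq]
      tauto
    rw [e] at hmass
    calc H.ν (a.F.asg c.χ D z₀.1) = H.ν (a.F.asg c.χ D z₀.1) * 1 := (mul_one _).symm
      _ ≤ H.ν (a.F.asg c.χ D z₀.1) * (ENNReal.ofReal K' * ((H.ν (a.F.asg c.χ D z₀.1))⁻¹ *
            H.lam (E ∩ {z | z.1 ∈ a.F.asg c.χ D z₀.1 ∧ lab z.1 ≠ none}))) := by gcongr
      _ = ENNReal.ofReal K' * H.lam (E ∩ {z | z.1 ∈ a.F.asg c.χ D z₀.1 ∧ lab z.1 ≠ none}) := k8wp_l_cancel hν hνt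
      _ ≤ _ := by gcongr
  · -- norm
    intro i t ht r hr
    exact (k8wp_l_norm (hL i).1 hK1 hKβ ((hL i).2.2.2.1 t ht) r hr).trans s3
  · -- fit
    intro l hl i hi t ht
    obtain ⟨f1, f2⟩ := (hL i).2.2.2.2.1 l hi t ht
    rw [(k8wp_dat_y a c sA D E z₀.1 hl t).1] at f1 f2
    rw [k8wp_dat_x a c sA D E z₀.1 hl t] at f2
    constructor
    · refine f1.trans (le_trans ?_ s2)
      calc K' * β ≤ K' * K' := by gcongr
        _ = K' ^ 2 := by ring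
    · have e : H.Xt l t - (a.pr1 z₀.1).ev t (H.p l) (H.q0 l)
            - c.a sA * (L i).F t (k8wR D (H.grp c.χ D z₀.1) (H.p l) (H.q0 l) t)
          = c.a sA * (k8wpX H (c.a sA) (a.pr1 z₀.1) l t - (L i).F t (k8wR D (H.grp c.χ D z₀.1) (H.p l) (H.q0 l) t)) := by
        rw [k8wpX.eq_1]
        field_simp
      rw [e, abs_mul, abs_of_pos hA0]
      calc c.a sA * |k8wpX H (c.a sA) (a.pr1 z₀.1) l t - (L i).F t (k8wR D (H.grp c.χ D z₀.1) (H.p l) (H.q0 l) t)|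
          ≤ c.a sA * (K' * (c.a s / c.a sA)) := by gcongr
        _ = K' * c.a s := by field_simp
        _ ≤ _ := by gcongr
  · -- floor
    intro i
    have f := (hL i).2.2.2.2.2
    rw [k8wp_mu_apply hI] at f
    have e : {z : H.Lam × ℝ | lab z.1 = some i} ∩ (E ∩ {z | z.1 ∈ a.F.asg c.χ D z₀.1})
        = E ∩ {z | z.1 ∈ a.F.asg c.χ D z₀.1 ∧ lab z.1 = some i} := by
      ext z
      simp only [Set.mem_inter_iff, Set.mem_ofPred_eq]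
      tauto
    rw [e] at f
    have hlo := k8wp_nu_lo hI hz₀
    have hw0 : 0 < c.a s / c.a sA := div_pos has hA0
    have hwd : 0 < (c.a s / c.a sA) ^ c.d := Real.rpow_pos_of_pos hw0 _
    have hAd : 0 < c.a sA ^ c.d := Real.rpow_pos_of_pos hA0 _
    have ead : c.a s ^ c.d = c.a sA ^ c.d * (c.a s / c.a sA) ^ c.d := by
      rw [← Real.mul_rpow hA0.le hw0.le]
      congr 1
      field_simp
    have g1 : ENNReal.ofReal ((c.a s / c.a sA) ^ c.d)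
        ≤ ENNReal.ofReal K' * ENNReal.ofReal (1 * (c.a s / c.a sA) ^ c.d * β) := by
      rw [← ENNReal.ofReal_mul hK0.le]
      apply ENNReal.ofReal_le_ofReal
      calc (c.a s / c.a sA) ^ c.d = (c.a s / c.a sA) ^ c.d * 1 := (mul_one _).symm
        _ ≤ (c.a s / c.a sA) ^ c.d * (K' * β) := by gcongr
        _ = K' * (1 * (c.a s / c.a sA) ^ c.d * β) := by ring
    obtain ⟨m, hm⟩ : ∃ m, m = H.lam (E ∩ {z | z.1 ∈ a.F.asg c.χ D z₀.1 ∧ lab z.1 = some i}) := ⟨_, rfl⟩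
    rw [← hm] at f ⊢
    calc H.gW c.χ D (H.grp c.χ D z₀.1) * ENNReal.ofReal (c.a s ^ c.d)
        = (H.gW c.χ D (H.grp c.χ D z₀.1) * ENNReal.ofReal (c.a sA ^ c.d)) * ENNReal.ofReal ((c.a s / c.a sA) ^ c.d) := by
          rw [ead, ENNReal.ofReal_mul hAd.le, mul_assoc]
      _ ≤ (ENNReal.ofReal (K ^ 2) * H.ν (a.F.asg c.χ D z₀.1)) *
            (ENNReal.ofReal K' * (ENNReal.ofReal K' * ((H.ν (a.F.asg c.χ D z₀.1))⁻¹ * m))) := by
          gcongr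
          exact g1.trans (by gcongr)
      _ = ENNReal.ofReal (K ^ 2) * (ENNReal.ofReal K' *
            (H.ν (a.F.asg c.χ D z₀.1) * (ENNReal.ofReal K' * ((H.ν (a.F.asg c.χ D z₀.1))⁻¹ * m)))) := by ring
      _ = ENNReal.ofReal (K ^ 2) * (ENNReal.ofReal K' * (ENNReal.ofReal K' * m)) := by rw [k8wp_l_cancel hν hνt]
      _ = ENNReal.ofReal (K ^ 2 * (K' * K')) * m := by
          rw [ENNReal.ofReal_mul (by positivity), ENNReal.ofReal_mul hK0.le]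
          ring
      _ ≤ _ := by
          refine mul_le_mul_left (ENNReal.ofReal_le_ofReal ?_) _
          refine le_trans ?_ s4
          calc K ^ 2 * (K' * K') ≤ K' ^ 2 * (K' * K') := by gcongr
            _ = K' ^ 4 := by ring

end Claimed.Agent.R252
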