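import Claimed.Agent.R252.S8w.ProjPair
import Claimed.Agent.R252.S8w.ProjBins

/-!
# Row 252, S8w, stage S2, leaves L-252-S8wp-SA, -SB  (CONTRACT: 2 sorries)      the support hypothesis `Supp` of Thm 7.1 in one chart   (08 l.963-1003)      (architect helper167)
PAPER-FREE.   Uses `k8wp_pair_count` (`ProjPair`), `k8wp_entry_two` (`ProjBins`), `k8wp_mu_apply`, `k8wp_dat_y`, `k8wp_dat_x`, `k8wp_bin01`, `k8wp_x_le` (`ProjAdm`).      `w = c.a s / c.a sA`.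
## SA `k8wp_cell_bins` : in ONE cell `(i, j)` of a chart the bins `⌊x° / w⌋` lie in a finite set of `≤ C K^C w^(-d)` integers.
 The set `P` of pairs `(lab s z, entOf s z)`, `z` in the cell, is finite (`H.Q` is a `Fintype`, `entOf s z ∈ H.ent (lab s z)`: `ok.entmem`; so `P ⊆ Finset.univ.sigma/biUnion`), `#P ≤ C₁ K^C₁ w^(-d)` (`k8wp_pair_count`; `(A₀/a_s)^d = w^(-d)`).
 For `x ∈ P` choose `z_x`; every `z` of the cell with the pair `x` has `|x°(z) - x°(z_x)| ≤ C₂ K^C₂ w`, so `⌊x°(z)/w⌋ ∈ Finset.Icc (⌊x°(z_x)/w⌋ - n) (⌊x°(z_x)/w⌋ + n)`, `n = ⌈C₂ K^C₂⌉₊ + 1`.   Union over `P`.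
## SB `k8wp_supp` : cells: `t ∈ [0,1]` gives `i ∈ [0, ⌊1/σ⌋]`; `R = P̃₂ - 2t P̃₁ ∈ (-2, 1)` gives `j ∈ [⌊-2/σ⌋, ⌊1/σ⌋]`: `≤ (1/σ + 1)(3/σ + 2) ≤ 10 / σ²` cells (`σ ≤ 1`).
 `S = ` union over the cells of `{(i, j)} × B_{ij}`;  a.e. membership: `mu` is carried by `E ∩ {z.1 ∈ As}` (`k8wp_mu_apply` on the complement, or `ae_restrict`), where `Dt.y = k8wR`, `Dt.x = x°`.
 `#S σ² w^d ≤ 10 C K^C`.
-/

set_option autoImplicit false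

namespace Claimed.Agent.R252

open MeasureTheory
open scoped ENNReal BigOperators

/-- abstract form of SA: bins of `f` on a set, given a label map with boundedly many values and small oscillation of `f` on each fibre -/
theorem k8wp_sa_abs {Z P : Type} (cell : Set Z) (pr : Z → P) (f : Z → ℝ) (M R : ℝ) (hR : 0 ≤ R)
    (hcount : ∀ S : Finset P, (∀ x ∈ S, ∃ z ∈ cell, pr z = x) → (S.card : ℝ) ≤ M)
    (hosc : ∀ z ∈ cell, ∀ z₁ ∈ cell, pr z = pr z₁ → |f z - f z₁| ≤ R) :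
    ∃ B : Finset ℤ, (B.card : ℝ) ≤ M * (2 * R + 5) ∧ ∀ z ∈ cell, ⌊f z⌋ ∈ B := by
  classical
  have hfin : (pr '' cell).Finite := by
    by_contra hinf
    obtain ⟨t, ht, hcard⟩ := Set.Infinite.exists_subset_card_eq hinf (⌈M⌉₊ + 1)
    have h1 := hcount t (fun x hx => by
      obtain ⟨z, hz, hzx⟩ := ht hx
      exact ⟨z, hz, hzx⟩)
    rw [hcard] at h1
    push_cast at h1
    have := Nat.le_ceil M
    linarith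
  have hPf : ((hfin.toFinset).card : ℝ) ≤ M := hcount _ (fun x hx => by
    obtain ⟨z, hz, hzx⟩ := (Set.Finite.mem_toFinset hfin).mp hx
    exact ⟨z, hz, hzx⟩)
  obtain ⟨m, hm⟩ : ∃ m : P → ℤ, ∀ x, (∃ z ∈ cell, pr z = x) → ∃ z ∈ cell, pr z = x ∧ m x = ⌊f z⌋ := by
    refine ⟨fun x => if h : ∃ z ∈ cell, pr z = x then ⌊f h.choose⌋ else 0, fun x hx => ?_⟩
    refine ⟨hx.choose, hx.choose_spec.1, hx.choose_spec.2, ?_⟩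
    simp only [dif_pos hx]
  have hM0 : 0 ≤ M := le_trans (Nat.cast_nonneg _) hPf
  have hn0 : (0 : ℤ) ≤ ⌈R⌉ := Int.ceil_nonneg hR
  refine ⟨hfin.toFinset.biUnion fun x => Finset.Icc (m x - (⌈R⌉ + 1)) (m x + (⌈R⌉ + 1)), ?_, ?_⟩
  · have h1 : (hfin.toFinset.biUnion fun x => Finset.Icc (m x - (⌈R⌉ + 1)) (m x + (⌈R⌉ + 1))).card
        ≤ ∑ x ∈ hfin.toFinset, (Finset.Icc (m x - (⌈R⌉ + 1)) (m x + (⌈R⌉ + 1))).card := Finset.card_biUnion_le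
    have h2 : ∀ x ∈ hfin.toFinset, (Finset.Icc (m x - (⌈R⌉ + 1)) (m x + (⌈R⌉ + 1))).card = (2 * ⌈R⌉ + 3).toNat := by
      intro x _
      rw [Int.card_Icc]; congr 1; ring
    rw [Finset.sum_congr rfl h2, Finset.sum_const, smul_eq_mul] at h1
    have h3 : (((2 * ⌈R⌉ + 3).toNat : ℕ) : ℝ) = 2 * (⌈R⌉ : ℝ) + 3 := by
      have : (((2 * ⌈R⌉ + 3).toNat : ℕ) : ℤ) = 2 * ⌈R⌉ + 3 := Int.toNat_of_nonneg (by omega)
      exact_mod_cast this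
    have h4 : (⌈R⌉ : ℝ) < R + 1 := Int.ceil_lt_add_one R
    calc ((hfin.toFinset.biUnion fun x => Finset.Icc (m x - (⌈R⌉ + 1)) (m x + (⌈R⌉ + 1))).card : ℝ)
        ≤ ((hfin.toFinset.card * (2 * ⌈R⌉ + 3).toNat : ℕ) : ℝ) := by exact_mod_cast h1
      _ = (hfin.toFinset.card : ℝ) * (2 * (⌈R⌉ : ℝ) + 3) := by rw [Nat.cast_mul, h3]
      _ ≤ M * (2 * R + 5) := by
          refine mul_le_mul hPf (by linarith) ?_ hM0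
          have : (0 : ℝ) ≤ (⌈R⌉ : ℝ) := by exact_mod_cast hn0
          linarith
  · intro z hz
    obtain ⟨z₁, hz₁, hpr, hmz⟩ := hm (pr z) ⟨z, hz, rfl⟩
    refine Finset.mem_biUnion.mpr ⟨pr z, (Set.Finite.mem_toFinset hfin).mpr ⟨z, hz, rfl⟩, ?_⟩
    rw [hmz, Finset.mem_Icc]
    obtain ⟨o1, o2⟩ := abs_le.mp (hosc z hz z₁ hz₁ hpr.symm)
    have a1 := Int.floor_le (f z)
    have a2 := Int.lt_floor_add_one (f z)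
    have b1 := Int.floor_le (f z₁)
    have b2 := Int.lt_floor_add_one (f z₁)
    have c1 := Int.le_ceil R
    constructor
    · have : ((⌊f z₁⌋ - (⌈R⌉ + 1) : ℤ) : ℝ) < (⌊f z⌋ : ℝ) + 1 := by push_cast; linarith
      have : (⌊f z₁⌋ - (⌈R⌉ + 1) : ℤ) < ⌊f z⌋ + 1 := by exact_mod_cast this
      omega
    · have : ((⌊f z⌋ : ℤ) : ℝ) < ((⌊f z₁⌋ + (⌈R⌉ + 1) : ℤ) : ℝ) := by push_cast; linarith
      have : (⌊f z⌋ : ℤ) < ⌊f z₁⌋ + (⌈R⌉ + 1) := by exact_mod_cast this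
      omega

theorem k8wp_cell_bins : ∃ C : ℕ, ∀ (H : K7bHor) (a : K8wCh H) (c : K7bPar) (K sA D s σ D' u1 : ℝ) (T : Finset ℝ) (E : Set (H.Lam × ℝ)),
    K8wpIn H a c K sA D s σ D' u1 T E → ∀ l₀ ∈ a.F.dom, ∀ (i j : ℤ), ∃ B : Finset ℤ,
    (B.card : ℝ) * (c.a s / c.a sA) ^ c.d ≤ (C : ℝ) * K ^ C ∧
      ∀ z ∈ a.cl c D σ E l₀ i j, ⌊k8wpX H (c.a sA) (a.pr1 l₀) z.1 z.2 / (c.a s / c.a sA)⌋ ∈ B := by
  obtain ⟨C₁, h₁⟩ := k8wp_pair_count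
  obtain ⟨C₂, h₂⟩ := k8wp_entry_two
  refine ⟨C₁ * (2 * C₂ + 5) + C₁ + C₂, ?_⟩
  intro H a c K sA D s σ D' u1 T E hI l₀ hl₀ i j
  have hK := hI.K1
  have hK0 : 0 < K := by linarith
  have hN0 : 0 < c.N := lt_of_lt_of_le one_pos hI.wf.N1
  have has : 0 < c.a s := Real.rpow_pos_of_pos hN0 _
  have hA0 : 0 < c.a sA := Real.rpow_pos_of_pos hN0 _
  have hw : 0 < c.a s / c.a sA := div_pos has hA0
  obtain ⟨B, hB1, hB2⟩ := k8wp_sa_abs (a.cl c D σ E l₀ i j) (fun z => (H.lab s z, H.entOf s z))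
    (fun z => k8wpX H (c.a sA) (a.pr1 l₀) z.1 z.2 / (c.a s / c.a sA))
    ((C₁ : ℝ) * K ^ C₁ * (c.a sA / c.a s) ^ c.d) ((C₂ : ℝ) * K ^ C₂) (by positivity)
    (fun S hS => h₁ H a c K sA D s σ D' u1 T E hI l₀ i j S hS)
    (fun z hz z₁ hz₁ hpr => by
      have he : H.entOf s z = H.entOf s z₁ := congrArg Prod.snd hpr
      have h := h₂ H a c K sA D s σ D' u1 T E hI l₀ hl₀ i j z hz z₁ hz₁ he
      show |k8wpX H (c.a sA) (a.pr1 l₀) z.1 z.2 / (c.a s / c.a sA) - k8wpX H (c.a sA) (a.pr1 l₀) z₁.1 z₁.2 / (c.a s / c.a sA)| ≤ _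
      rw [← sub_div, abs_div, abs_of_pos hw, div_le_iff₀ hw]
      exact h)
  refine ⟨B, ?_, hB2⟩
  have hwd : 0 < (c.a s / c.a sA) ^ c.d := Real.rpow_pos_of_pos hw _
  have hone : (c.a sA / c.a s) ^ c.d * (c.a s / c.a sA) ^ c.d = 1 := by
    rw [← Real.mul_rpow (by positivity) hw.le]
    have : c.a sA / c.a s * (c.a s / c.a sA) = 1 := by field_simp
    rw [this, Real.one_rpow]
  have hK2 : (1 : ℝ) ≤ K ^ C₂ := one_le_pow₀ hK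
  have hK1' : (0 : ℝ) < K ^ C₁ := by positivity
  calc (B.card : ℝ) * (c.a s / c.a sA) ^ c.d
      ≤ ((C₁ : ℝ) * K ^ C₁ * (c.a sA / c.a s) ^ c.d * (2 * ((C₂ : ℝ) * K ^ C₂) + 5)) * (c.a s / c.a sA) ^ c.d :=
        mul_le_mul_of_nonneg_right hB1 hwd.le
    _ = (C₁ : ℝ) * K ^ C₁ * (2 * ((C₂ : ℝ) * K ^ C₂) + 5) * ((c.a sA / c.a s) ^ c.d * (c.a s / c.a sA) ^ c.d) := by ring
    _ = (C₁ : ℝ) * K ^ C₁ * (2 * ((C₂ : ℝ) * K ^ C₂) + 5) := by rw [hone, mul_one]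
    _ ≤ (C₁ : ℝ) * K ^ C₁ * ((2 * (C₂ : ℝ) + 5) * K ^ C₂) := by
        refine mul_le_mul_of_nonneg_left ?_ (by positivity)
        linarith
    _ = ((C₁ : ℝ) * (2 * (C₂ : ℝ) + 5)) * K ^ (C₁ + C₂) := by rw [pow_add]; ring
    _ ≤ ((C₁ * (2 * C₂ + 5) + C₁ + C₂ : ℕ) : ℝ) * K ^ (C₁ * (2 * C₂ + 5) + C₁ + C₂) := by
        refine mul_le_mul ?_ (pow_le_pow_right₀ hK (by omega)) (by positivity) (by positivity)
        push_cast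
        have h1 : (0 : ℝ) ≤ C₁ := Nat.cast_nonneg _
        have h2 : (0 : ℝ) ≤ C₂ := Nat.cast_nonneg _
        linarith

theorem k8wp_sb_count {σ : ℝ} (h0 : 0 < σ) (h1 : σ ≤ 1) :
    (((Finset.Icc (0 : ℤ) ⌊1 / σ⌋ ×ˢ Finset.Icc ⌊-2 / σ⌋ ⌊1 / σ⌋).card : ℕ) : ℝ) * σ ^ 2 ≤ 10 := by
  have f1 : (0 : ℤ) ≤ ⌊1 / σ⌋ := Int.floor_nonneg.2 (by positivity)
  have f2 : ⌊-2 / σ⌋ ≤ ⌊1 / σ⌋ := Int.floor_le_floor (div_le_div_of_nonneg_right (by norm_num) h0.le)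
  have g1 := Int.floor_le (1 / σ)
  have g2 := Int.lt_floor_add_one (-2 / σ)
  obtain ⟨P, hP⟩ : ∃ P : ℤ, P = ⌊1 / σ⌋ := ⟨_, rfl⟩
  obtain ⟨Q, hQ⟩ : ∃ Q : ℤ, Q = ⌊-2 / σ⌋ := ⟨_, rfl⟩
  rw [← hP] at f1 f2 g1 ⊢
  rw [← hQ] at f2 g2 ⊢
  have c1 : ((Finset.Icc (0 : ℤ) P).card : ℝ) ≤ 1 / σ + 1 := by
    rw [Int.card_Icc]
    have h3 : ((P + 1 - 0).toNat : ℤ) = P + 1 - 0 := Int.toNat_of_nonneg (by omega)
    have h4 : ((P + 1 - 0).toNat : ℝ) = ((P + 1 - 0 : ℤ) : ℝ) := by exact_mod_cast h3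
    rw [h4]
    push_cast
    linarith
  have c2 : ((Finset.Icc Q P).card : ℝ) ≤ 3 / σ + 2 := by
    rw [Int.card_Icc]
    have h3 : ((P + 1 - Q).toNat : ℤ) = P + 1 - Q := Int.toNat_of_nonneg (by omega)
    have h4 : ((P + 1 - Q).toNat : ℝ) = ((P + 1 - Q : ℤ) : ℝ) := by exact_mod_cast h3
    rw [h4]
    push_cast
    have e : (3 : ℝ) / σ = 1 / σ - (-2 / σ) := by ring
    linarith
  rw [Finset.card_product]
  push_cast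
  calc ((Finset.Icc (0 : ℤ) P).card : ℝ) * ((Finset.Icc Q P).card : ℝ) * σ ^ 2
      ≤ (1 / σ + 1) * (3 / σ + 2) * σ ^ 2 := by
        refine mul_le_mul_of_nonneg_right (mul_le_mul c1 c2 (Nat.cast_nonneg _) (by positivity)) (by positivity)
    _ = (1 + σ) * (3 + 2 * σ) := by
        field_simp
    _ ≤ 10 := by nlinarith

theorem k8wp_supp : ∃ C : ℕ, ∀ (H : K7bHor) (a : K8wCh H) (c : K7bPar) (K sA D s σ D' u1 : ℝ) (T : Finset ℝ) (E : Set (H.Lam × ℝ)),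
    K8wpIn H a c K sA D s σ D' u1 T E → ∀ z₀ ∈ E, H.ν (a.F.asg c.χ D z₀.1) ≠ 0 →
    (a.dat c sA D E z₀.1).Supp ((C : ℝ) * K ^ C) σ 1 c.d (c.a s / c.a sA) := by
  classical
  obtain ⟨C₀, hC₀⟩ := k8wp_cell_bins
  refine ⟨10 * C₀, fun H a c K sA D s σ D' u1 T E hI z₀ hz₀ _ => ?_⟩
  have hK1 : 1 ≤ K := hI.K1
  have hl₀ : z₀.1 ∈ a.F.dom := hI.ch.lab.cover z₀ hz₀
  obtain ⟨m, hm⟩ := hI.M.σdy
  have hσ0 : 0 < σ := by rw [hm]; positivity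
  have hσ1 : σ ≤ 1 := by rw [hm]; exact pow_le_one₀ (by norm_num) (by norm_num)
  have hD : 0 < D := hI.M.D0
  choose B hBc hBm using fun i j => hC₀ H a c K sA D s σ D' u1 T E hI z₀.1 hl₀ i j
  obtain ⟨w, hw⟩ : ∃ w : ℝ, w = c.a s / c.a sA := ⟨_, rfl⟩
  rw [← hw] at hBc hBm ⊢
  have hw0 : 0 ≤ w ^ c.d := by
    rw [hw]
    have h1 : 0 < c.a s := Real.rpow_pos_of_pos (lt_of_lt_of_le one_pos hI.wf.N1) _
    have h2 : 0 < c.a sA := Real.rpow_pos_of_pos (lt_of_lt_of_le one_pos hI.wf.N1) _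
    positivity
  refine ⟨(Finset.Icc (0 : ℤ) ⌊1 / σ⌋ ×ˢ Finset.Icc ⌊-2 / σ⌋ ⌊1 / σ⌋).biUnion
    (fun ij => (B ij.1 ij.2).image (fun k => (ij.1, ij.2, k))), ?_, ?_⟩
  · rw [ae_iff, k8wp_mu_apply hI]
    have hemp : {z : H.Lam × ℝ | ¬ (⌊z.2 / σ⌋, ⌊(a.dat c sA D E z₀.1).y z.1 z.2 / σ⌋, ⌊(a.dat c sA D E z₀.1).x z.1 z.2 / w⌋) ∈
        (Finset.Icc (0 : ℤ) ⌊1 / σ⌋ ×ˢ Finset.Icc ⌊-2 / σ⌋ ⌊1 / σ⌋).biUnion (fun ij => (B ij.1 ij.2).image (fun k => (ij.1, ij.2, k)))}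
        ∩ (E ∩ {z | z.1 ∈ a.F.asg c.χ D z₀.1}) = ∅ := by
      apply Set.eq_empty_of_forall_notMem
      rintro z ⟨hz1, hzE, hzA⟩
      apply hz1
      have hzA' : z.1 ∈ a.F.asg c.χ D z₀.1 := hzA
      have ht := hI.ok.time z (hI.ch.prep.sub0 (hI.ch.prep.sub hzE))
      have ey := (k8wp_dat_y a c sA D E z₀.1 hzA' z.2).1
      have ex := k8wp_dat_x a c sA D E z₀.1 hzA' z.2
      obtain ⟨bp, bq⟩ := k8wp_bin01 H hD (hzA'.2.1)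
      rw [ey, ex]
      have hR1 : -2 ≤ k8wR D (H.grp c.χ D z₀.1) (H.p z.1) (H.q0 z.1) z.2 := by
        unfold k8wR
        nlinarith [bp.1, bp.2, bq.1, bq.2, ht.1, ht.2]
      have hR2 : k8wR D (H.grp c.χ D z₀.1) (H.p z.1) (H.q0 z.1) z.2 ≤ 1 := by
        unfold k8wR
        nlinarith [bp.1, bp.2, bq.1, bq.2, ht.1, ht.2, mul_nonneg ht.1 bp.1]
      rw [Finset.mem_biUnion]
      refine ⟨(⌊z.2 / σ⌋, ⌊k8wR D (H.grp c.χ D z₀.1) (H.p z.1) (H.q0 z.1) z.2 / σ⌋), ?_, ?_⟩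
      · rw [Finset.mem_product, Finset.mem_Icc, Finset.mem_Icc]
        refine ⟨⟨Int.floor_nonneg.2 (div_nonneg ht.1 hσ0.le), Int.floor_le_floor (div_le_div_of_nonneg_right ht.2 hσ0.le)⟩,
          Int.floor_le_floor (div_le_div_of_nonneg_right hR1 hσ0.le), Int.floor_le_floor (div_le_div_of_nonneg_right hR2 hσ0.le)⟩
      · rw [Finset.mem_image]
        exact ⟨_, hBm _ _ z ⟨hzE, hzA', rfl, rfl⟩, rfl⟩
    rw [hemp, measure_empty, mul_zero]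
  · have hcard : (((Finset.Icc (0 : ℤ) ⌊1 / σ⌋ ×ˢ Finset.Icc ⌊-2 / σ⌋ ⌊1 / σ⌋).biUnion
        (fun ij => (B ij.1 ij.2).image (fun k => (ij.1, ij.2, k)))).card : ℝ)
        ≤ ∑ ij ∈ Finset.Icc (0 : ℤ) ⌊1 / σ⌋ ×ˢ Finset.Icc ⌊-2 / σ⌋ ⌊1 / σ⌋, ((B ij.1 ij.2).card : ℝ) := by
      have h1 := Finset.card_biUnion_le (s := Finset.Icc (0 : ℤ) ⌊1 / σ⌋ ×ˢ Finset.Icc ⌊-2 / σ⌋ ⌊1 / σ⌋)
        (t := fun ij => (B ij.1 ij.2).image (fun k => (ij.1, ij.2, k)))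
      have h2 : ∑ ij ∈ Finset.Icc (0 : ℤ) ⌊1 / σ⌋ ×ˢ Finset.Icc ⌊-2 / σ⌋ ⌊1 / σ⌋, ((B ij.1 ij.2).image (fun k => (ij.1, ij.2, k))).card
          ≤ ∑ ij ∈ Finset.Icc (0 : ℤ) ⌊1 / σ⌋ ×ˢ Finset.Icc ⌊-2 / σ⌋ ⌊1 / σ⌋, (B ij.1 ij.2).card :=
        Finset.sum_le_sum fun ij _ => Finset.card_image_le
      exact_mod_cast h1.trans h2
    have hC0 : 0 ≤ (C₀ : ℝ) * K ^ C₀ := by positivity
    calc (((Finset.Icc (0 : ℤ) ⌊1 / σ⌋ ×ˢ Finset.Icc ⌊-2 / σ⌋ ⌊1 / σ⌋).biUnion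
        (fun ij => (B ij.1 ij.2).image (fun k => (ij.1, ij.2, k)))).card : ℝ) * σ ^ 2 * (1 * w ^ c.d)
        ≤ (∑ ij ∈ Finset.Icc (0 : ℤ) ⌊1 / σ⌋ ×ˢ Finset.Icc ⌊-2 / σ⌋ ⌊1 / σ⌋, ((B ij.1 ij.2).card : ℝ)) * σ ^ 2 * (1 * w ^ c.d) := by
          refine mul_le_mul_of_nonneg_right (mul_le_mul_of_nonneg_right hcard (by positivity)) (by positivity)
      _ = (∑ ij ∈ Finset.Icc (0 : ℤ) ⌊1 / σ⌋ ×ˢ Finset.Icc ⌊-2 / σ⌋ ⌊1 / σ⌋, ((B ij.1 ij.2).card : ℝ) * w ^ c.d) * σ ^ 2 := by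
          rw [← Finset.sum_mul]
          ring
      _ ≤ (∑ _ij ∈ Finset.Icc (0 : ℤ) ⌊1 / σ⌋ ×ˢ Finset.Icc ⌊-2 / σ⌋ ⌊1 / σ⌋, (C₀ : ℝ) * K ^ C₀) * σ ^ 2 := by
          refine mul_le_mul_of_nonneg_right (Finset.sum_le_sum fun ij _ => hBc ij.1 ij.2) (by positivity)
      _ = ((((Finset.Icc (0 : ℤ) ⌊1 / σ⌋ ×ˢ Finset.Icc ⌊-2 / σ⌋ ⌊1 / σ⌋).card : ℕ) : ℝ) * σ ^ 2) * ((C₀ : ℝ) * K ^ C₀) := by
          rw [Finset.sum_const, nsmul_eq_mul]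
          ring
      _ ≤ 10 * ((C₀ : ℝ) * K ^ C₀) := mul_le_mul_of_nonneg_right (k8wp_sb_count hσ0 hσ1) hC0
      _ ≤ ((10 * C₀ : ℕ) : ℝ) * K ^ (10 * C₀) := by
          push_cast
          have h3 : K ^ C₀ ≤ K ^ (10 * C₀) := pow_le_pow_right₀ hK1 (by omega)
          nlinarith [(Nat.cast_nonneg C₀ : (0 : ℝ) ≤ C₀)]

end Claimed.Agent.R252
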