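import Claimed.Agent.R252.S8w.ProjCap
import Claimed.Agent.R252.S8w.ProjSupp
import Claimed.Agent.R252.S8w.ProjLoc
import Claimed.Agent.R252.S8w.ProjGlue
import Claimed.Agent.R252.S8w.Main

/-!
# Row 252, S8w, stage S2: THE HUB `K8wHProj` FROM THE LEAVES  (no own gap)      (helper167)      (08 l.946-1015)
`k8wp_proj : k7a_T71a → K8wHProj`.   `k8wp_proj_aux` IS PROVED from the leaves.
Exponents of Thm 7.1 (angular form): `s_T = s - sA`, `M_T = 20 s0`, `d`, `A = 1`, `S₁ = 1`, `u₁ = s0`, prefactor `1`;  `σ = (1/2)^m ∈ [N^(-20 s0)/2, N^(-20 s0)]`;  `D' = N^(-30 s0)`;  `M0 = 30 s0 + 1`;  `G0 = ∅`.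
`τ` given: `C_g (N^τ₂)^C_g ≤ N^τ` (glue), `C_l (N^τ₃)^C_l ≤ N^τ₂` (loc), Thm 7.1 with `τ' = τ₃` gives `τ_T, N₁`;  `C K^C ≤ N^τ_T` for the constants of `k8wp_adm`, `k8wp_cap`, `k8wp_ang`, `k8wp_supp`, if `K ≤ N^τ'`.
The margins `K8wpM` are inequalities between fixed powers of `N` (`k8wp_m_margins`).
-/

set_option autoImplicit false

namespace Claimed.Agent.R252

open MeasureTheory
open scoped ENNReal BigOperators

/-- absorption of a polynomial loss -/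
theorem k8wp_m_absorb (C : ℕ) {τ : ℝ} (hτ : 0 < τ) : ∃ τ' N1 : ℝ, 0 < τ' ∧ ∀ N K : ℝ, 1 ≤ N → N1 ≤ N → 0 ≤ K → K ≤ N ^ τ' →
    (C : ℝ) * K ^ C ≤ N ^ τ := by
  refine ⟨τ / (2 * ((C : ℝ) + 1)), ((C : ℝ) + 1) ^ (1 / (τ / 2)), by positivity, ?_⟩
  intro N K hN hN1 hK0 hK
  have hN0 : 0 < N := by linarith
  have h1 : (C : ℝ) + 1 ≤ N ^ (τ / 2) := k8_const_le (by have : (0 : ℝ) ≤ C := Nat.cast_nonneg _; linarith) (by positivity) hN1
  have h2 : K ^ C ≤ N ^ (τ / 2) := by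
    calc K ^ C ≤ (N ^ (τ / (2 * ((C : ℝ) + 1)))) ^ C := pow_le_pow_left₀ hK0 hK C
      _ = N ^ (τ / (2 * ((C : ℝ) + 1)) * C) := by rw [← Real.rpow_natCast, ← Real.rpow_mul hN0.le]
      _ ≤ N ^ (τ / 2) := by
          refine Real.rpow_le_rpow_of_exponent_le hN ?_
          have hC : (0 : ℝ) ≤ C := Nat.cast_nonneg _
          rw [div_mul_eq_mul_div, div_le_div_iff₀ (by positivity) (by norm_num)]
          nlinarith
  calc (C : ℝ) * K ^ C ≤ N ^ (τ / 2) * N ^ (τ / 2) :=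
        mul_le_mul (by linarith) h2 (pow_nonneg hK0 _) (Real.rpow_nonneg hN0.le _)
    _ = N ^ τ := by rw [← Real.rpow_add hN0]; congr 1; ring

/-- a dyadic number in `[y/2, y]` -/
theorem k8wp_m_dy {y : ℝ} (hy : 0 < y) (hy1 : y < 1) : ∃ m : ℕ, y / 2 ≤ (1 / 2 : ℝ) ^ m ∧ (1 / 2 : ℝ) ^ m ≤ y := by
  obtain ⟨n, h1, h2⟩ := exists_nat_pow_near_of_lt_one hy hy1.le (by norm_num : (0 : ℝ) < 1 / 2) (by norm_num)
  refine ⟨n + 1, ?_, h1.le⟩
  rw [pow_succ]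
  linarith

theorem k8wp_m_adm_mono {Λ : Type} [MeasurableSpace Λ] {D : K7aData Λ} {K K' : ℝ} (hK : K ≤ K') (h : D.Adm K) : D.Adm K' where
  prob := h.prob
  meas := h.meas
  bd := fun l => by
    obtain ⟨h1, h2, h3, h4, h5⟩ := h.bd l
    exact ⟨h1.trans hK, h2.trans hK, h3.trans hK, h4.trans hK, h5.trans hK⟩
  dom := h.dom.trans (Measure.le_iff.2 fun s _ => by
    simp only [Measure.smul_apply, smul_eq_mul]
    gcongr)
  mass := h.mass.trans (by gcongr)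

theorem k8wp_m_cap_mono {Λ : Type} [MeasurableSpace Λ] {D : K7aData Λ} {K K' σ d a : ℝ} (ha : 0 ≤ a) (hK : K ≤ K')
    (h : D.Cap K σ 1 d a) : D.Cap K' σ 1 d a := by
  intro i j p xs h1 h2
  refine (h i j p xs h1 h2).trans (ENNReal.ofReal_le_ofReal ?_)
  have : 0 ≤ p ^ d := Real.rpow_nonneg (ha.trans h1) _
  gcongr

theorem k8wp_m_supp_mono {Λ : Type} [MeasurableSpace Λ] {D : K7aData Λ} {K K' σ d a : ℝ} (hK : K ≤ K')
    (h : D.Supp K σ 1 d a) : D.Supp K' σ 1 d a := by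
  obtain ⟨S, h1, h2⟩ := h
  exact ⟨S, h1, h2.trans hK⟩

theorem k8wp_m_ang_mono {Λ : Type} [MeasurableSpace Λ] {D : K7aData Λ} {K K' σ d a N S1 u1 : ℝ} (ha : 0 ≤ a) (hN : 0 ≤ N) (hK : K ≤ K')
    (h : D.Ang K σ 1 d a N S1 u1) : D.Ang K' σ 1 d a N S1 u1 := by
  intro i j xs vs u h1 h2
  refine (h i j xs vs u h1 h2).trans (ENNReal.ofReal_le_ofReal ?_)
  have : 0 ≤ a ^ d := Real.rpow_nonneg ha _
  have : 0 ≤ N ^ (-(S1 * u)) := Real.rpow_nonneg hN _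
  gcongr

/-- the depths of `e.T` -/
theorem k8wp_m_depth {x : K8Exp} (hx : x.Ok) {e : K8wE} (he : e.Ok x) {s : ℝ} (hs : s ∈ e.T) :
    e.s0 < s ∧ s < 3 / 2 * e.s0 ∧ 0 ≤ e.sA ∧ e.sA ≤ e.s0 := by
  have h0 := he.s0
  have hA : 0 ≤ e.sA ∧ e.sA ≤ e.s0 := by
    rcases he.sA with ⟨-, h⟩ | ⟨-, h⟩ <;> rw [h]
    · exact ⟨h0.le, le_rfl⟩
    · exact ⟨le_rfl, h0.le⟩
  have hc2 : e.c2 < e.u := by
    have h1 := he.c2u
    have h2 := he.u0
    have h3 := hx.d0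
    nlinarith
  have ht := he.top
  have hδ := he.δ0
  have hu := he.u0
  have hc := he.c20
  simp only [K8wE.T, Finset.mem_insert, Finset.mem_singleton] at hs
  rcases hs with rfl | rfl | rfl
  · exact ⟨hδ, by linarith, hA⟩
  · exact ⟨by linarith, by linarith, hA⟩
  · exact ⟨by linarith, by linarith, hA⟩

/-- **the margins of S2** -/
theorem k8wp_m_margins {x : K8Exp} (hx : x.Ok) {e : K8wE} (he : e.Ok x) {s : ℝ} (hs : s ∈ e.T) {M : ℝ × ℝ × ℝ}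
    (hM1 : 30 * e.s0 + 1 ≤ M.1) (hM2 : 30 * e.s0 + 1 ≤ M.2.1) (hM3 : 30 * e.s0 + 1 ≤ M.2.2) {G0 : Finset ℝ} {N1 : ℝ} {c : K7bPar}
    (hA : K8Adm x M G0 N1 c) (hN2 : 2 ≤ c.N) (hN8 : 8 ≤ c.N ^ e.s0) {K : ℝ} (hK : K ≤ c.N ^ (x.k * e.s0)) {σ : ℝ} {m : ℕ}
    (hσ : σ = (1 / 2 : ℝ) ^ m) (hσ1 : c.N ^ (-(20 * e.s0)) / 2 ≤ σ) (hσ2 : σ ≤ c.N ^ (-(20 * e.s0))) :
    K8wpM c K e.sA (e.D c) s σ (c.N ^ (-(30 * e.s0))) e.s0 := by
  obtain ⟨hs1, hs2, hA0, hA1⟩ := k8wp_m_depth hx he hs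
  have h0 := he.s0
  have hN0 : 0 < c.N := by linarith
  have hN1 : 1 ≤ c.N := by linarith
  have hk0 := hx.k0
  have hk1 := hx.k1
  -- monotonicity of powers
  have mono : ∀ u v : ℝ, v ≤ u → c.N ^ (-u) ≤ c.N ^ (-v) := fun u v h =>
    Real.rpow_le_rpow_of_exponent_le hN1 (by linarith)
  have pos : ∀ u : ℝ, 0 < c.N ^ u := fun u => Real.rpow_pos_of_pos hN0 u
  have m8 : ∀ u v : ℝ, v + e.s0 ≤ u → 8 * c.N ^ (-u) ≤ c.N ^ (-v) := by
    intro u v h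
    have h1 : c.N ^ (-u) ≤ c.N ^ (-v) * c.N ^ (-e.s0) := by
      rw [← Real.rpow_add hN0]
      exact Real.rpow_le_rpow_of_exponent_le hN1 (by linarith)
    have h2 : c.N ^ (-e.s0) * c.N ^ e.s0 = 1 := by rw [← Real.rpow_add hN0]; simp
    have h3 : 8 * c.N ^ (-e.s0) ≤ 1 := by
      calc 8 * c.N ^ (-e.s0) ≤ c.N ^ e.s0 * c.N ^ (-e.s0) := mul_le_mul_of_nonneg_right hN8 (pos _).le
        _ = 1 := by rw [mul_comm]; exact h2
    calc 8 * c.N ^ (-u) ≤ 8 * (c.N ^ (-v) * c.N ^ (-e.s0)) := by linarith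
      _ = c.N ^ (-v) * (8 * c.N ^ (-e.s0)) := by ring
      _ ≤ c.N ^ (-v) * 1 := mul_le_mul_of_nonneg_left h3 (pos _).le
      _ = _ := mul_one _
  have hD : e.D c = c.N ^ (-(2 * x.k * e.s0)) := by
    unfold K8wE.D K7bPar.a
    rw [← Real.rpow_mul hN0.le, hA.hk]
    congr 1
    ring
  have ha : ∀ u : ℝ, c.a u = c.N ^ (-u) := fun _ => rfl
  have hh : c.h s = c.N ^ (-(x.k * s)) := by unfold K7bPar.h; rw [hA.hk]
  have hh2 : c.h s ^ 2 = c.N ^ (-(2 * x.k * s)) := by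
    rw [hh, ← Real.rpow_natCast, ← Real.rpow_mul hN0.le]
    congr 1
    push_cast
    ring
  -- the finest meshes
  have fine : ∀ (y Mi : ℝ), 30 * e.s0 + 1 ≤ Mi → y < 2 * c.N ^ (-Mi) → y ≤ c.N ^ (-(30 * e.s0)) := by
    intro y Mi h1 h2
    have h3 : c.N ^ (-Mi) ≤ c.N ^ (-(30 * e.s0)) * c.N ^ (-1 : ℝ) := by
      rw [← Real.rpow_add hN0]
      exact Real.rpow_le_rpow_of_exponent_le hN1 (by linarith)
    have h4 : 2 * c.N ^ (-1 : ℝ) ≤ 1 := by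
      rw [Real.rpow_neg_one, ← div_eq_mul_inv, div_le_one hN0]
      exact hN2
    calc y ≤ 2 * c.N ^ (-Mi) := h2.le
      _ ≤ 2 * (c.N ^ (-(30 * e.s0)) * c.N ^ (-1 : ℝ)) := by linarith
      _ = c.N ^ (-(30 * e.s0)) * (2 * c.N ^ (-1 : ℝ)) := by ring
      _ ≤ c.N ^ (-(30 * e.s0)) * 1 := mul_le_mul_of_nonneg_left h4 (pos _).le
      _ = _ := mul_one _
  have hξ := fine c.ξ M.1 hM1 hA.hξ.2
  have hχ := fine c.χ M.2.1 hM2 hA.hχ.2
  have hϱ := fine c.ϱ M.2.2 hM3 hA.hϱ.2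
  have he0 : c.N ^ (-c.e0) ≤ c.N ^ (-(30 * e.s0)) := mono _ _ (by rw [hA.he]; have := he.e0; linarith)
  have hks : x.k * s ≤ 3 / 2 * e.s0 := by nlinarith
  have hks0 : x.k * e.s0 ≤ e.s0 := by nlinarith
  have hks1 : x.k * e.s0 ≤ x.k * s := by nlinarith
  have hks2 : x.k * s ≤ 2 * x.k * e.s0 := by nlinarith
  have hks3 : 0 < x.k * e.s0 := by positivity
  have hσ0 : 0 < σ := by rw [hσ]; positivity
  refine
  { D0 := by rw [hD]; exact pos _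
    D1 := by
      rw [hD]
      exact Real.rpow_le_one_of_one_le_of_nonpos hN1 (by linarith)
    sA0 := hA0
    sAs := by linarith
    u10 := h0
    σdy := ⟨m, hσ⟩
    t1 := hξ
    t2 := hχ
    t3 := he0
    t4 := ?_
    t5 := ?_
    t6 := ?_
    ξa := ?_
    ϱa := ?_
    ξσ := ?_
    Dh := ?_
    σh := ?_
    χh := ?_
    eh := ?_
    Kh := ?_
    var := ?_ }
  · -- D' ≤ σ D
    rw [hD]
    have h1 : c.N ^ (-(20 * e.s0)) / 2 * c.N ^ (-(2 * x.k * e.s0)) ≤ σ * c.N ^ (-(2 * x.k * e.s0)) :=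
      mul_le_mul_of_nonneg_right hσ1 (pos _).le
    have h2 : c.N ^ (-(20 * e.s0)) * c.N ^ (-(2 * x.k * e.s0)) = c.N ^ (-(20 * e.s0 + 2 * x.k * e.s0)) := by
      rw [← Real.rpow_add hN0]; congr 1; ring
    have h3 := m8 (30 * e.s0) (20 * e.s0 + 2 * x.k * e.s0) (by linarith)
    have := pos (-(30 * e.s0))
    rw [div_mul_eq_mul_div, h2] at h1
    linarith
  · rw [hD, ← Real.rpow_add hN0]
    have h3 := m8 (30 * e.s0) (e.s0 + 2 * x.k * e.s0) (by linarith)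
    have e1 : -e.s0 + -(2 * x.k * e.s0) = -(e.s0 + 2 * x.k * e.s0) := by ring
    rw [e1]
    have := pos (-(30 * e.s0))
    linarith
  · rw [hD, ha, ← Real.rpow_add hN0]
    have h3 := m8 (30 * e.s0) (s + 2 * x.k * e.s0) (by linarith)
    have e1 : -s + -(2 * x.k * e.s0) = -(s + 2 * x.k * e.s0) := by ring
    rw [e1]
    have := pos (-(30 * e.s0))
    linarith
  · rw [ha]
    have h3 := m8 (30 * e.s0) s (by linarith)
    have := pos (-(30 * e.s0))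
    linarith
  · rw [ha]
    have h3 := m8 (30 * e.s0) s (by linarith)
    have := pos (-(30 * e.s0))
    linarith
  · have h3 := m8 (30 * e.s0) (20 * e.s0) (by linarith)
    have := pos (-(30 * e.s0))
    linarith
  · rw [hD, hh]
    exact mono (2 * x.k * e.s0) (x.k * s) hks2
  · rw [hh2]
    exact hσ2.trans (mono (20 * e.s0) (2 * x.k * s) (by linarith))
  · rw [hh2]
    exact hχ.trans (mono (30 * e.s0) (2 * x.k * s) (by linarith))
  · rw [hh2]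
    exact he0.trans (mono (30 * e.s0) (2 * x.k * s) (by linarith))
  · rw [hh]
    calc K * c.N ^ (-(x.k * s)) ≤ c.N ^ (x.k * e.s0) * c.N ^ (-(x.k * s)) := mul_le_mul_of_nonneg_right hK (pos _).le
      _ = c.N ^ (x.k * e.s0 + -(x.k * s)) := by rw [← Real.rpow_add hN0]
      _ ≤ 1 := Real.rpow_le_one_of_one_le_of_nonpos hN1 (by linarith)
  · rw [hh2, ha]
    have e1 : c.N ^ (-s) / c.N ^ (-(2 * x.k * s)) = c.N ^ (-s + 2 * x.k * s) := by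
      rw [← Real.rpow_sub hN0]; congr 1; ring
    rw [e1]
    have b1 : c.N ^ (-s + 2 * x.k * s) ≤ c.N ^ (3 / 2 * e.s0) := Real.rpow_le_rpow_of_exponent_le hN1 (by nlinarith)
    have b2 : (1 : ℝ) ≤ c.N ^ (3 / 2 * e.s0) := Real.one_le_rpow hN1 (by linarith)
    have b3 : c.χ + c.N ^ (-c.e0) + σ ≤ 3 * c.N ^ (-(20 * e.s0)) := by
      have := mono (30 * e.s0) (20 * e.s0) (by linarith)
      linarith
    have b4 : 0 ≤ c.χ + c.N ^ (-c.e0) + σ := by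
      have := hA.wf.χ0
      have := pos (-c.e0)
      linarith
    calc (1 + c.N ^ (-s + 2 * x.k * s)) * (c.χ + c.N ^ (-c.e0) + σ)
        ≤ (2 * c.N ^ (3 / 2 * e.s0)) * (3 * c.N ^ (-(20 * e.s0))) :=
          mul_le_mul (by linarith) b3 b4 (by have := pos (3 / 2 * e.s0); linarith)
      _ = 6 * c.N ^ (-(37 / 2 * e.s0)) := by
          have : c.N ^ (3 / 2 * e.s0) * c.N ^ (-(20 * e.s0)) = c.N ^ (-(37 / 2 * e.s0)) := by
            rw [← Real.rpow_add hN0]; congr 1; ring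
          linear_combination 6 * this
      _ ≤ 8 * c.N ^ (-(37 / 2 * e.s0)) := by have := pos (-(37 / 2 * e.s0)); linarith
      _ ≤ c.N ^ (-s) := m8 _ _ (by linarith)

theorem K8wpLoc.mono {H : K7bHor} {c : K7bPar} {K K' sA D s : ℝ} {E : Set (H.Lam × ℝ)} {g : ℤ × ℤ × ℤ} {h : K8Pr} {As : Set H.Lam}
    {n : ℕ} {lab : H.Lam → Option (Fin n)} {L : Fin n → K7aLab} (hc : c.WF) (hK : K ≤ K')
    (hl : K8wpLoc H c K sA D s E g h As n lab L) : K8wpLoc H c K' sA D s E g h As n lab L := by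
  have hN : 0 < c.N := lt_of_lt_of_le one_pos hc.N1
  have ha : 0 < c.a s := Real.rpow_pos_of_pos hN _
  exact
  { meas := hl.meas
    mass := hl.mass.trans (mul_le_mul' (ENNReal.ofReal_le_ofReal hK) le_rfl)
    quad := hl.quad
    cen := fun i => ⟨(hl.cen i).1.trans hK, (hl.cen i).2.trans hK⟩
    norm := fun i t ht r hr => (hl.norm i t ht r hr).trans hK
    fit := fun l hlA i hi t ht => ⟨(hl.fit l hlA i hi t ht).1.trans hK,
      (hl.fit l hlA i hi t ht).2.trans (mul_le_mul_of_nonneg_right hK ha.le)⟩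
    floor := fun i => (hl.floor i).trans (mul_le_mul' (ENNReal.ofReal_le_ofReal hK) le_rfl) }

/-- a chart system with a larger slack -/
theorem k8wp_m_ch_mono {H : K7bHor} {a : K8wCh H} {c : K7bPar} {K K' sA D : ℝ} {T : Finset ℝ} {E : Set (H.Lam × ℝ)} (hc : c.WF)
    (hK0 : 0 < K) (hK : K ≤ K') (h : a.Ok c K sA D T E) : a.Ok c K' sA D T E :=
  k8wp_ch_restrict hc hK0 hK h subset_rfl
    (fun z hz => (h.lab.floor z hz).trans (mul_le_mul' (ENNReal.ofReal_le_ofReal hK) le_rfl))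
    (fun z hz => (h.lab.prior z hz).trans (mul_le_mul' (ENNReal.ofReal_le_ofReal hK) le_rfl))

theorem k8wp_proj_aux (hT : k7a_T71a)
    (hG : ∃ C : ℕ, 1 ≤ C ∧ ∀ (H : K7bHor) (a : K8wCh H) (c : K7bPar) (K sA D s σ D' u1 : ℝ) (T : Finset ℝ) (E : Set (H.Lam × ℝ)),
    K8wpIn H a c K sA D s σ D' u1 T E → ENNReal.ofReal (1 / K) ≤ H.lam E → ∀ K' : ℝ, K ≤ K' →
    (∀ z₀ ∈ E, H.ν (a.F.asg c.χ D z₀.1) ≠ 0 → ∃ (n : ℕ) (lab : H.Lam → Option (Fin n)) (L : Fin n → K7aLab),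
      K8wpLoc H c K' sA D s E (H.grp c.χ D z₀.1) (a.pr1 z₀.1) (a.F.asg c.χ D z₀.1) n lab L) →
    ∃ E' ⊆ E, H.Res E' (1 / ((C : ℝ) * K' ^ C)) ∧ a.Ok c ((C : ℝ) * K' ^ C) sA D T E' ∧
      ∃ Φ : K8wProj H, Φ.Ok c ((C : ℝ) * K' ^ C) sA D s ∧ ∀ z ∈ E', Φ.lab z.1 ≠ none) : K8wHProj := by
  intro x hx e he s hs
  obtain ⟨Cc, hcap⟩ := k8wp_cap
  obtain ⟨Ca, hang⟩ := k8wp_ang
  obtain ⟨Cs, hsupp⟩ := k8wp_supp
  obtain ⟨Cl, hloc⟩ := k8wp_loc
  obtain ⟨Cg, hCg, hglue⟩ := hG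
  obtain ⟨hs1, hs2, hA0, hA1⟩ := k8wp_m_depth hx he hs
  have h0 := he.s0
  refine ⟨30 * e.s0 + 1, ?_⟩
  intro M hM1 hM2 hM3 τ hτ
  obtain ⟨τ2, N2, hτ2, hab2⟩ := k8wp_m_absorb Cg hτ
  obtain ⟨τ3, N3, hτ3, hab3⟩ := k8wp_m_absorb Cl hτ2
  obtain ⟨τT, hτT, NT, hTT⟩ := hT (s - e.sA) (20 * e.s0) x.d 1 1 e.s0 τ3 (by linarith) (by linarith) hx.d1 one_pos h0 hτ3
  obtain ⟨τc, Nc, hτc, habc⟩ := k8wp_m_absorb Cc hτT
  obtain ⟨τa, Na, hτa, haba⟩ := k8wp_m_absorb Ca hτT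
  obtain ⟨τs, Ns, hτs, habs⟩ := k8wp_m_absorb Cs hτT
  obtain ⟨τd, Nd, hτd, habd⟩ := k8wp_m_absorb 2 hτT
  have hks : 0 < x.k * e.s0 := mul_pos hx.k0 h0
  refine ⟨∅, min (min (min τc τa) (min τs τd)) (min (min τ3 τ2) (x.k * e.s0)),
    max (max (max N2 N3) (max NT Nc)) (max (max Na Ns) (max Nd (max 2 (8 ^ (1 / e.s0))))),
    lt_min (lt_min (lt_min hτc hτa) (lt_min hτs hτd)) (lt_min (lt_min hτ3 hτ2) hks), by simp, ?_⟩
  intro H a c K E hA hI hK hy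
  have hc := hA.wf
  have hN := hA.hN
  have hN_2 : N2 ≤ c.N := le_trans (le_trans (le_trans (le_max_left _ _) (le_max_left _ _)) (le_max_left _ _)) hN
  have hN_3 : N3 ≤ c.N := le_trans (le_trans (le_trans (le_max_right _ _) (le_max_left _ _)) (le_max_left _ _)) hN
  have hN_T : NT ≤ c.N := le_trans (le_trans (le_trans (le_max_left _ _) (le_max_right _ _)) (le_max_left _ _)) hN
  have hN_c : Nc ≤ c.N := le_trans (le_trans (le_trans (le_max_right _ _) (le_max_right _ _)) (le_max_left _ _)) hN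
  have hN_a : Na ≤ c.N := le_trans (le_trans (le_trans (le_max_left _ _) (le_max_left _ _)) (le_max_right _ _)) hN
  have hN_s : Ns ≤ c.N := le_trans (le_trans (le_trans (le_max_right _ _) (le_max_left _ _)) (le_max_right _ _)) hN
  have hN_d : Nd ≤ c.N := le_trans (le_trans (le_trans (le_max_left _ _) (le_max_right _ _)) (le_max_right _ _)) hN
  have hN_r : max 2 (8 ^ (1 / e.s0)) ≤ c.N := le_trans (le_trans (le_trans (le_max_right _ _) (le_max_right _ _)) (le_max_right _ _)) hN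
  have hN2 : 2 ≤ c.N := (le_max_left _ _).trans hN_r
  have hN8 : 8 ≤ c.N ^ e.s0 := k8_const_le (by norm_num) h0 ((le_max_right _ _).trans hN_r)
  have hN1 : 1 ≤ c.N := hc.N1
  have hN0 : 0 < c.N := by linarith
  have hK1 := hI.K1
  have hK0 : 0 ≤ K := by linarith
  have up : ∀ t : ℝ, min (min (min τc τa) (min τs τd)) (min (min τ3 τ2) (x.k * e.s0)) ≤ t → K ≤ c.N ^ t := fun t ht =>
    hK.trans (Real.rpow_le_rpow_of_exponent_le hN1 ht)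
  have hKc := up τc (le_trans (le_trans (min_le_left _ _) (min_le_left _ _)) (min_le_left _ _))
  have hKa := up τa (le_trans (le_trans (min_le_left _ _) (min_le_left _ _)) (min_le_right _ _))
  have hKs := up τs (le_trans (le_trans (min_le_left _ _) (min_le_right _ _)) (min_le_left _ _))
  have hKd := up τd (le_trans (le_trans (min_le_left _ _) (min_le_right _ _)) (min_le_right _ _))
  have hK3 := up τ3 (le_trans (le_trans (min_le_right _ _) (min_le_left _ _)) (min_le_left _ _))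
  have hK2 := up τ2 (le_trans (le_trans (min_le_right _ _) (min_le_left _ _)) (min_le_right _ _))
  have hKk := up (x.k * e.s0) (le_trans (min_le_right _ _) (min_le_right _ _))
  -- the mesh
  have hy0 : 0 < c.N ^ (-(20 * e.s0)) := Real.rpow_pos_of_pos hN0 _
  have hy1 : c.N ^ (-(20 * e.s0)) < 1 := Real.rpow_lt_one_of_one_lt_of_neg (by linarith) (by linarith)
  obtain ⟨m, hm1, hm2⟩ := k8wp_m_dy hy0 hy1
  have hMg := k8wp_m_margins hx he hs hM1 hM2 hM3 hA hN2 hN8 hKk rfl hm1 hm2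
  have hIn : K8wpIn H a c K e.sA (e.D c) s ((1 / 2 : ℝ) ^ m) (c.N ^ (-(30 * e.s0))) e.s0 e.T E :=
    ⟨hc, hK1, hI.ok, hy, hs, hI.res.meas, hMg⟩
  have hw : c.a s / c.a e.sA = c.N ^ (-(s - e.sA)) := by
    unfold K7bPar.a
    rw [← Real.rpow_sub hN0]
    congr 1
    ring
  have hw0 : 0 ≤ c.N ^ (-(s - e.sA)) := Real.rpow_nonneg hN0.le _
  have h2T : 2 ≤ c.N ^ τT := by
    have := habd c.N 1 hN1 hN_d zero_le_one (Real.one_le_rpow hN1 hτd.le)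
    simpa using this
  have hlocal : ∀ z₀ ∈ E, H.ν (a.F.asg c.χ (e.D c) z₀.1) ≠ 0 → ∃ (n : ℕ) (lab : H.Lam → Option (Fin n)) (L : Fin n → K7aLab),
      K8wpLoc H c (c.N ^ τ2) e.sA (e.D c) s E (H.grp c.χ (e.D c) z₀.1) (a.pr1 z₀.1) (a.F.asg c.χ (e.D c) z₀.1) n lab L := by
    intro z₀ hz hν
    have adm : (a.dat c e.sA (e.D c) E z₀.1).Adm (c.N ^ τT) := by
      refine k8wp_m_adm_mono ?_ (k8wp_adm hIn hz hν)
      have := habd c.N K hN1 hN_d hK0 hKd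
      push_cast at this
      nlinarith
    have cap : (a.dat c e.sA (e.D c) E z₀.1).Cap (c.N ^ τT) ((1 / 2 : ℝ) ^ m) 1 x.d (c.N ^ (-(s - e.sA))) := by
      have := hcap H a c K e.sA (e.D c) s _ _ e.s0 e.T E hIn z₀ hz hν
      rw [hw, hA.hd] at this
      exact k8wp_m_cap_mono hw0 (habc c.N K hN1 hN_c hK0 hKc) this
    have supp : (a.dat c e.sA (e.D c) E z₀.1).Supp (c.N ^ τT) ((1 / 2 : ℝ) ^ m) 1 x.d (c.N ^ (-(s - e.sA))) := by
      have := hsupp H a c K e.sA (e.D c) s _ _ e.s0 e.T E hIn z₀ hz hν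
      rw [hw, hA.hd] at this
      exact k8wp_m_supp_mono (habs c.N K hN1 hN_s hK0 hKs) this
    have ang : (a.dat c e.sA (e.D c) E z₀.1).Ang (c.N ^ τT) ((1 / 2 : ℝ) ^ m) 1 x.d (c.N ^ (-(s - e.sA))) c.N 1 e.s0 := by
      have := hang H a c K e.sA (e.D c) s _ _ e.s0 e.T E hIn z₀ hz hν
      rw [hw, hA.hd] at this
      exact k8wp_m_ang_mono hw0 hN0.le (haba c.N K hN1 hN_a hK0 hKa) this
    have c1 : c.N ^ (-(20 * e.s0) - τT) ≤ (1 / 2 : ℝ) ^ m := by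
      refine le_trans ?_ hm1
      have e1 : c.N ^ (-(20 * e.s0) - τT) = c.N ^ (-(20 * e.s0)) / c.N ^ τT := Real.rpow_sub hN0 _ _
      rw [e1]
      exact div_le_div_of_nonneg_left hy0.le (by norm_num) h2T
    have c2 : (1 / 2 : ℝ) ^ m ≤ c.N ^ (-(20 * e.s0) + τT) := hm2.trans (Real.rpow_le_rpow_of_exponent_le hN1 (by linarith))
    have c3 : c.N ^ (-1 : ℝ) ≤ 1 := Real.rpow_le_one_of_one_le_of_nonpos hN1 (by norm_num)
    have c4 : (1 : ℝ) ≤ c.N ^ (1 : ℝ) := Real.one_le_rpow hN1 (by norm_num)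
    obtain ⟨β, hβ1, hβ2, hout⟩ := hTT c.N hN_T H.Lam (a.dat c e.sA (e.D c) E z₀.1) ((1 / 2 : ℝ) ^ m) 1 m rfl c1 c2 c3 c4
      adm cap supp ang
    rw [← hw, ← hA.hd] at hout
    obtain ⟨n, lab, L, hL⟩ := hloc H a c K e.sA (e.D c) s _ _ e.s0 e.T E hIn z₀ hz hν (c.N ^ τ3) β hK3 hβ1 hβ2 hout
    exact ⟨n, lab, L, hL.mono hc (hab3 c.N (c.N ^ τ3) hN1 hN_3 (Real.rpow_nonneg hN0.le _) le_rfl)⟩
  obtain ⟨E', hE', hR, hOk, Φ, hΦ, hcov⟩ := hglue H a c K e.sA (e.D c) s _ _ e.s0 e.T E hIn hI.res.mass (c.N ^ τ2) hK2 hlocal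
  have hfin := hab2 c.N (c.N ^ τ2) hN1 hN_2 (Real.rpow_nonneg hN0.le _) le_rfl
  have hpos : 0 < (Cg : ℝ) * (c.N ^ τ2) ^ Cg := by
    have : (0 : ℝ) < Cg := by exact_mod_cast hCg
    have := Real.rpow_pos_of_pos hN0 τ2
    positivity
  exact ⟨E', hE', k8_res_mono hR (one_div_le_one_div_of_le hpos hfin), k8wp_m_ch_mono hc hpos hfin hOk, Φ, hΦ.mono hc hfin, hcov⟩

theorem k8wp_proj (hT : k7a_T71a) : K8wHProj := k8wp_proj_aux hT k8wp_glue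

end Claimed.Agent.R252
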