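import Claimed.Agent.R252.S8w.ProjDefs

/-!
# Row 252, S8w, stage S2, leaves L-252-S8wp-PA, -PB, -PC  (CONTRACT: 3 sorries)      the number of (true label, affine entry) pairs of depth `s` in one `(t, R)`-cell of a chart is `≤ K (A₀ / a_s)^d`   (08 l.963-975)      (architect helper167)
PAPER-FREE.   Model proof: `k7b_box_count` in `S7b/P5Box.lean` (same packing).   Tools: `k7b5d_symm`, `k7b_box_engulf`, `k7b5d_box_vol`, `k7b5d_box_meas`, `k7b_packing`, `k7b5b_centres`, `k7b5b_cover`.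
`hh = c.h s`, `A₀ = c.a sA`.   `a.cl c D σ E l₀ i j` = incidences of `E` in the chart of `l₀` and in the cell `(i, j)`.

## PA `k8wp_cell_box` : two incidences `z₁, z` of one cell: `base z ∈ k7bBox (base z₁) hh (K + 6)`.
 `t, t₁` in one `σ`-bin: `|t - t₁| ≤ σ ≤ hh² ≤ hh` (`M.σh`; `hh ≤ 1`).   `|Z - Z₁| ≤ |p - p₁| + t |v - v₁| + |t - t₁| |v₁| ≤ D + χ + K σ ≤ (K + 2) hh` (`M.Dh`, `M.χh`; same group: `k7b5b_bin_sub`).
 TRANSVERSE IDENTITY (`ring`), with `y1 = -p + ε`, `R = k8wR D g p q₀ t`, `p_c = g.2.1 D` :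
   `Y - Y₁ + Z₁ (t - t₁) - t₁ (Z - Z₁) = D (R - R₁) + (t - t₁)(p + p₁ - 2 p_c) - t₁ t (v - v₁) + (t ε - t₁ ε₁)`,   so `≤ D σ + 2 σ D + χ + 2 N^(-e₀) ≤ 6 hh²` (`M.σh`, `M.χh`, `M.eh`, `ok.heq`, `ok.time`).
## PB `k8wp_cell_shared` : all incidences of one cell have the same true label and the same affine entry of depth `sA`.
 `ch.shared` needs equal blocks of depth `sA`.   `ok.dyad sA` : blocks `[i' 2^(-lev), (i'+1) 2^(-lev))`;  `σ = 2^(-m)` (`M.σdy`);  `σ ≤ hh² ≤ hh / K ≤ c.h sA / K ≤ bl` (`M.σh`, `M.Kh`, `sA ≤ s`, `ok.bllen`), so `lev ≤ m` and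
 `⌊t / σ⌋ = ⌊t₁ / σ⌋` implies `⌊t 2^lev⌋ = ⌊t₁ 2^lev⌋`;  `t ∈ blk (lab sA z)` (`ok.labmem`) determines `bt`.
## PC `k8wp_pair_count` : packing.
 Fix `z₁` in the cell (if `S = ∅` trivial), `B* = k7bBox (base z₁) hh ρ₃`, `ρ₃` = polynomial in `K` from two engulfings (`base z ∈ qBox q K` by `ok.labmem`, `ok.box`; symmetry; PA), so `qBox c s (lab s z) K ⊆ B*` for every `z` of the cell.
 Witnesses `W x = a.E0 ∩ H.pairEv sA s z_x` (`x = (lab s z_x, entOf s z_x)`) : measurable (`prep.meas0`, `ok.mlab`, `ok.ment`), pairwise disjoint, mass `≥ mQ (lab s z_x) / K ≥ a_s^d hh⁴ / K³` (`prep.pairs` with `s' = sA`; `ok.bllen`, `ok.νQ`).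
 `W x ⊆ Sp ∩ {base ∈ B*, |X - k7bAff L₀ (base)| ≤ K A₀}`, `L₀` = the shared entry of depth `sA` (PB; `ok.entfit sA` at the own time of `z' ∈ W x ⊆ E0 ⊆ Sp`).
 `ok.capP` with `r = A₀` (`ϱ ≤ A₀ ≤ 1`: `M.ϱa`, `a_s ≤ A₀`), centres `k7bAff L₀ + m A₀`, `|m| ≤ K + 1` integer: mass `≤ (2K + 3) K A₀^d · 8 ρ₃³ hh⁴`.   `k7b_packing`.
-/

set_option autoImplicit false

namespace Claimed.Agent.R252

open MeasureTheory
open scoped ENNReal BigOperators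

variable {H : K7bHor} {a : K8wCh H} {c : K7bPar} {K sA D s σ D' u1 : ℝ} {T : Finset ℝ} {E : Set (H.Lam × ℝ)}

theorem k8wp_pa_sub (hI : K8wpIn H a c K sA D s σ D' u1 T E) : E ⊆ H.Sp := fun _ hz => hI.ch.prep.sub0 (hI.ch.prep.sub hz)

theorem k8wp_pa_sG (hI : K8wpIn H a c K sA D s σ D' u1 T E) : s ∈ c.G := (hI.ch.TG s hI.sT).1

theorem k8wp_pa_h (hI : K8wpIn H a c K sA D s σ D' u1 T E) : 0 < c.h s ∧ c.h s ≤ 1 := by
  have hN := hI.wf.N1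
  have hs := hI.wf.G0 s (k8wp_pa_sG hI)
  have hk := hI.wf.k0
  unfold K7bPar.h
  refine ⟨Real.rpow_pos_of_pos (by linarith) _, Real.rpow_le_one_of_one_le_of_nonpos hN ?_⟩
  have : 0 ≤ c.k * s := by positivity
  linarith

theorem k8wp_pa_sig (hI : K8wpIn H a c K sA D s σ D' u1 T E) : 0 < σ := by
  obtain ⟨m, hm⟩ := hI.M.σdy
  rw [hm]
  positivity

theorem k8wp_pa_bin {m x y : ℝ} (hm : 0 < m) (h : k7bBin m x = k7bBin m y) : |x - y| ≤ m := by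
  have h1 := k7b5b_bin_sub m x hm
  have h2 := k7b5b_bin_sub m y hm
  rw [h] at h1
  rw [abs_le]
  constructor <;> linarith [h1.1, h1.2, h2.1, h2.2]

theorem k8wp_cell_box (hI : K8wpIn H a c K sA D s σ D' u1 T E) {l₀ : H.Lam} {i j : ℤ} {z₁ z : H.Lam × ℝ}
    (h1 : z₁ ∈ a.cl c D σ E l₀ i j) (h2 : z ∈ a.cl c D σ E l₀ i j) :
    H.base z ∈ k7bBox z₁.2 (H.Zt z₁.1 z₁.2) (H.Yt z₁.1 z₁.2) (c.h s) (K + 6) := by
  obtain ⟨hE1, ⟨-, hg1, -⟩, ht1, hR1⟩ := h1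
  obtain ⟨hE2, ⟨-, hg2, -⟩, ht2, hR2⟩ := h2
  have hK := hI.K1
  obtain ⟨hh0, hh1⟩ := k8wp_pa_h hI
  have hσ := k8wp_pa_sig hI
  have hD0 := hI.M.D0
  have hD1 := hI.M.D1
  have hχ0 := hI.wf.χ0
  have hS1 := k8wp_pa_sub hI hE1
  have hS2 := k8wp_pa_sub hI hE2
  have hT1 := hI.ok.time _ hS1
  have hT2 := hI.ok.time _ hS2
  have hv1 := (hI.ok.bdd _ hS1).2.1
  have he1 := hI.ok.heq _ hS1
  have he2 := hI.ok.heq _ hS2
  have hgg : H.grp c.χ D z.1 = H.grp c.χ D z₁.1 := hg2.trans hg1.symm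
  have hbv : |H.v z.1 - H.v z₁.1| ≤ c.χ := k8wp_pa_bin hχ0 (congrArg Prod.fst hgg)
  have hbp : |H.p z.1 - H.p z₁.1| ≤ D := k8wp_pa_bin hD0 (congrArg (fun x => x.2.1) hgg)
  have hbt : |z.2 - z₁.2| ≤ σ := k8wp_pa_bin hσ (ht2.trans ht1.symm)
  have hbR : |k8wR D (H.grp c.χ D l₀) (H.p z.1) (H.q0 z.1) z.2 - k8wR D (H.grp c.χ D l₀) (H.p z₁.1) (H.q0 z₁.1) z₁.2| ≤ σ :=
    k8wp_pa_bin hσ (hR2.trans hR1.symm)
  have hp1 := k7b5b_bin_sub D (H.p z₁.1) hD0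
  have hp2 := k7b5b_bin_sub D (H.p z.1) hD0
  have eg1 : ((H.grp c.χ D l₀).2.1 : ℝ) = (k7bBin D (H.p z₁.1) : ℝ) := by rw [← hg1]; rfl
  have eg2 : ((H.grp c.χ D l₀).2.1 : ℝ) = (k7bBin D (H.p z.1) : ℝ) := by rw [← hg2]; rfl
  rw [← eg1] at hp1
  rw [← eg2] at hp2
  have hσh := hI.M.σh
  have hχh := hI.M.χh
  have heh := hI.M.eh
  have hDh := hI.M.Dh
  have hhh : c.h s ^ 2 ≤ c.h s := by nlinarith
  have hh2 : 0 < c.h s ^ 2 := by positivity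
  refine ⟨?_, ?_, ?_⟩
  · show |z.2 - z₁.2| ≤ (K + 6) * c.h s
    nlinarith
  · show |H.Zt z.1 z.2 - H.Zt z₁.1 z₁.2| ≤ (K + 6) * c.h s
    unfold K7bHor.Zt
    have e : H.p z.1 + z.2 * H.v z.1 - (H.p z₁.1 + z₁.2 * H.v z₁.1)
        = (H.p z.1 - H.p z₁.1) + z.2 * (H.v z.1 - H.v z₁.1) + (z.2 - z₁.2) * H.v z₁.1 := by ring
    rw [e]
    have m1 : |z.2 * (H.v z.1 - H.v z₁.1)| ≤ c.χ := by
      rw [abs_mul, abs_of_nonneg hT2.1]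
      calc z.2 * |H.v z.1 - H.v z₁.1| ≤ 1 * c.χ := mul_le_mul hT2.2 hbv (abs_nonneg _) (by norm_num)
        _ = c.χ := one_mul _
    have m2 : |(z.2 - z₁.2) * H.v z₁.1| ≤ σ * K := by
      rw [abs_mul]
      exact mul_le_mul hbt hv1 (abs_nonneg _) hσ.le
    have m3 : σ * K ≤ c.h s * K := by nlinarith
    calc _ ≤ |H.p z.1 - H.p z₁.1| + |z.2 * (H.v z.1 - H.v z₁.1)| + |(z.2 - z₁.2) * H.v z₁.1| := abs_add_three _ _ _
      _ ≤ (K + 6) * c.h s := by nlinarith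
  · show |H.Yt z.1 z.2 - H.Yt z₁.1 z₁.2 - (-H.Zt z₁.1 z₁.2 * (z.2 - z₁.2) + z₁.2 * (H.Zt z.1 z.2 - H.Zt z₁.1 z₁.2))| ≤ (K + 6) * c.h s ^ 2
    unfold K7bHor.Zt K7bHor.Yt
    have e : H.q0 z.1 + z.2 * H.y1 z.1 - (H.q0 z₁.1 + z₁.2 * H.y1 z₁.1)
          - (-(H.p z₁.1 + z₁.2 * H.v z₁.1) * (z.2 - z₁.2) + z₁.2 * (H.p z.1 + z.2 * H.v z.1 - (H.p z₁.1 + z₁.2 * H.v z₁.1)))
        = D * (k8wR D (H.grp c.χ D l₀) (H.p z.1) (H.q0 z.1) z.2 - k8wR D (H.grp c.χ D l₀) (H.p z₁.1) (H.q0 z₁.1) z₁.2)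
          + (z.2 - z₁.2) * ((H.p z.1 - (H.grp c.χ D l₀).2.1 * D) + (H.p z₁.1 - (H.grp c.χ D l₀).2.1 * D))
          + (-(z₁.2 * z.2 * (H.v z.1 - H.v z₁.1)))
          + (z.2 * (H.y1 z.1 + H.p z.1) - z₁.2 * (H.y1 z₁.1 + H.p z₁.1)) := by
      unfold k8wR
      field_simp
      ring
    rw [e]
    have m1 : |D * (k8wR D (H.grp c.χ D l₀) (H.p z.1) (H.q0 z.1) z.2 - k8wR D (H.grp c.χ D l₀) (H.p z₁.1) (H.q0 z₁.1) z₁.2)| ≤ σ := by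
      rw [abs_mul, abs_of_pos hD0]
      calc D * _ ≤ 1 * σ := mul_le_mul hD1 hbR (abs_nonneg _) (by norm_num)
        _ = σ := one_mul _
    have m2 : |(z.2 - z₁.2) * ((H.p z.1 - (H.grp c.χ D l₀).2.1 * D) + (H.p z₁.1 - (H.grp c.χ D l₀).2.1 * D))| ≤ σ * 2 := by
      rw [abs_mul]
      refine mul_le_mul hbt ?_ (abs_nonneg _) hσ.le
      rw [abs_le]
      constructor <;> linarith [hp1.1, hp1.2, hp2.1, hp2.2]
    have m3 : |-(z₁.2 * z.2 * (H.v z.1 - H.v z₁.1))| ≤ c.χ := by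
      rw [abs_neg, abs_mul, abs_of_nonneg (mul_nonneg hT1.1 hT2.1)]
      calc z₁.2 * z.2 * |H.v z.1 - H.v z₁.1| ≤ 1 * c.χ :=
            mul_le_mul (by nlinarith [hT1.1, hT1.2, hT2.1, hT2.2]) hbv (abs_nonneg _) (by norm_num)
        _ = c.χ := one_mul _
    have m4 : |z.2 * (H.y1 z.1 + H.p z.1) - z₁.2 * (H.y1 z₁.1 + H.p z₁.1)| ≤ 2 * c.N ^ (-c.e0) := by
      have a1 : |z.2 * (H.y1 z.1 + H.p z.1)| ≤ c.N ^ (-c.e0) := by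
        rw [abs_mul, abs_of_nonneg hT2.1]
        calc z.2 * |H.y1 z.1 + H.p z.1| ≤ 1 * c.N ^ (-c.e0) := mul_le_mul hT2.2 he2 (abs_nonneg _) (by norm_num)
          _ = _ := one_mul _
      have a2 : |z₁.2 * (H.y1 z₁.1 + H.p z₁.1)| ≤ c.N ^ (-c.e0) := by
        rw [abs_mul, abs_of_nonneg hT1.1]
        calc z₁.2 * |H.y1 z₁.1 + H.p z₁.1| ≤ 1 * c.N ^ (-c.e0) := mul_le_mul hT1.2 he1 (abs_nonneg _) (by norm_num)
          _ = _ := one_mul _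
      calc _ ≤ |z.2 * (H.y1 z.1 + H.p z.1)| + |z₁.2 * (H.y1 z₁.1 + H.p z₁.1)| := abs_sub _ _
        _ ≤ _ := by linarith
    refine (abs_add_le _ _).trans ?_
    refine (add_le_add (abs_add_three _ _ _) le_rfl).trans ?_
    nlinarith

theorem k8wp_pb_dy {m lev : ℕ} (hl : lev ≤ m) {t t₁ : ℝ} {i i₁ : ℕ} (hf : ⌊t / (1 / 2 : ℝ) ^ m⌋ = ⌊t₁ / (1 / 2 : ℝ) ^ m⌋)
    (ht : t < ((i : ℝ) + 1) * (1 / 2 : ℝ) ^ lev) (ht₁ : (i₁ : ℝ) * (1 / 2 : ℝ) ^ lev ≤ t₁) : i₁ ≤ i := by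
  by_contra h
  rw [not_le] at h
  have hσ : (0 : ℝ) < (1 / 2 : ℝ) ^ m := by positivity
  have hl0 : (0 : ℝ) < (1 / 2 : ℝ) ^ lev := by positivity
  have e : (((((i : ℤ) + 1) * 2 ^ (m - lev) : ℤ)) : ℝ) * (1 / 2 : ℝ) ^ m = ((i : ℝ) + 1) * (1 / 2 : ℝ) ^ lev := by
    obtain ⟨k, rfl⟩ := Nat.exists_eq_add_of_le hl
    rw [Nat.add_sub_cancel_left, pow_add]
    push_cast
    have : (2 : ℝ) ^ k * (1 / 2 : ℝ) ^ k = 1 := by
      rw [← mul_pow]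
      norm_num
    calc ((i : ℝ) + 1) * 2 ^ k * ((1 / 2 : ℝ) ^ lev * (1 / 2 : ℝ) ^ k) = ((i : ℝ) + 1) * (1 / 2 : ℝ) ^ lev * ((2 : ℝ) ^ k * (1 / 2 : ℝ) ^ k) := by ring
      _ = _ := by rw [this, mul_one]
  have h1 : ⌊t / (1 / 2 : ℝ) ^ m⌋ < ((i : ℤ) + 1) * 2 ^ (m - lev) := by
    rw [Int.floor_lt, div_lt_iff₀ hσ, e]
    exact ht
  have h2 : ((i : ℤ) + 1) * 2 ^ (m - lev) ≤ ⌊t₁ / (1 / 2 : ℝ) ^ m⌋ := by
    rw [Int.le_floor, le_div_iff₀ hσ, e]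
    refine le_trans ?_ ht₁
    have : (i : ℝ) + 1 ≤ (i₁ : ℝ) := by exact_mod_cast h
    exact mul_le_mul_of_nonneg_right this hl0.le
  rw [hf] at h1
  exact absurd h2 (not_le.2 h1)

theorem k8wp_cell_shared (hI : K8wpIn H a c K sA D s σ D' u1 T E) {l₀ : H.Lam} {i j : ℤ} {z₁ z : H.Lam × ℝ}
    (h1 : z₁ ∈ a.cl c D σ E l₀ i j) (h2 : z ∈ a.cl c D σ E l₀ i j) :
    H.lab sA z = H.lab sA z₁ ∧ H.entOf sA z = H.entOf sA z₁ := by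
  obtain ⟨hE1, ⟨hd1, hg1, hr1⟩, ht1, -⟩ := h1
  obtain ⟨hE2, ⟨hd2, hg2, hr2⟩, ht2, -⟩ := h2
  have hK := hI.K1
  have hK0 : 0 < K := by linarith
  obtain ⟨hh0, hh1⟩ := k8wp_pa_h hI
  have hS1 := k8wp_pa_sub hI hE1
  have hS2 := k8wp_pa_sub hI hE2
  have hsA := hI.ch.sAG
  refine hI.ch.shared z₁ hE1 z hE2 ⟨hd2, hg2.trans hg1.symm, hr2.trans hr1.symm⟩ ?_
  obtain ⟨lev, hlev⟩ := hI.ok.dyad sA hsA
  obtain ⟨hq1, hb1, -⟩ := hI.ok.labmem sA hsA z₁ hS1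
  obtain ⟨hq2, hb2, -⟩ := hI.ok.labmem sA hsA z hS2
  obtain ⟨hl1, i₁, hi1⟩ := hlev _ hq1
  obtain ⟨hl2, i₂, hi2⟩ := hlev _ hq2
  obtain ⟨m, hm⟩ := hI.M.σdy
  have hle : lev ≤ m := by
    have h3 : σ ≤ (1 / 2 : ℝ) ^ lev := by
      rw [← hl1]
      refine le_trans ?_ (hI.ok.bllen sA hsA _ hq1).1
      have h4 : c.h s ≤ c.h sA := by
        unfold K7bPar.h
        refine Real.rpow_le_rpow_of_exponent_le hI.wf.N1 ?_
        have := mul_le_mul_of_nonneg_left hI.M.sAs hI.wf.k0.le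
        linarith
      have h5 : c.h s ^ 2 ≤ c.h s / K := by
        rw [le_div_iff₀ hK0]
        have := hI.M.Kh
        nlinarith
      exact hI.M.σh.trans (h5.trans (div_le_div_of_nonneg_right h4 hK0.le))
    rw [hm] at h3
    by_contra h6
    rw [not_le] at h6
    exact absurd h3 (not_le.2 (pow_lt_pow_right_of_lt_one₀ (by norm_num) (by norm_num) h6))
  have hf : ⌊z.2 / (1 / 2 : ℝ) ^ m⌋ = ⌊z₁.2 / (1 / 2 : ℝ) ^ m⌋ := by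
    rw [← hm]
    exact ht2.trans ht1.symm
  unfold K7bHor.blk at hb1 hb2 ⊢
  rw [hl1, hi1] at hb1
  rw [hl2, hi2] at hb2
  have e1 : (i₁ : ℝ) * (1 / 2 : ℝ) ^ lev + (1 / 2 : ℝ) ^ lev = ((i₁ : ℝ) + 1) * (1 / 2 : ℝ) ^ lev := by ring
  have e2 : (i₂ : ℝ) * (1 / 2 : ℝ) ^ lev + (1 / 2 : ℝ) ^ lev = ((i₂ : ℝ) + 1) * (1 / 2 : ℝ) ^ lev := by ring
  rw [e1] at hb1
  rw [e2] at hb2
  have a1 : i₁ ≤ i₂ := k8wp_pb_dy hle hf hb2.2 hb1.1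
  have a2 : i₂ ≤ i₁ := k8wp_pb_dy hle hf.symm hb1.2 hb2.1
  have a3 : i₁ = i₂ := le_antisymm a1 a2
  rw [hl1, hl2, hi1, hi2, a3]

/-- the box of the true label of an incidence of the cell lies in the common enlarged box -/
theorem k8wp_pc_qbox (hI : K8wpIn H a c K sA D s σ D' u1 T E) {l₀ : H.Lam} {i j : ℤ} {z₁ z : H.Lam × ℝ}
    (h1 : z₁ ∈ a.cl c D σ E l₀ i j) (h2 : z ∈ a.cl c D σ E l₀ i j) :
    k7bBox (H.ct (H.lab s z)) (H.cZ (H.lab s z)) (H.cY (H.lab s z)) (c.h s) K ⊆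
      k7bBox z₁.2 (H.Zt z₁.1 z₁.2) (H.Yt z₁.1 z₁.2) (c.h s) (K + 6 + K + 2 * (K + 6) * K + K + 2 * (K + 6 + K + 2 * (K + 6) * K) * K) := by
  have hK := hI.K1
  have hK0 : 0 ≤ K := by linarith
  obtain ⟨hh, -⟩ := k8wp_pa_h hI
  obtain ⟨hq, hb, ha⟩ := hI.ok.labmem s (k8wp_pa_sG hI) z (k8wp_pa_sub hI h2.1)
  have hbox := hI.ok.box s (k8wp_pa_sG hI) _ hq z.1 ha z.2 hb
  have hcen := k7b5d_symm (t := z.2) (Z := H.Zt z.1 z.2) (Y := H.Yt z.1 z.2) hbox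
  have h3 := k8wp_cell_box hI h1 h2
  have e1 := k7b_box_engulf (t' := z.2) (Z' := H.Zt z.1 z.2) (Y' := H.Yt z.1 z.2) hh.le
    (by linarith : (0 : ℝ) ≤ K + 6) hK0 h3
  exact k7b_box_engulf hh.le (by positivity) hK0 (e1 hcen)

theorem k8wp_pc_a (hI : K8wpIn H a c K sA D s σ D' u1 T E) : 0 < c.a s ∧ c.a s ≤ c.a sA ∧ c.a sA ≤ 1 ∧ c.ϱ ≤ c.a sA := by
  have hN := hI.wf.N1
  have h1 : 0 < c.a s := Real.rpow_pos_of_pos (by linarith) _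
  have h2 : c.a s ≤ c.a sA := by
    unfold K7bPar.a
    exact Real.rpow_le_rpow_of_exponent_le hN (by linarith [hI.M.sAs])
  have h3 : c.a sA ≤ 1 := by
    unfold K7bPar.a
    exact Real.rpow_le_one_of_one_le_of_nonpos hN (by linarith [hI.M.sA0])
  refine ⟨h1, h2, h3, ?_⟩
  have := hI.M.ϱa
  have := hI.wf.ϱ0
  linarith

/-- the mass of a band of half width `K A` about an affine function over a base set -/
theorem k8wp_pc_band (c : K7bPar) (H : K7bHor) {K A : ℝ} (hK : 1 ≤ K) (h : H.Ok c K) (hA0 : 0 < A) (hA : c.ϱ ≤ A) (hA1 : A ≤ 1)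
    (B : Set (ℝ × ℝ × ℝ)) (hB : MeasurableSet B) (L : ℝ × ℝ × ℝ × ℝ) :
    H.lam (H.Sp ∩ {z | H.base z ∈ B ∧ |H.X z - k7bAff L (H.base z)| ≤ K * A}) ≤ ENNReal.ofReal ((2 * K + 2) * (K * A ^ c.d)) * volume B := by
  obtain ⟨hc, hb⟩ := k7b5b_bins A (-(K * A)) (K * A) hA0 (by nlinarith)
  have hmL : Measurable (k7bAff L) := by
    unfold k7bAff
    fun_prop
  have hcov := k7b5b_cover H.lam (H.Sp ∩ {z | H.base z ∈ B ∧ |H.X z - k7bAff L (H.base z)| ≤ K * A})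
    (Finset.Icc ⌊-(K * A) / A⌋ ⌊K * A / A⌋)
    (fun m : ℤ => H.Sp ∩ {z | H.base z ∈ B ∧ |H.X z - (k7bAff L (H.base z) + (m : ℝ) * A)| ≤ A}) (ENNReal.ofReal (K * A ^ c.d) * volume B) ?_
    (fun m _ => h.capP B (fun u => k7bAff L u + (m : ℝ) * A) A hB (hmL.add measurable_const) hA hA1)
  · refine hcov.trans ?_
    rw [← mul_assoc, ← ENNReal.ofReal_natCast, ← ENNReal.ofReal_mul (Nat.cast_nonneg _)]
    refine mul_le_mul_left (ENNReal.ofReal_le_ofReal ?_) _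
    refine mul_le_mul_of_nonneg_right ?_ (by positivity)
    refine hc.trans (le_of_eq ?_)
    field_simp
    ring
  · rintro z ⟨hz, hzB, hzX⟩
    refine ⟨k7bBin A (H.X z - k7bAff L (H.base z)), hb _ (abs_le.1 hzX), hz, hzB, ?_⟩
    obtain ⟨b1, b2⟩ := k7b5b_bin_sub A (H.X z - k7bAff L (H.base z)) hA0
    rw [abs_le]
    constructor <;> linarith

theorem k8wp_pc_fin {n K A A' h4 ρ₃ : ℝ} (hK : 1 ≤ K) (hA : 0 < A) (hA' : 0 < A') (hh : 0 < h4) (hρ0 : 0 ≤ ρ₃) (hρ : ρ₃ ≤ 67 * K ^ 3)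
    (hn : n * (A * h4 / K ^ 2) ≤ K * ((2 * K + 2) * (K * A') * (8 * ρ₃ ^ 3 * h4))) : n ≤ 9624416 * K ^ 14 * (A' / A) := by
  have hK0 : 0 < K := by linarith
  have e1 : n * (A * h4 / K ^ 2) = n * A * h4 / K ^ 2 := by ring
  rw [e1, div_le_iff₀ (by positivity)] at hn
  have h3 : ρ₃ ^ 3 ≤ (67 * K ^ 3) ^ 3 := pow_le_pow_left₀ hρ0 hρ 3
  have h4' : h4 * (n * A) ≤ h4 * (9624416 * K ^ 14 * A') := by
    calc h4 * (n * A) = n * A * h4 := by ring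
      _ ≤ K * ((2 * K + 2) * (K * A') * (8 * ρ₃ ^ 3 * h4)) * K ^ 2 := hn
      _ ≤ K * ((4 * K) * (K * A') * (8 * (67 * K ^ 3) ^ 3 * h4)) * K ^ 2 := by
          have : 2 * K + 2 ≤ 4 * K := by linarith
          gcongr
      _ = h4 * (9624416 * K ^ 14 * A') := by ring
  have h5 := le_of_mul_le_mul_left h4' hh
  rw [← mul_div_assoc, le_div_iff₀ hA]
  exact h5

theorem k8wp_pair_count : ∃ C : ℕ, ∀ (H : K7bHor) (a : K8wCh H) (c : K7bPar) (K sA D s σ D' u1 : ℝ) (T : Finset ℝ) (E : Set (H.Lam × ℝ)),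
    K8wpIn H a c K sA D s σ D' u1 T E → ∀ (l₀ : H.Lam) (i j : ℤ) (S : Finset (H.Q × (ℝ × ℝ × ℝ × ℝ))),
    (∀ x ∈ S, ∃ z ∈ a.cl c D σ E l₀ i j, (H.lab s z, H.entOf s z) = x) →
    (S.card : ℝ) ≤ (C : ℝ) * K ^ C * (c.a sA / c.a s) ^ c.d := by
  refine ⟨9624416, ?_⟩
  intro H a c K sA D s σ D' u1 T E hI l₀ i j S hS
  have hK := hI.K1
  have hK0 : 0 < K := by linarith
  obtain ⟨hh, -⟩ := k8wp_pa_h hI
  obtain ⟨ha, haA, hA1, hϱA⟩ := k8wp_pc_a hI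
  have hA0 : 0 < c.a sA := lt_of_lt_of_le ha haA
  have hsG := k8wp_pa_sG hI
  have hsA := hI.ch.sAG
  rcases S.eq_empty_or_nonempty with rfl | ⟨x₁, hx₁⟩
  · rw [Finset.card_empty, Nat.cast_zero]
    positivity
  obtain ⟨z₁, hz₁, -⟩ := hS x₁ hx₁
  obtain ⟨ρ₃, hρ₃⟩ : ∃ ρ₃ : ℝ, ρ₃ = K + 6 + K + 2 * (K + 6) * K + K + 2 * (K + 6 + K + 2 * (K + 6) * K) * K := ⟨_, rfl⟩
  have hρ0 : 0 ≤ ρ₃ := by rw [hρ₃]; positivity
  have hρ : ρ₃ ≤ 67 * K ^ 3 := by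
    rw [hρ₃]
    have h2 : K ≤ K ^ 2 := by nlinarith
    have h3 : K ^ 2 ≤ K ^ 3 := by nlinarith
    nlinarith
  obtain ⟨Bs, hBs⟩ : ∃ Bs : Set (ℝ × ℝ × ℝ), Bs = k7bBox z₁.2 (H.Zt z₁.1 z₁.2) (H.Yt z₁.1 z₁.2) (c.h s) ρ₃ := ⟨_, rfl⟩
  have mBs : MeasurableSet Bs := by rw [hBs]; exact k7b5d_box_meas _ _ _ _ _
  have vBs : volume Bs ≤ ENNReal.ofReal (8 * ρ₃ ^ 3 * c.h s ^ 4) := by
    rw [hBs]
    exact k7b5d_box_vol _ _ _ _ _ hh.le hρ0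
  have hpack := k7b_packing (ENNReal.ofReal K • H.lam) S
    (fun x => a.E0 ∩ {z | H.lab s z = x.1 ∧ H.entOf s z = x.2 ∧ H.entOf sA z = H.entOf sA z₁})
    (H.Sp ∩ {z | H.base z ∈ Bs ∧ |H.X z - k7bAff (H.entOf sA z₁) (H.base z)| ≤ K * c.a sA})
    (fun x _ => hI.ch.prep.meas0.inter ((hI.ok.mlab s hsG x.1).inter ((hI.ok.ment s hsG x.2).inter (hI.ok.ment sA hsA _)))) ?_ ?_
    (m := ENNReal.ofReal (c.a s ^ c.d * c.h s ^ 4 / K ^ 2)) ?_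
  · have hmass := k8wp_pc_band c H hK hI.ok hA0 hϱA hA1 Bs mBs (H.entOf sA z₁)
    have hAd' : 0 < c.a sA ^ c.d := Real.rpow_pos_of_pos hA0 _
    have h1 : (S.card : ℝ≥0∞) * ENNReal.ofReal (c.a s ^ c.d * c.h s ^ 4 / K ^ 2) ≤
        ENNReal.ofReal (K * ((2 * K + 2) * (K * c.a sA ^ c.d) * (8 * ρ₃ ^ 3 * c.h s ^ 4))) := by
      refine hpack.trans ?_
      rw [Measure.smul_apply, smul_eq_mul, ENNReal.ofReal_mul hK0.le, ENNReal.ofReal_mul (by positivity)]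
      exact mul_le_mul_right (hmass.trans (mul_le_mul_right vBs _)) _
    rw [← ENNReal.ofReal_natCast, ← ENNReal.ofReal_mul (Nat.cast_nonneg _),
      ENNReal.ofReal_le_ofReal_iff (by positivity)] at h1
    have hAd : 0 < c.a s ^ c.d := Real.rpow_pos_of_pos ha _
    have h2 := k8wp_pc_fin hK hAd hAd' (by positivity : 0 < c.h s ^ 4) hρ0 hρ h1
    rw [Real.div_rpow hA0.le ha.le]
    refine h2.trans ?_
    refine mul_le_mul_of_nonneg_right ?_ (by positivity)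
    push_cast
    refine mul_le_mul_of_nonneg_left (pow_le_pow_right₀ hK (by norm_num)) (by norm_num)
  · intro x _ x' _ hxx
    refine Set.disjoint_left.2 fun z hz hz' => hxx ?_
    exact Prod.ext (hz.2.1.symm.trans hz'.2.1) (hz.2.2.1.symm.trans hz'.2.2.1)
  · intro x hx z' hz'
    obtain ⟨z, hz, hzx⟩ := hS x hx
    have hz'S : z' ∈ H.Sp := hI.ch.prep.sub0 hz'.1
    refine ⟨hz'S, ?_, ?_⟩
    · obtain ⟨hq', hb', ha'⟩ := hI.ok.labmem s hsG z' hz'S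
      have hbox := hI.ok.box s hsG _ hq' z'.1 ha' z'.2 hb'
      have hl : H.lab s z' = H.lab s z := hz'.2.1.trans (congrArg Prod.fst hzx).symm
      rw [hl] at hbox
      have hsub := k8wp_pc_qbox hI hz₁ hz
      show H.base z' ∈ Bs
      rw [hBs, hρ₃]
      exact hsub hbox
    · obtain ⟨-, hb', -⟩ := hI.ok.labmem sA hsA z' hz'S
      have h3 := hI.ok.entfit sA hsA z' hz'S z'.2 hb'
      rw [hz'.2.2.2] at h3
      exact h3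
  · intro x hx
    obtain ⟨z, hz, hzx⟩ := hS x hx
    have hzE : z ∈ E := hz.1
    have hp := hI.ch.prep.pairs sA hsA s hsG hI.M.sAs z hzE
    obtain ⟨hqQ, -, -⟩ := hI.ok.labmem s hsG z (k8wp_pa_sub hI hzE)
    have hbl := (hI.ok.bllen s hsG _ hqQ).1
    have hν := (hI.ok.νQ s hsG _ hqQ).1
    have hmQ : ENNReal.ofReal (c.a s ^ c.d * c.h s ^ 4 / K ^ 2) ≤ H.mQ (H.lab s z) := by
      unfold K7bHor.mQ
      have e : c.a s ^ c.d * c.h s ^ 4 / K ^ 2 = c.h s / K * (c.a s ^ c.d * c.h s ^ 3 / K) := by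
        field_simp
      rw [e, ENNReal.ofReal_mul (by positivity)]
      exact mul_le_mul' (ENNReal.ofReal_le_ofReal hbl) hν
    rw [Measure.smul_apply, smul_eq_mul]
    refine hmQ.trans (hp.trans (mul_le_mul_right (measure_mono ?_) _))
    rintro z' ⟨h1, h2, h3, h4⟩
    exact ⟨h1, h2.trans (congrArg Prod.fst hzx), h3.trans (congrArg Prod.snd hzx), h4.trans (k8wp_cell_shared hI hz₁ hz).2⟩

end Claimed.Agent.R252
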